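import Vale.Agent.P141.H652.ThetaS

/-!
# P141, line (A), (D3): the increasing slot, time dependent weights

The sums of `ThetaS` with a weight `W k` depending on the scale (companions of time `k`).
-/

namespace Vale.Agent.P141.H652

open Finset Matrix
open Vale.Agent.P141.PL (Pt Bx iv ix cx mem_iv card_iv ix_ix)
open Vale.Agent.P141.PL.H560 (cbs bx0)
open Vale.Agent.P141.H420 (Tr)

set_option linter.unusedSectionVars false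

noncomputable section

variable {ι : Type*} [Fintype ι] [DecidableEq ι] {l : ℝ}

omit [Fintype ι] [DecidableEq ι] in
/-- `H922.node_sum_le` with a weight depending on the scale -/
theorem node_sum_leW (o : ℤ) (K : ℕ) (M : Pt) {Φ : ℕ → ℤ → ℤ → ℤ → ℝ}
    (hΦ : ∀ k m x1 x3, 0 ≤ Φ k m x1 x3) {W : ℕ → ℤ → ℤ → ℤ → ℝ} {e : ℝ}
    (hW : ∀ k ∈ Icc 1 K, ∀ j x1 x3, ∑ x0 ∈ iv k j, W k x0 x1 x3 ≤ e * 2 ^ k) :
    ∑ k ∈ Icc 1 K, ∑ m ∈ cbs K M k, ∑ x0 ∈ iv k (bx0 o m).1, ∑ x1 ∈ iv k m.1,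
      ∑ x3 ∈ iv k m.2.2, W k x0 x1 x3 * Φ k m.2.1 x1 x3 ≤
    e * (2 ^ K * ∑ x1 ∈ iv K M.1, ∑ x3 ∈ iv K M.2.2,
      H420.tsum (fun k m2 => Φ k m2 x1 x3) K M.2.1) := by
  have e1 : ∀ k ∈ Icc 1 K, (∑ m ∈ cbs K M k, ∑ x0 ∈ iv k (bx0 o m).1, ∑ x1 ∈ iv k m.1,
      ∑ x3 ∈ iv k m.2.2, W k x0 x1 x3 * Φ k m.2.1 x1 x3) ≤
      ∑ x1 ∈ iv K M.1, ∑ x3 ∈ iv K M.2.2,
        e * (2 ^ k * ∑ m2 ∈ iv (K - k) M.2.1, Φ k m2 x1 x3) := by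
    intro k hk
    rw [H922.node_scale (mem_Icc.1 hk).2 o M (Φ k) (W k)]
    refine sum_le_sum fun x1 _ => sum_le_sum fun x3 _ => ?_
    rw [mul_sum, mul_sum]
    refine sum_le_sum fun m2 _ => ?_
    rw [← mul_assoc]
    exact mul_le_mul_of_nonneg_right (hW k hk _ _ _) (hΦ _ _ _ _)
  refine (sum_le_sum e1).trans (le_of_eq ?_)
  rw [sum_comm, mul_sum, mul_sum]
  refine sum_congr rfl fun x1 _ => ?_
  rw [sum_comm, mul_sum, mul_sum]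
  refine sum_congr rfl fun x3 _ => ?_
  rw [← mul_sum, H922.tsum_iv]

section nodes

variable {K : ℕ} {M : Pt} {G Kq : ℤ → ℕ → ℤ → Matrix ι ι ℝ} {v : ℤ → ℤ → ι → ℝ}

omit [Fintype ι] [DecidableEq ι] in
/-- a function of the point of the node dominated by a function of the `x₂`-cell -/
theorem nodes_domW (o : ℤ) {f : ℕ → Pt → ℤ → ℤ → ℤ → ℝ} {Φ : ℕ → ℤ → ℤ → ℤ → ℝ} {Q : ℤ → ℤ → ℝ}
    (hf : ∀ k ∈ Icc 1 K, ∀ m ∈ cbs K M k, ∀ x0 ∈ iv k (bx0 o m).1, ∀ x1 ∈ iv k m.1,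
      ∀ x3 ∈ iv k m.2.2, f k m x0 x1 x3 ≤ Φ k m.2.1 x1 x3)
    (hΦ0 : ∀ k q x1 x3, 0 ≤ Φ k q x1 x3)
    (hΦ : ∀ x1 ∈ iv K M.1, ∀ x3 ∈ iv K M.2.2, ∑ k ∈ Icc 1 K, 2 ^ k *
      ∑ q ∈ iv (K - k) M.2.1, Φ k q x1 x3 ≤ 2 ^ K * Q x1 x3)
    {W : ℕ → ℤ → ℤ → ℤ → ℝ} {e : ℝ} (he : 0 ≤ e) (hW0 : ∀ k x0 x1 x3, 0 ≤ W k x0 x1 x3)
    (hW : ∀ k ∈ Icc 1 K, ∀ j x1 x3, ∑ x0 ∈ iv k j, W k x0 x1 x3 ≤ e * 2 ^ k) :
    ∑ k ∈ Icc 1 K, ∑ m ∈ cbs K M k, ∑ x0 ∈ iv k (bx0 o m).1, ∑ x1 ∈ iv k m.1,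
      ∑ x3 ∈ iv k m.2.2, W k x0 x1 x3 * f k m x0 x1 x3 ≤
    e * (2 ^ K * ∑ x1 ∈ iv K M.1, ∑ x3 ∈ iv K M.2.2, Q x1 x3) := by
  refine le_trans ?_ ((node_sum_leW o K M hΦ0 hW).trans ?_)
  · refine sum_le_sum fun k hk => sum_le_sum fun m hm => sum_le_sum fun x0 h0 =>
      sum_le_sum fun x1 h1 => sum_le_sum fun x3 h3 => ?_
    exact mul_le_mul_of_nonneg_left (hf k hk m hm x0 h0 x1 h1 x3 h3) (hW0 _ _ _ _)
  · refine mul_le_mul_of_nonneg_left (mul_le_mul_of_nonneg_left (sum_le_sum fun x1 h1 =>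
      sum_le_sum fun x3 h3 => ?_) (by positivity)) he
    have h4 := hΦ x1 h1 x3 h3
    rw [← H922.tsum_iv (fun k q => Φ k q x1 x3) K M.2.1] at h4
    exact le_of_mul_le_mul_left h4 (by positivity)

/-- **Distance of the slot to `W v` at the node**, real ties, weight of bounded `x₀`-line
averages. -/
theorem near_nodesW {o : ℤ} (ho : o = 1 ∨ o = -1) (hT : ∀ x1 ∈ iv K M.1, Tr l K (G x1) (Kq x1))
    (v : ℤ → ℤ → ι → ℝ) {W : ℕ → ℤ → ℤ → ℤ → ℝ} {e : ℝ} (he : 0 ≤ e)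
    (hW0 : ∀ k x0 x1 x3, 0 ≤ W k x0 x1 x3)
    (hW : ∀ k ∈ Icc 1 K, ∀ j x1 x3, ∑ x0 ∈ iv k j, W k x0 x1 x3 ≤ e * 2 ^ k) :
    ∑ k ∈ Icc 1 K, ∑ m ∈ cbs K M k, ∑ x0 ∈ iv k (bx0 o m).1, ∑ x1 ∈ iv k m.1,
      ∑ x3 ∈ iv k m.2.2, W k x0 x1 x3 *
        (((Th l K M.2.1 (Kq x1) (o - 2) x0 x1 k m.2.2 - WT l K M.2.1 (Kq x1) k m.2.1) *ᵥ v x1 x3) ⬝ᵥ
        ((Th l K M.2.1 (Kq x1) (o - 2) x0 x1 k m.2.2 - WT l K M.2.1 (Kq x1) k m.2.1) *ᵥ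
          v x1 x3)) ≤
    e * (2 ^ K * ∑ x1 ∈ iv K M.1, ∑ x3 ∈ iv K M.2.2,
      12288 * l⁻¹ * (v x1 x3 ⬝ᵥ G x1 K M.2.1 *ᵥ v x1 x3)) := by
  refine nodes_domW o (f := fun k m x0 x1 x3 =>
        ((Th l K M.2.1 (Kq x1) (o - 2) x0 x1 k m.2.2 - WT l K M.2.1 (Kq x1) k m.2.1) *ᵥ v x1 x3) ⬝ᵥ
        ((Th l K M.2.1 (Kq x1) (o - 2) x0 x1 k m.2.2 - WT l K M.2.1 (Kq x1) k m.2.1) *ᵥ
          v x1 x3))
    (Φ := fun k q x1 x3 => 3 * NrV (fun k q => WT l K M.2.1 (Kq x1) k q *ᵥ v x1 x3) k (q + dl o))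
    (fun k hk m _ x0 h0 x1 h1 x3 _ => ?_)
    (fun k q x1 x3 => mul_nonneg (by norm_num) (NrV_nonneg _ _ _)) (fun x1 h1 x3 _ => ?_) he hW0 hW
  · obtain ⟨a1, a2⟩ := st_cell ho h0 h1
    rw [sub_mulVec, Th_mulVec]
    exact near_o (drift_vec l K M.2.1 (Kq x1) (v x1 x3)) (mem_Icc.1 hk).2 ho a1 a2
  · have h2 := near_sum (drift_vec l K M.2.1 (Kq x1) (v x1 x3)) (M := M.2.1)
      (fun k _ q hq => by rw [WT_out hq, zero_mulVec])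
      (fun k _ q hq => by rw [ET_out hq, zero_mulVec])
      (fun k => (iv (K - k) M.2.1).map (addRightEmbedding (dl o)))
    have h3 := EnV_le (M := M.2.1) (hT x1 h1) (v x1 x3)
    have h4 : ∑ k ∈ Icc 1 K, (2 : ℝ) ^ k * ∑ q ∈ iv (K - k) M.2.1,
        3 * NrV (fun k q => WT l K M.2.1 (Kq x1) k q *ᵥ v x1 x3) k (q + dl o) ≤
        3 * ∑ k ∈ range (K + 1), 2 ^ k * ∑ m ∈ (iv (K - k) M.2.1).map (addRightEmbedding (dl o)),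
          NrV (fun k q => WT l K M.2.1 (Kq x1) k q *ᵥ v x1 x3) k m := by
      rw [mul_sum]
      refine (le_of_eq (sum_congr rfl fun k _ => ?_)).trans
        (sum_le_sum_of_subset_of_nonneg (fun k hk => ?_) fun k _ _ => ?_)
      · rw [← mul_sum, sum_map]
        simp only [addRightEmbedding_apply]
        ring
      · rw [mem_range]
        have := (mem_Icc.1 hk).2
        omega
      · exact mul_nonneg (by norm_num) (mul_nonneg (by positivity)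
          (sum_nonneg fun _ _ => NrV_nonneg _ _ _))
    refine h4.trans ?_
    calc _ ≤ 3 * (4096 * (2 ^ K * (l⁻¹ * (v x1 x3 ⬝ᵥ G x1 K M.2.1 *ᵥ v x1 x3)))) := by
          refine mul_le_mul_of_nonneg_left (h2.trans ?_) (by norm_num)
          exact mul_le_mul_of_nonneg_left h3 (by norm_num)
      _ = _ := by ring

/-- **The half differences of the slot**, real ties. -/
theorem half_nodesW {o : ℤ} (ho : o = 1 ∨ o = -1) (hT : ∀ x1 ∈ iv K M.1, Tr l K (G x1) (Kq x1))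
    (v : ℤ → ℤ → ι → ℝ) {W : ℕ → ℤ → ℤ → ℤ → ℝ} {e : ℝ} (he : 0 ≤ e)
    (hW0 : ∀ k x0 x1 x3, 0 ≤ W k x0 x1 x3)
    (hW : ∀ k ∈ Icc 1 K, ∀ j x1 x3, ∑ x0 ∈ iv k j, W k x0 x1 x3 ≤ e * 2 ^ k) :
    ∑ k ∈ Icc 1 K, ∑ m ∈ cbs K M k, ∑ x0 ∈ iv k (bx0 o m).1, ∑ x1 ∈ iv k m.1,
      ∑ x3 ∈ iv k m.2.2, W k x0 x1 x3 *
        ((ah l K M.2.1 (Kq x1) (o - 2) x0 x1 (k - 1) m.2.2 *ᵥ v x1 x3) ⬝ᵥ
        (ah l K M.2.1 (Kq x1) (o - 2) x0 x1 (k - 1) m.2.2 *ᵥ v x1 x3)) ≤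
    e * (2 ^ K * ∑ x1 ∈ iv K M.1, ∑ x3 ∈ iv K M.2.2,
      4096 * l⁻¹ * (v x1 x3 ⬝ᵥ G x1 K M.2.1 *ᵥ v x1 x3)) := by
  refine nodes_domW o (f := fun k m x0 x1 x3 =>
        (ah l K M.2.1 (Kq x1) (o - 2) x0 x1 (k - 1) m.2.2 *ᵥ v x1 x3) ⬝ᵥ
        (ah l K M.2.1 (Kq x1) (o - 2) x0 x1 (k - 1) m.2.2 *ᵥ v x1 x3))
    (Φ := fun k q x1 x3 => HdV (fun k q => WT l K M.2.1 (Kq x1) k q *ᵥ v x1 x3) k (q + dl o))
    (fun k hk m _ x0 h0 x1 h1 x3 _ => ?_)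
    (fun k q x1 x3 => HdV_nonneg _ _ _) (fun x1 h1 x3 _ => ?_) he hW0 hW
  · obtain ⟨j, rfl⟩ : ∃ j, k = j + 1 := ⟨k - 1, by have := (mem_Icc.1 hk).1; omega⟩
    obtain ⟨a1, a2⟩ := st_cell ho h0 h1
    have hj : j ≤ K := by have := (mem_Icc.1 hk).2; omega
    have h2 := half_vec' (drift_vec l K M.2.1 (Kq x1) (v x1 x3)) hj a1 a2
    rw [Nat.add_sub_cancel]
    have e1 : ah l K M.2.1 (Kq x1) (o - 2) x0 x1 j m.2.2 *ᵥ v x1 x3 =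
        -((1 / 2 : ℝ) • (Fw (fun k q => WT l K M.2.1 (Kq x1) k q *ᵥ v x1 x3)
          (fun k q => ET l K M.2.1 (Kq x1) k q *ᵥ v x1 x3) j (st (o - 2) x0 x1 (j + 1) m.2.2) -
          Fw (fun k q => WT l K M.2.1 (Kq x1) k q *ᵥ v x1 x3)
          (fun k q => ET l K M.2.1 (Kq x1) k q *ᵥ v x1 x3) j
            (st (o - 2) x0 x1 (j + 1) m.2.2 + 2 ^ j))) := by
      unfold ah
      rw [smul_mulVec, sub_mulVec, Th_mulVec, Th_mulVec, st_odd, st_even]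
      module
    rw [e1, neg_dotProduct, dotProduct_neg, neg_neg]
    exact h2
  · have h2 := half_sum (drift_vec l K M.2.1 (Kq x1) (v x1 x3)) (M := M.2.1)
      (fun k _ q hq => by rw [WT_out hq, zero_mulVec])
      (fun k _ q hq => by rw [ET_out hq, zero_mulVec])
      (fun k => (iv (K - (k + 1)) M.2.1).map (addRightEmbedding (dl o)))
    have h3 := EnV_le (M := M.2.1) (hT x1 h1) (v x1 x3)
    rw [← sum_range_Icc (fun k => 2 ^ k * ∑ q ∈ iv (K - k) M.2.1,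
      HdV (fun k q => WT l K M.2.1 (Kq x1) k q *ᵥ v x1 x3) k (q + dl o))]
    have h4 : ∀ k, ∑ m ∈ (iv (K - (k + 1)) M.2.1).map (addRightEmbedding (dl o)),
        HdV (fun k q => WT l K M.2.1 (Kq x1) k q *ᵥ v x1 x3) (k + 1) m =
        ∑ q ∈ iv (K - (k + 1)) M.2.1,
          HdV (fun k q => WT l K M.2.1 (Kq x1) k q *ᵥ v x1 x3) (k + 1) (q + dl o) := by
      intro k
      rw [sum_map]
      simp only [addRightEmbedding_apply]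
    simp only [h4] at h2
    calc _ ≤ 4096 * (2 ^ K * (l⁻¹ * (v x1 x3 ⬝ᵥ G x1 K M.2.1 *ᵥ v x1 x3))) := by
          exact h2.trans (mul_le_mul_of_nonneg_left h3 (by norm_num))
      _ = _ := by ring

/-- **The losses of the slot**, real ties. -/
theorem eb_nodesW {o : ℤ} (ho : o = 1 ∨ o = -1) (hT : ∀ x1 ∈ iv K M.1, Tr l K (G x1) (Kq x1))
    (v : ℤ → ℤ → ι → ℝ) {W : ℕ → ℤ → ℤ → ℤ → ℝ} {e : ℝ} (he : 0 ≤ e)
    (hW0 : ∀ k x0 x1 x3, 0 ≤ W k x0 x1 x3)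
    (hW : ∀ k ∈ Icc 1 K, ∀ j x1 x3, ∑ x0 ∈ iv k j, W k x0 x1 x3 ≤ e * 2 ^ k) :
    ∑ k ∈ Icc 1 K, ∑ m ∈ cbs K M k, ∑ x0 ∈ iv k (bx0 o m).1, ∑ x1 ∈ iv k m.1,
      ∑ x3 ∈ iv k m.2.2, W k x0 x1 x3 *
        (v x1 x3 ⬝ᵥ eb l K M.2.1 (Kq x1) (o - 2) x0 x1 k m.2.2 *ᵥ v x1 x3) ≤
    e * (2 ^ K * ∑ x1 ∈ iv K M.1, ∑ x3 ∈ iv K M.2.2,
      2 * l⁻¹ * (v x1 x3 ⬝ᵥ G x1 K M.2.1 *ᵥ v x1 x3)) := by
  have hE : ∀ x1 ∈ iv K M.1, ∀ k q (y : ι → ℝ), 0 ≤ y ⬝ᵥ ET l K M.2.1 (Kq x1) k q *ᵥ y :=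
    fun x1 h1 k q y => H420.quad_nonneg (ET_psd (M := M.2.1) (hT x1 h1) k q) y
  refine nodes_domW o (f := fun k m x0 x1 x3 =>
        v x1 x3 ⬝ᵥ eb l K M.2.1 (Kq x1) (o - 2) x0 x1 k m.2.2 *ᵥ v x1 x3)
    (Φ := fun k q x1 x3 => if x1 ∈ iv K M.1 then ∑ i ∈ range 4,
      v x1 x3 ⬝ᵥ ET l K M.2.1 (Kq x1) k (q + (dl o - 2 + i)) *ᵥ v x1 x3 else 0)
    (fun k hk m hm x0 h0 x1 h1 x3 _ => ?_)
    (fun k q x1 x3 => ?_) (fun x1 h1 x3 _ => ?_) he hW0 hW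
  · have hx1 : x1 ∈ iv K M.1 := by
      unfold cbs at hm
      rw [mem_product] at hm
      have h2 := hm.1
      have hkK := (mem_Icc.1 hk).2
      rw [mem_iv] at h1 h2 ⊢
      rw [← h1, ix_ix, Nat.add_sub_cancel' hkK] at h2
      exact h2
    rw [if_pos hx1]
    obtain ⟨a1, a2⟩ := st_cell ho h0 h1
    have h2 := H420.quad_nonneg (eb_le (M := M.2.1) (hT x1 hx1) (o - 2) x0 x1 k m.2.2) (v x1 x3)
    rw [sub_mulVec, dotProduct_sub, add_mulVec, dotProduct_add] at h2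
    set q := st (o - 2) x0 x1 k m.2.2 / 2 ^ k with hq
    obtain ⟨i, hi⟩ : ∃ i : ℕ, q = m.2.1 + (dl o - 2 + i) :=
      ⟨(q - (m.2.1 + (dl o - 2))).toNat, by omega⟩
    have hi3 : i < 3 := by omega
    have hsub : ({i, i + 1} : Finset ℕ) ⊆ range 4 := by
      intro j hj
      simp only [mem_insert, mem_singleton] at hj
      rw [mem_range]
      omega
    refine le_trans ?_ (sum_le_sum_of_subset_of_nonneg hsub fun j _ _ => hE x1 hx1 _ _ _)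
    rw [sum_pair (by omega), ← hi]
    have e4 : m.2.1 + (dl o - 2 + ((i + 1 : ℕ) : ℤ)) = q + 1 := by push_cast; rw [hi]; ring
    rw [e4]
    linarith
  · split_ifs with h1
    · exact sum_nonneg fun i _ => hE x1 h1 _ _ _
    · exact le_rfl
  · simp only [if_pos h1]
    have h2 := ET_sum (M := M.2.1) (hT x1 h1) (v x1 x3)
    have h3 : ∀ k, ∑ q ∈ iv (K - k) M.2.1, ∑ i ∈ range 4,
        v x1 x3 ⬝ᵥ ET l K M.2.1 (Kq x1) k (q + (dl o - 2 + (i : ℕ))) *ᵥ v x1 x3 ≤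
        4 * ∑ q ∈ iv (K - k) M.2.1, v x1 x3 ⬝ᵥ ET l K M.2.1 (Kq x1) k q *ᵥ v x1 x3 := by
      intro k
      rw [sum_comm]
      refine (sum_le_sum fun i _ => sum_shift_le
        (f := fun q => v x1 x3 ⬝ᵥ ET l K M.2.1 (Kq x1) k q *ᵥ v x1 x3)
        (fun q => hE x1 h1 _ _ _) (X := iv (K - k) M.2.1)
        (fun q hq => by rw [ET_out hq, zero_mulVec, dotProduct_zero]) _ _).trans (le_of_eq ?_)
      rw [sum_const, card_range, nsmul_eq_mul]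
      norm_num
    calc _ ≤ ∑ k ∈ Icc 1 K, (2 : ℝ) ^ k * (4 * ∑ q ∈ iv (K - k) M.2.1,
          v x1 x3 ⬝ᵥ ET l K M.2.1 (Kq x1) k q *ᵥ v x1 x3) :=
          sum_le_sum fun k _ => mul_le_mul_of_nonneg_left (h3 k) (by positivity)
      _ = 4 * ∑ k ∈ Icc 1 K, (2 : ℝ) ^ k * ∑ q ∈ iv (K - k) M.2.1,
          v x1 x3 ⬝ᵥ ET l K M.2.1 (Kq x1) k q *ᵥ v x1 x3 := by
          rw [mul_sum]
          exact sum_congr rfl fun k _ => by ring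
      _ ≤ 4 * (2 ^ K * ((2 * l)⁻¹ * (v x1 x3 ⬝ᵥ G x1 K M.2.1 *ᵥ v x1 x3))) := by linarith
      _ = _ := by rw [mul_inv]; ring

end nodes

section all

variable {K : ℕ} {M : ℤ} {G Kq : ℤ → ℕ → ℤ → Matrix ι ι ℝ} {v : ℤ → ℤ → ι → ℝ}

/-- **The half differences at fixed `(x₁, x₃)`**: sum over all scales and all `x₀`. -/
theorem half_allW {Kr Gr : ℕ → ℤ → Matrix ι ι ℝ} (hT : Tr l K Gr Kr) (w : ι → ℝ) {W : ℕ → ℤ → ℝ} {e : ℝ}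
    (he : 0 ≤ e) (hW0 : ∀ k x, 0 ≤ W k x) (hW : ∀ k ∈ Icc 1 K, ∀ j, ∑ x ∈ iv k j, W k x ≤ e * 2 ^ k)
    (X : Finset ℤ) (c x1 x3 : ℤ) :
    ∑ k ∈ range K, ∑ x ∈ X, W (k + 1) x * ((ah l K M Kr c x x1 k (ix (k + 1) x3) *ᵥ w) ⬝ᵥ
      (ah l K M Kr c x x1 k (ix (k + 1) x3) *ᵥ w)) ≤
    e * (2 ^ K * (8192 * l⁻¹ * (w ⬝ᵥ Gr K M *ᵥ w))) := by
  have h1 : ∀ k ∈ range K, ∑ x ∈ X, W (k + 1) x * ((ah l K M Kr c x x1 k (ix (k + 1) x3) *ᵥ w) ⬝ᵥ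
      (ah l K M Kr c x x1 k (ix (k + 1) x3) *ᵥ w)) ≤
      2 * e * (2 ^ (k + 1) * ∑ q ∈ X.image (fun x => st c x x1 (k + 1) (ix (k + 1) x3) /
        2 ^ (k + 1)), HdV (fun k q => WT l K M Kr k q *ᵥ w) (k + 1) q) := by
    intro k hk
    have hk' := mem_range.1 hk
    refine le_trans (sum_le_sum fun x _ => mul_le_mul_of_nonneg_left ?_ (hW0 _ x))
      (fib_sum (hW0 (k + 1)) (hW (k + 1) (by rw [mem_Icc]; omega)) (fun q => HdV_nonneg _ _ _) X c x1 (ix (k + 1) x3))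
    have h2 := half_vec' (drift_vec l K M Kr w) hk'.le
      (a := st c x x1 (k + 1) (ix (k + 1) x3))
      (m := st c x x1 (k + 1) (ix (k + 1) x3) / 2 ^ (k + 1)) (by linarith) le_rfl
    have e1 : ah l K M Kr c x x1 k (ix (k + 1) x3) *ᵥ w =
        -((1 / 2 : ℝ) • (Fw (fun k q => WT l K M Kr k q *ᵥ w)
          (fun k q => ET l K M Kr k q *ᵥ w) k (st c x x1 (k + 1) (ix (k + 1) x3)) -
          Fw (fun k q => WT l K M Kr k q *ᵥ w)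
          (fun k q => ET l K M Kr k q *ᵥ w) k (st c x x1 (k + 1) (ix (k + 1) x3) + 2 ^ k))) := by
      unfold ah
      rw [smul_mulVec, sub_mulVec, Th_mulVec, Th_mulVec, st_odd, st_even]
      module
    rw [e1, neg_dotProduct, dotProduct_neg, neg_neg]
    exact h2
  refine (sum_le_sum h1).trans ?_
  rw [← mul_sum]
  have h2 := half_sum (drift_vec l K M Kr w) (M := M)
      (fun k _ q hq => by rw [WT_out hq, zero_mulVec])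
      (fun k _ q hq => by rw [ET_out hq, zero_mulVec])
      (fun k => X.image (fun x => st c x x1 (k + 1) (ix (k + 1) x3) / 2 ^ (k + 1)))
  have h3 := EnV_le (M := M) hT w
  calc _ ≤ 2 * e * (4096 * (2 ^ K * (l⁻¹ * (w ⬝ᵥ Gr K M *ᵥ w)))) :=
        mul_le_mul_of_nonneg_left (h2.trans (mul_le_mul_of_nonneg_left h3 (by norm_num)))
          (by positivity)
    _ = _ := by ring

/-- **The losses at fixed `(x₁, x₃)`**: sum over all scales and all `x₀`. -/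
theorem eb_allW {Kr Gr : ℕ → ℤ → Matrix ι ι ℝ} (hT : Tr l K Gr Kr) (w : ι → ℝ) {W : ℕ → ℤ → ℝ} {e : ℝ}
    (he : 0 ≤ e) (hW0 : ∀ k x, 0 ≤ W k x) (hW : ∀ k ∈ Icc 1 K, ∀ j, ∑ x ∈ iv k j, W k x ≤ e * 2 ^ k)
    (X : Finset ℤ) (c x1 x3 : ℤ) :
    ∑ k ∈ Icc 1 K, ∑ x ∈ X, W k x * (w ⬝ᵥ eb l K M Kr c x x1 k (ix k x3) *ᵥ w) ≤
    e * (2 ^ K * (2 * l⁻¹ * (w ⬝ᵥ Gr K M *ᵥ w))) := by
  have hE : ∀ k q, 0 ≤ w ⬝ᵥ ET l K M Kr k q *ᵥ w := fun k q =>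
    H420.quad_nonneg (ET_psd (M := M) hT k q) w
  have h1 : ∀ k ∈ Icc 1 K, ∑ x ∈ X, W k x * (w ⬝ᵥ eb l K M Kr c x x1 k (ix k x3) *ᵥ w) ≤
      4 * e * (2 ^ k * ∑ q ∈ iv (K - k) M, w ⬝ᵥ ET l K M Kr k q *ᵥ w) := by
    intro k hk
    have hk' := (mem_Icc.1 hk).2
    refine le_trans (sum_le_sum fun x _ => mul_le_mul_of_nonneg_left ?_ (hW0 _ x))
      ((fib_sum (hW0 k) (hW k hk) (f := fun q => w ⬝ᵥ ET l K M Kr k q *ᵥ w +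
        w ⬝ᵥ ET l K M Kr k (q + 1) *ᵥ w) (fun q => add_nonneg (hE k q) (hE k _)) X c x1
        (ix k x3)).trans ?_)
    · have h2 := H420.quad_nonneg (eb_le (M := M) hT c x x1 k (ix k x3)) w
      rw [sub_mulVec, dotProduct_sub, add_mulVec, dotProduct_add] at h2
      linarith
    · have h3 := sum_shift_le (f := fun q => w ⬝ᵥ ET l K M Kr k q *ᵥ w) (hE k)
        (X := iv (K - k) M) (fun q hq => by rw [ET_out hq, zero_mulVec, dotProduct_zero])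
        (X.image (fun x => st c x x1 k (ix k x3) / 2 ^ k)) 0
      have h4 := sum_shift_le (f := fun q => w ⬝ᵥ ET l K M Kr k q *ᵥ w) (hE k)
        (X := iv (K - k) M) (fun q hq => by rw [ET_out hq, zero_mulVec, dotProduct_zero])
        (X.image (fun x => st c x x1 k (ix k x3) / 2 ^ k)) 1
      simp only [add_zero] at h3
      rw [sum_add_distrib]
      calc _ ≤ 2 * e * (2 ^ k * (∑ q ∈ iv (K - k) M, w ⬝ᵥ ET l K M Kr k q *ᵥ w +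
            ∑ q ∈ iv (K - k) M, w ⬝ᵥ ET l K M Kr k q *ᵥ w)) := by
            gcongr
        _ = _ := by ring
  refine (sum_le_sum h1).trans ?_
  rw [← mul_sum]
  have h2 := ET_sum (M := M) hT w
  calc _ ≤ 4 * e * (2 ^ K * ((2 * l)⁻¹ * (w ⬝ᵥ Gr K M *ᵥ w))) :=
        mul_le_mul_of_nonneg_left h2 (by positivity)
    _ = _ := by rw [mul_inv]; ring

end all

end

end Vale.Agent.P141.H652
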