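import Vale.Agent.P141.H652.PairI
import Vale.Agent.P141.H576.GapN

/-!
# P141, line (A), (TI): the increasing piece of class data, slot `Th`

* `gapUN` : the unweighted gap family of class data (`H305.ClsM`), both numbers
  `C t ^ (2 - 2c - 2d) s ^ (3/2)`;
* `pot_root` : `∑ v ⬝ᵥ G v` on the root;
* `TI_red` : the increasing piece is at most the same sum with the slot `Th` plus
  `C t ^ (1 + e₀ / 4) s ^ (5/4) √ez 8 ^ K r ^ (- e₀ / 2)`.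
-/

namespace Vale.Agent.P141.H652

open Finset Matrix
open Vale.Agent.P141.PL (Pt iv hs ix cx mem_iv card_iv ix_ix)
open Vale.Agent.P141.PL.H315 (A2 avg avg_nonneg Tri)
open Vale.Agent.P141.H48 (A4 US ES BSl Mo4 sst)
open Vale.Agent.P141.H550 (avg_comm avg_congr avg_mono avg_mul_left avg_prod)
open Vale.Agent.P141.H677 (fA fb fC kF rt sN KT GT GT_form ndI)
open Vale.Agent.P141.H769 (iv_pt)
open Vale.Agent.P141.H576 (GapFam QD)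
open Vale.Agent.P141.H305 (Cls ClsM kapM)

noncomputable section

open scoped Classical

/-- `A2 √A4` of a majorant of height `1` -/
theorem maj_cls {a : ℤ × ℤ → ℝ} {K : ℕ} {p q : ℤ} {s : ℝ} (hs : 0 ≤ s)
    (h1 : ∀ z ∈ PL.H315.iv K p, ∀ y ∈ PL.H315.iv K q, 0 ≤ a (z, y) ∧ a (z, y) ≤ 1)
    (h2 : A2 K a p q ≤ s) : A2 K a p q * √(A4 K a p q) ≤ s * √s := by
  refine H103.gauge_le hs h2 (le_trans ?_ h2)
  unfold H48.A4 PL.H315.A2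
  refine avg_mono fun w hw => ?_
  rw [mem_product] at hw
  obtain ⟨h3, h4⟩ := h1 w.1 hw.1 w.2 hw.2
  have h5 : a w ^ 2 ≤ 1 := pow_le_one₀ h3 h4
  have h6 : 0 ≤ a w ^ 2 := sq_nonneg _
  nlinarith

theorem pow_A {t c d : ℝ} (ht : 0 < t) :
    (t ^ (-d)) ^ 2 * (t ^ (1 - c)) ^ 2 = t ^ (2 - 2 * c - 2 * d) := by
  rw [← Real.rpow_natCast (t ^ (-d)) 2, ← Real.rpow_natCast (t ^ (1 - c)) 2,
    ← Real.rpow_mul ht.le, ← Real.rpow_mul ht.le, ← Real.rpow_add ht]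
  congr 1
  push_cast
  ring

theorem s_sqrt {s : ℝ} (hs : 0 < s) : s * √s = s ^ (3 / 2 : ℝ) := by
  rw [Real.sqrt_eq_rpow]
  nth_rewrite 1 [← Real.rpow_one s]
  rw [← Real.rpow_add hs]
  norm_num

/-- **The unweighted gap family of class data.** -/
theorem gapUN {c d Kt e cP : ℝ} (hd0 : 0 < d) (hKt : 0 < Kt) (he : 1 ≤ e) (hcP : 0 ≤ cP) :
    ∃ CA : ℝ, 0 < CA ∧ ∀ t : ℝ, 0 < t → t ≤ 1 → ∀ (n : ℕ) (F1 F3 : ℕ → Pt → ℝ)
      (Q1 Q3 : ℕ → Pt → Prop), US n (Kt * t ^ (1 - c)) e cP F1 → BSl n e cP F1 Q1 →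
      US n (Kt * t ^ (1 - c)) e cP F3 → BSl n e cP F3 Q3 → ∀ K ≤ n, ∀ (x : Pt) (ι : Type)
      [Fintype ι] [DecidableEq ι] (s r P : ℝ) (U : Tri) (g : ℤ → ℤ → ℝ) (u v : ℤ → ℤ → ι → ℝ),
      0 < s → Cls K x s r P U g u v → ∀ t₀ : ℤ,
      GapFam 1 K (fun _ _ _ => (0 : Matrix ι ι ℝ)) (fun _ _ _ => 1) (ix K x.2.2) (ix K x.2.1)
        (ix K x.1) t₀
        (fA (fun p => g p.1 p.2) (kF (t ^ (-d)) U.2.2 K F1)) (fb u (kF (t ^ (-d)) U.1 K F3))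
        (fun k i z y => QD (fun k x y => sst (t ^ (-d)) U.2.2 K k x y) Q1 k i y z)
        (QD (fun k x y => sst (t ^ (-d)) U.1 K k x y) Q3)
        (CA * (t ^ (2 - 2 * c - 2 * d) * s ^ (3 / 2 : ℝ)))
        (CA * (t ^ (2 - 2 * c - 2 * d) * s ^ (3 / 2 : ℝ))) (cP + 2) := by
  refine ⟨5760000 * Kt ^ 2 * e + 1, by positivity, ?_⟩
  intro t ht ht1 n F1 F3 Q1 Q3 hF1 hB1 hF3 hB3 K hK x ι _ _ s r P U g u v hs C t₀
  have hΛ1 : 1 ≤ t ^ (-d) := Real.one_le_rpow_of_pos_of_le_one_of_nonpos ht ht1 (by linarith)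
  have hU22 : U.2.2 = fun p => g p.1 p.2 := funext C.U_g
  have hM1 : Mo4 n (240000 * ((Kt * t ^ (1 - c)) ^ 2 * e)) F1 :=
    H206.mo4_of_un hF1.1 (by linarith) hB1 hF1.2.2.1
  have hM3 : Mo4 n (240000 * ((Kt * t ^ (1 - c)) ^ 2 * e)) F3 :=
    H206.mo4_of_un hF3.1 (by linarith) hB3 hF3.2.2.1
  have hpos : 0 < t ^ (2 - 2 * c - 2 * d) * s ^ (3 / 2 : ℝ) :=
    mul_pos (Real.rpow_pos_of_pos ht _) (Real.rpow_pos_of_pos hs _)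
  have hM0 : 0 ≤ 240000 * ((Kt * t ^ (1 - c)) ^ 2 * e) := by positivity
  have hg := H576.gauge_cls C hs.le
  have hu := maj_cls hs.le C.U_u C.U_u2
  rw [hU22] at hg ⊢
  refine gapU (X := x.1) (Y := x.2.1) (Z := x.2.2) hK hΛ1 hM0 hM0 hcP hB1 hM1 hB3 hM3
    (fun p => g p.1 p.2) U.1 u rfl rfl rfl ?_ (by positivity) ?_ (by positivity) ?_
  · intro z hz y hy
    rw [← iv_pt] at hz hy
    exact C.u_le z hz y hy
  · calc 8 * (t ^ (-d)) ^ 2 * (240000 * ((Kt * t ^ (1 - c)) ^ 2 * e)) *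
          (A2 K (fun p => g p.1 p.2) x.2.1 x.2.2 * √(A4 K (fun p => g p.1 p.2) x.2.1 x.2.2))
        ≤ 8 * (t ^ (-d)) ^ 2 * (240000 * ((Kt * t ^ (1 - c)) ^ 2 * e)) * (s * √s) :=
          mul_le_mul_of_nonneg_left hg (by positivity)
      _ = 1920000 * Kt ^ 2 * e * (((t ^ (-d)) ^ 2 * (t ^ (1 - c)) ^ 2) * (s * √s)) := by ring
      _ = 1920000 * Kt ^ 2 * e * (t ^ (2 - 2 * c - 2 * d) * s ^ (3 / 2 : ℝ)) := by
          rw [pow_A ht, s_sqrt hs]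
      _ ≤ _ := by
          refine mul_le_mul_of_nonneg_right ?_ hpos.le
          nlinarith [sq_nonneg Kt, mul_nonneg (sq_nonneg Kt) (by linarith : (0 : ℝ) ≤ e)]
  · calc 24 * (t ^ (-d)) ^ 2 * (240000 * ((Kt * t ^ (1 - c)) ^ 2 * e)) *
          (A2 K U.1 x.1 x.2.1 * √(A4 K U.1 x.1 x.2.1))
        ≤ 24 * (t ^ (-d)) ^ 2 * (240000 * ((Kt * t ^ (1 - c)) ^ 2 * e)) * (s * √s) :=
          mul_le_mul_of_nonneg_left hu (by positivity)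
      _ = 5760000 * Kt ^ 2 * e * (((t ^ (-d)) ^ 2 * (t ^ (1 - c)) ^ 2) * (s * √s)) := by ring
      _ = 5760000 * Kt ^ 2 * e * (t ^ (2 - 2 * c - 2 * d) * s ^ (3 / 2 : ℝ)) := by
          rw [pow_A ht, s_sqrt hs]
      _ ≤ _ := mul_le_mul_of_nonneg_right (by linarith) hpos.le

/-- **The quadratic form of the root.** -/
theorem pot_root {ι : Type*} [Fintype ι] [DecidableEq ι] {K : ℕ} {x : Pt} {s r P : ℝ} {U : Tri}
    {g : ℤ → ℤ → ℝ} {u v : ℤ → ℤ → ι → ℝ} (hP : 0 ≤ P) (C : Cls K x s r P U g u v) {l : ℝ}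
    (hl : 0 < l) :
    2 ^ K * ∑ x1 ∈ iv K (cx K x).1, ∑ x3 ∈ iv K (cx K x).2.2,
        12288 * l⁻¹ * (v x1 x3 ⬝ᵥ GT u x1 K (cx K x).2.1 *ᵥ v x1 x3) ≤
      12288 * (P / l) * s * 8 ^ K := by
  have h1 : ∀ x1 ∈ iv K (cx K x).1, ∀ x3 ∈ iv K (cx K x).2.2,
      v x1 x3 ⬝ᵥ GT u x1 K (cx K x).2.1 *ᵥ v x1 x3 ≤ P * U.2.1 (x1, x3) ^ 2 := by
    intro x1 hx1 x3 hx3
    change x1 ∈ iv K (ix K x.1) at hx1
    change x3 ∈ iv K (ix K x.2.2) at hx3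
    rw [← iv_pt] at hx1 hx3
    have h2 := C.u_pot x1 hx1 (v x1 x3)
    have h3 := C.v_le x1 hx1 x3 hx3
    rw [GT_form]
    refine le_trans (le_of_eq ?_) (h2.trans (mul_le_mul_of_nonneg_left h3 hP))
    rw [iv_pt, H338.avg_iv']
    rfl
  have h2 : ∑ x1 ∈ iv K (cx K x).1, ∑ x3 ∈ iv K (cx K x).2.2, U.2.1 (x1, x3) ^ 2 ≤
      s * 4 ^ K := by
    have h3 := C.U_v2
    unfold PL.H315.A2 at h3
    rw [iv_pt, iv_pt, avg_prod] at h3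
    have h4 : ∑ x1 ∈ iv K (cx K x).1, ∑ x3 ∈ iv K (cx K x).2.2, U.2.1 (x1, x3) ^ 2 =
        4 ^ K * avg (iv K (ix K x.1)) fun z => avg (iv K (ix K x.2.2)) fun y =>
          U.2.1 (z, y) ^ 2 := by
      have h5 : (4 : ℝ) ^ K = 2 ^ K * 2 ^ K := by rw [← mul_pow]; norm_num
      rw [h5, mul_assoc, ← H338.sum_iv' K (ix K x.1), mul_sum]
      refine sum_congr rfl fun z _ => ?_
      rw [← H338.sum_iv']
      rfl
    rw [h4, mul_comm s]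
    exact mul_le_mul_of_nonneg_left h3 (by positivity)
  have h3 : ∑ x1 ∈ iv K (cx K x).1, ∑ x3 ∈ iv K (cx K x).2.2,
        12288 * l⁻¹ * (v x1 x3 ⬝ᵥ GT u x1 K (cx K x).2.1 *ᵥ v x1 x3) ≤
      12288 * l⁻¹ * (P * (s * 4 ^ K)) := by
    refine (sum_le_sum fun x1 hx1 => sum_le_sum fun x3 hx3 =>
      mul_le_mul_of_nonneg_left (h1 x1 hx1 x3 hx3) (by positivity)).trans ?_
    simp only [← mul_sum]
    exact mul_le_mul_of_nonneg_left (mul_le_mul_of_nonneg_left h2 hP) (by positivity)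
  refine (mul_le_mul_of_nonneg_left h3 (by positivity)).trans (le_of_eq ?_)
  have h4 : (8 : ℝ) ^ K = 2 ^ K * 4 ^ K := by rw [← mul_pow]; norm_num
  rw [h4, div_eq_mul_inv]
  ring

/-- **The increasing piece of class data with the slot `Th`.** -/
theorem TI_red {c d e₀ L cP CA : ℝ} (hc : c ≤ e₀ / 12) (hd : d ≤ e₀ / 8)
    (hL : 0 ≤ L) (hcP : 0 ≤ cP) (hCA : 0 ≤ CA) :
    ∃ C : ℝ, 0 ≤ C ∧ ∀ t : ℝ, 0 < t → t ≤ 1 → ∀ ez : ℝ, 0 ≤ ez → ∀ o : ℤ, o = 1 ∨ o = -1 →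
      ∀ (K : ℕ) (x : Pt) (ι : Type) [Fintype ι] [DecidableEq ι] (s r : ℝ) (U : Tri)
      (g : ℤ → ℤ → ℝ) (u v : ℤ → ℤ → ι → ℝ), 0 < s → 1 ≤ r →
      Cls K x s r (L * t ^ (2 - c) * √s) U g u v →
      ∀ (Al : ℕ → Pt → Prop) (φ : ℕ → Pt → ℝ) (A : ℤ → ℕ → ℤ → ℤ → ℝ)
        (b Cf : ℤ → ℕ → ℤ → ℤ → ι → ℝ) (qA qB : ℕ → ℤ → ℤ → ℤ → Prop),
      (∀ k ∈ Icc 1 K, ∀ j x1 x3, ∑ x0 ∈ iv k j, φ k (x0, x1, x3) ^ 2 ≤ ez * 2 ^ k) →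
      (∀ x0 k z w, Cf x0 k z w = φ k (x0, w, z) • v w z) →
      (∀ t₀, GapFam 1 K (fun _ _ _ => (0 : Matrix ι ι ℝ)) (fun _ _ _ => 1) (ix K x.2.2)
        (ix K x.2.1) (ix K x.1) t₀ A b qA qB (CA * (t ^ (2 - 2 * c - 2 * d) * s ^ (3 / 2 : ℝ)))
        (CA * (t ^ (2 - 2 * c - 2 * d) * s ^ (3 / 2 : ℝ))) cP) →
      sumN o Al K x (fun x0 k m => |ndI (t ^ (2 - e₀) * √s * r ^ e₀)
        (KT (t ^ (2 - e₀) * √s * r ^ e₀) u) (A x0 k) (b x0 k) (Cf x0 k) k m|) ≤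
      sumN o Al K x (fun x0 k m => |ndT (t ^ (2 - e₀) * √s * r ^ e₀) K (ix K x.2.1)
        (KT (t ^ (2 - e₀) * √s * r ^ e₀) u) (o - 2) x0 (A x0 k) (b x0 k) (Cf x0 k) k m|) +
      C * (t ^ (1 + e₀ / 4) * s ^ (5 / 4 : ℝ) * √ez * 8 ^ K) * r ^ (-(e₀ / 2)) := by
  refine ⟨√(12288 * 438 * L * CA * cP), Real.sqrt_nonneg _, ?_⟩
  intro t ht ht1 ez hez o ho K x ι _ _ s r U g u v hs hr C Al φ A b Cf qA qB hφ hC hgap
  have hr0 : 0 < r := by linarith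
  have hS : 0 < √s := Real.sqrt_pos.2 hs
  have ht2 : 0 < t ^ (2 - e₀) := Real.rpow_pos_of_pos ht _
  have hr2 : 0 < r ^ e₀ := Real.rpow_pos_of_pos hr0 _
  have hl : 0 < t ^ (2 - e₀) * √s * r ^ e₀ := by positivity
  have ht3 : 0 < t ^ (2 - c) := Real.rpow_pos_of_pos ht _
  have hP : 0 ≤ L * t ^ (2 - c) * √s := by positivity
  have h1 := TI_le_Th (A := A) (b := b) hl ho u hez hφ hC (Al := Al) (x := x)
  refine h1.trans (add_le_add le_rfl ?_)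
  have h2 := pot_root hP C hl
  have h3 := gp_sum ho (Al := Al) (x := x) hgap
  have hpA : 0 < t ^ (2 - 2 * c - 2 * d) * s ^ (3 / 2 : ℝ) :=
    mul_pos (Real.rpow_pos_of_pos ht _) (Real.rpow_pos_of_pos hs _)
  rw [Real.sqrt_mul_self (by positivity)] at h3
  refine (mul_le_mul (Real.sqrt_le_sqrt (mul_le_mul_of_nonneg_left h2 hez))
    (Real.sqrt_le_sqrt h3) (Real.sqrt_nonneg _) (Real.sqrt_nonneg _)).trans ?_
  have e1 : L * t ^ (2 - c) * √s / (t ^ (2 - e₀) * √s * r ^ e₀) =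
      L * (t ^ (e₀ - c) * r ^ (-e₀)) := by
    rw [div_eq_iff hl.ne', Real.rpow_neg hr0.le]
    have e2 : t ^ (2 - c) = t ^ (e₀ - c) * t ^ (2 - e₀) := by
      rw [← Real.rpow_add ht]
      congr 1
      ring
    rw [e2]
    field_simp
  have hp1 : 0 < t ^ (e₀ - c) := Real.rpow_pos_of_pos ht _
  have hp2 : 0 < r ^ (-e₀) := Real.rpow_pos_of_pos hr0 _
  rw [e1, ← Real.sqrt_mul (by positivity)]
  have e3 : ez * (12288 * (L * (t ^ (e₀ - c) * r ^ (-e₀))) * s * 8 ^ K) *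
      (438 * (CA * (t ^ (2 - 2 * c - 2 * d) * s ^ (3 / 2 : ℝ))) * (cP * 8 ^ K)) =
      12288 * 438 * L * CA * cP * (ez * ((t ^ (e₀ - c) * t ^ (2 - 2 * c - 2 * d)) *
        (s * s ^ (3 / 2 : ℝ)) * r ^ (-e₀)) * (8 ^ K) ^ 2) := by ring
  have e5 : ∀ D X Y : ℝ, 0 ≤ D → 0 ≤ X → 0 ≤ Y →
      √(D * (ez * X * Y ^ 2)) = √D * (√ez * √X * Y) := by
    intro D X Y hD hX hY
    rw [Real.sqrt_mul hD, Real.sqrt_mul (by positivity), Real.sqrt_sq hY, Real.sqrt_mul hez]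
  rw [e3, e5 _ _ _ (by positivity) (by positivity) (by positivity),
    mul_assoc (√(12288 * 438 * L * CA * cP))]
  refine mul_le_mul_of_nonneg_left ?_ (Real.sqrt_nonneg _)
  have e4 : √(t ^ (e₀ - c) * t ^ (2 - 2 * c - 2 * d) * (s * s ^ (3 / 2 : ℝ)) * r ^ (-e₀)) ≤
      t ^ (1 + e₀ / 4) * s ^ (5 / 4 : ℝ) * r ^ (-(e₀ / 2)) := by
    refine Real.sqrt_le_iff.2 ⟨by positivity, ?_⟩
    have f1 : t ^ (e₀ - c) * t ^ (2 - 2 * c - 2 * d) ≤ (t ^ (1 + e₀ / 4)) ^ 2 := by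
      rw [← Real.rpow_add ht, ← Real.rpow_natCast (t ^ (1 + e₀ / 4)) 2, ← Real.rpow_mul ht.le]
      refine Real.rpow_le_rpow_of_exponent_ge ht ht1 ?_
      push_cast
      linarith
    have f2 : s * s ^ (3 / 2 : ℝ) = (s ^ (5 / 4 : ℝ)) ^ 2 := by
      rw [← Real.rpow_natCast (s ^ (5 / 4 : ℝ)) 2, ← Real.rpow_mul hs.le]
      nth_rewrite 1 [← Real.rpow_one s]
      rw [← Real.rpow_add hs]
      congr 1
      norm_num
    have f3 : r ^ (-e₀) = (r ^ (-(e₀ / 2))) ^ 2 := by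
      rw [← Real.rpow_natCast (r ^ (-(e₀ / 2))) 2, ← Real.rpow_mul hr0.le]
      congr 1
      push_cast
      ring
    rw [f2, f3]
    calc t ^ (e₀ - c) * t ^ (2 - 2 * c - 2 * d) * (s ^ (5 / 4 : ℝ)) ^ 2 * (r ^ (-(e₀ / 2))) ^ 2
        ≤ (t ^ (1 + e₀ / 4)) ^ 2 * (s ^ (5 / 4 : ℝ)) ^ 2 * (r ^ (-(e₀ / 2))) ^ 2 :=
          mul_le_mul_of_nonneg_right (mul_le_mul_of_nonneg_right f1 (sq_nonneg _)) (sq_nonneg _)
      _ = _ := by ring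
  calc √ez * √(t ^ (e₀ - c) * t ^ (2 - 2 * c - 2 * d) * (s * s ^ (3 / 2 : ℝ)) * r ^ (-e₀)) * 8 ^ K
      ≤ √ez * (t ^ (1 + e₀ / 4) * s ^ (5 / 4 : ℝ) * r ^ (-(e₀ / 2))) * 8 ^ K :=
        mul_le_mul_of_nonneg_right (mul_le_mul_of_nonneg_left e4 (Real.sqrt_nonneg _))
          (by positivity)
    _ = _ := by ring

end

end Vale.Agent.P141.H652
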