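import Vale.Agent.P141.H652.LabL
import Vale.Agent.P141.H816.MkFDs
import Vale.Agent.P141.H457.RealBC
import Vale.Agent.P141.H204.CapO
import Vale.Agent.P141.H505.SkelStack1
import Vale.Agent.P141.H784.PayB

/-!
# P141, line (A), (TI): the numbers of the slot `b` at the hub `x₁`

* `CP_cap` : the operator cap of a square in the form of the Gram matrix of the rows;
* `bS` : the cut family stopped at the time `K`;
* `bS_cap`, `bS_born`, `bS_mass` : caps on every cell, births and masses, summed over the `x0`.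
-/

namespace Vale.Agent.P141.H652

open Finset Matrix
open Vale.Agent.P075 (Ix val)
open Vale.Agent.P141.PL (Pt iv hs ix cx mem_iv)
open Vale.Agent.P141.PL.H315 (Tri A2)
open Vale.Agent.P141.H48 (US ES BSl sst)
open Vale.Agent.P141.H103 (un QW XR GW)
open Vale.Agent.P141.H205 (GQ CapS)
open Vale.Agent.P141.H305 (Cls ClsM)
open Vale.Agent.P141.H677 (KT rt sN fA fb kF)
open Vale.Agent.P141.H576 (QD QD_root QD_pack Dd_sst)
open Vale.Agent.P141.H401 (mA mb mC qA qB qC cA cb b1)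
open Vale.Agent.P141.H816 (cb_capS capS_time rowb_one row_tt)
open Vale.Agent.P141.H874 (CP BM)
open Vale.Agent.P141.H457 (CM CM_mul)
open Vale.Agent.P141.H505.Sk1 (Ch)

noncomputable section

open scoped Classical

section cap

variable {κ : Type*} [Fintype κ] [DecidableEq κ]

omit [DecidableEq κ] in
theorem CM_gram (b : ℤ → ℤ → κ → ℝ) (k : ℕ) (n m : ℤ) :
    (CM b k k n m)ᵀ * CM b k k n m = GQ k b m n := by
  ext i j
  have h0 : (0 : ℝ) ≤ 2 ^ k * 2 ^ k := by positivity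
  have e : (√((2 : ℝ) ^ k * 2 ^ k))⁻¹ * (√((2 : ℝ) ^ k * 2 ^ k))⁻¹
      = ((2 : ℝ) ^ k * 2 ^ k)⁻¹ := by
    rw [← mul_inv, Real.mul_self_sqrt h0]
  simp only [Matrix.mul_apply, transpose_apply, CM, GQ, H103.QW]
  rw [Fintype.sum_prod_type, PL.H588.sum_iv, mul_sum]
  refine sum_congr rfl fun a _ => ?_
  rw [one_mulVec, dotProduct, mul_sum]
  refine sum_congr rfl fun l _ => ?_
  rw [← e]
  ring

/-- **The cap at the hub of the rows.** -/
theorem CP_cap {k : ℕ} {c : ℝ} (hc : 0 < c) {b : ℤ → ℤ → κ → ℝ} {n m : ℤ}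
    (h : CapS c k k b m n) :
    (c • (1 : Matrix (Ix k × κ) (Ix k × κ) ℝ) - CP b k k n m).PosSemidef := by
  have h1 : (1 - c⁻¹ • ((CM b k k n m)ᵀ * CM b k k n m)).PosSemidef := by
    rw [CM_gram]
    refine PosSemidef.of_dotProduct_mulVec_nonneg ?_ fun w => ?_
    · rw [IsHermitian, conjTranspose_eq_transpose_of_trivial, transpose_sub, transpose_smul,
        transpose_one]
      have := (H205.GQ_psd k b m n).isHermitian
      rw [IsHermitian, conjTranspose_eq_transpose_of_trivial] at this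
      rw [this]
    · rw [star_trivial, sub_mulVec, one_mulVec, smul_mulVec, dotProduct_sub, dotProduct_smul,
        smul_eq_mul]
      have h2 := H816.form_capS h w
      have h3 := mul_le_mul_of_nonneg_left h2 (inv_nonneg.2 hc.le)
      rw [← mul_assoc, inv_mul_cancel₀ hc.ne', one_mul] at h3
      linarith
  have h2 := (H204.cap_swap (CM b k k n m) (inv_nonneg.2 hc.le) h1).smul hc.le
  rw [CM_mul, smul_sub, smul_smul, mul_inv_cancel₀ hc.ne', one_smul] at h2
  exact h2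

end cap

/-! ### Births and masses of a path -/

/-- masses of a path by its births -/
theorem mass_path {K : ℕ} {A : Type} {f : ℕ → ℤ → ℤ → A} {w : A → ℝ} (hw : ∀ a, 0 ≤ w a)
    {Q : ℕ → ℤ → ℤ → Prop} (h0 : ∀ x y, w (f 0 x y) = 0)
    (ag : ∀ k < K, ∀ x y, ¬ Q k (ix k x) (ix k y) → f (k + 1) x y = f k x y) (R S : ℤ) :
    ∀ k ≤ K, ∑ x ∈ iv K R, ∑ y ∈ iv K S, w (f k x y) ≤
      ∑ j ∈ range K, ∑ x ∈ iv K R, ∑ y ∈ iv K S,
        if Q j (ix j x) (ix j y) then w (f (j + 1) x y) else 0 := by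
  have key : ∀ k ≤ K, ∑ x ∈ iv K R, ∑ y ∈ iv K S, w (f k x y) ≤
      ∑ j ∈ range k, ∑ x ∈ iv K R, ∑ y ∈ iv K S,
        if Q j (ix j x) (ix j y) then w (f (j + 1) x y) else 0 := by
    intro k
    induction k with
    | zero =>
      intro _
      simp [h0]
    | succ k ih =>
      intro hk
      rw [sum_range_succ]
      refine le_trans ?_ (add_le_add_left (ih (by omega)) _)
      rw [← sum_add_distrib]
      refine sum_le_sum fun x _ => ?_
      rw [← sum_add_distrib]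
      refine sum_le_sum fun y _ => ?_
      split_ifs with h
      · linarith [hw (f k x y)]
      · rw [ag k (by omega) x y h]
        linarith
  intro k hk
  refine (key k hk).trans (sum_le_sum_of_subset_of_nonneg (range_mono hk) fun j _ _ => ?_)
  refine sum_nonneg fun x _ => sum_nonneg fun y _ => ?_
  split_ifs
  · exact hw _
  · exact le_rfl

/-! ### The cut family -/

section cut

variable {ι : Type} [Fintype ι] [DecidableEq ι] {p : H401.Num} {n : ℕ} {e cP : ℝ}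
  {F3 : ℕ → Pt → ℝ} {Q3 : ℕ → Pt → Prop} {K : ℕ} {s r : ℝ} {U : Tri}
  {u : ℤ → ℤ → ι → ℝ}

/-- the cut family stopped at the time `K`, order `x1`, `x2` -/
def bS (p : H401.Num) (s r : ℝ) (U : Tri) (K : ℕ) (u : ℤ → ℤ → ι → ℝ) (F3 : ℕ → Pt → ℝ)
    (Q3 : ℕ → Pt → Prop) (x0 : ℤ) (k : ℕ) : ℤ → ℤ → ι → ℝ :=
  cb p s r U K u F3 Q3 x0 (min k K)

theorem bS_le {k : ℕ} (hk : k ≤ K) (x0 : ℤ) :
    bS p s r U K u F3 Q3 x0 k = cb p s r U K u F3 Q3 x0 k := by
  unfold bS
  rw [min_eq_left hk]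

/-- the family does not change off the affected squares -/
theorem bS_ag {x0 : ℤ} {k : ℕ} {i m : ℤ} (hQ : ¬ qB p U K Q3 k (ix k x0) i m) :
    ∀ x ∈ iv k i, ∀ y ∈ iv k m,
      bS p s r U K u F3 Q3 x0 (k + 1) x y = bS p s r U K u F3 Q3 x0 k x y := by
  intro x hx y hy
  rcases Nat.lt_or_ge k K with h | h
  · rw [bS_le h, bS_le h.le]
    exact H80.lowG_off (Q := fun k n m => qB p U K Q3 k (ix k x0) n m) hQ hx hy
  · unfold bS
    rw [min_eq_right h, min_eq_right (h.trans (Nat.le_succ k))]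

/-- a change sits on an affected square -/
theorem bS_ch {x0 : ℤ} {k : ℕ} {i m : ℤ} (h : Ch (bS p s r U K u F3 Q3 x0) k i m) :
    k < K ∧ qB p U K Q3 k (ix k x0) i m := by
  obtain ⟨x, hx, y, hy, hne⟩ := h
  constructor
  · by_contra hk
    apply hne
    unfold bS
    rw [min_eq_right (by omega), min_eq_right (by omega)]
  · by_contra hq
    exact hne (bS_ag hq x hx y hy)

/-- **Caps on every cell**, times `k` and `k + 1`. -/
theorem bS_cap (hth : 0 < p.th s r) (x0 : ℤ) {k j : ℕ} (h1 : k ≤ j) (h2 : j ≤ k + 1) (a m : ℤ)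
    (hk : k ≤ K) :
    (p.th s r ^ 2 • (1 : Matrix (Ix k × ι) (Ix k × ι) ℝ) -
      CP (bS p s r U K u F3 Q3 x0 j) k k a m).PosSemidef := by
  refine CP_cap (by positivity) ?_
  have hz : cb p s r U K u F3 Q3 x0 0 = 0 := by
    funext w y
    exact H816.cb_zero p s r U K u x0 w y
  have hc : ∀ k m a, CapS (p.th s r ^ 2) k k (cb p s r U K u F3 Q3 x0 k) m a := fun k m a =>
    capS_time (F := fun k => cb p s r U K u F3 Q3 x0 k) (sq_nonneg _) hz
      (fun k n m => cb_capS p s r U K u x0 k n m) k m a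
  rcases Nat.eq_or_lt_of_le h1 with e | h
  · rw [← e, bS_le hk]
    exact hc k m a
  · have e : j = k + 1 := by omega
    rw [e]
    rcases Nat.lt_or_ge k K with h3 | h3
    · rw [bS_le h3]
      exact cb_capS p s r U K u x0 k m a
    · have e2 : k = K := le_antisymm hk h3
      unfold bS
      rw [min_eq_right (by omega : K ≤ k + 1)]
      have h4 := hc K m a
      rw [← e2] at h4 ⊢
      exact h4

/-- the births at one `x0` -/
def dB (p : H401.Num) (s r : ℝ) (U : Tri) (K : ℕ) (x : Pt) (u : ℤ → ℤ → ι → ℝ) (F3 : ℕ → Pt → ℝ)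
    (Q3 : ℕ → Pt → Prop) (x0 : ℤ) : ℝ :=
  ∑ k ∈ range K, ∑ w ∈ iv K (ix K x.1), ∑ y ∈ iv K (ix K x.2.1),
    if qB p U K Q3 k (ix k x0) (ix k w) (ix k y) then
      bS p s r U K u F3 Q3 x0 (k + 1) w y ⬝ᵥ bS p s r U K u F3 Q3 x0 (k + 1) w y else 0

omit [DecidableEq ι] in
theorem dot_nn (a : ι → ℝ) : 0 ≤ a ⬝ᵥ a := sum_nonneg fun _ _ => mul_self_nonneg _

theorem dB_nonneg (x : Pt) (x0 : ℤ) : 0 ≤ dB p s r U K x u F3 Q3 x0 := by
  refine sum_nonneg fun k _ => sum_nonneg fun w _ => sum_nonneg fun y _ => ?_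
  split_ifs
  · exact dot_nn _
  · exact le_rfl

theorem bS_zero (x0 w y : ℤ) : bS p s r U K u F3 Q3 x0 0 w y = 0 := by
  rw [bS_le (Nat.zero_le K)]
  exact H816.cb_zero p s r U K u x0 w y

/-- **Masses**, every time. -/
theorem bS_mass (x : Pt) (x0 : ℤ) (k : ℕ) :
    ∑ w ∈ iv K (ix K x.1), ∑ y ∈ iv K (ix K x.2.1),
      bS p s r U K u F3 Q3 x0 k w y ⬝ᵥ bS p s r U K u F3 Q3 x0 k w y ≤
      dB p s r U K x u F3 Q3 x0 := by
  have e : bS p s r U K u F3 Q3 x0 k = bS p s r U K u F3 Q3 x0 (min k K) := by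
    unfold bS
    rw [min_assoc, min_self]
  have h0 : ∀ w y, (fun a : ι → ℝ => a ⬝ᵥ a) (bS p s r U K u F3 Q3 x0 0 w y) = 0 := by
    intro w y
    beta_reduce
    rw [bS_zero, zero_dotProduct]
  have h1 : ∀ k < K, ∀ w y, ¬ qB p U K Q3 k (ix k x0) (ix k w) (ix k y) →
      bS p s r U K u F3 Q3 x0 (k + 1) w y = bS p s r U K u F3 Q3 x0 k w y :=
    fun k _ w y hq => bS_ag hq w (mem_iv.2 rfl) y (mem_iv.2 rfl)
  have h2 := mass_path (f := bS p s r U K u F3 Q3 x0) (w := fun a : ι → ℝ => a ⬝ᵥ a) dot_nn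
    (Q := fun k i m => qB p U K Q3 k (ix k x0) i m) h0 h1 (ix K x.1) (ix K x.2.1) (min k K)
    (min_le_right k K)
  rw [e]
  exact h2

/-- **Births.** -/
theorem bS_born (x : Pt) (x0 : ℤ) :
    ∑ k ∈ Ico 0 K, ∑ w ∈ iv K (ix K x.1), ∑ y ∈ iv K (ix K x.2.1),
      (if Ch (bS p s r U K u F3 Q3 x0) k (ix k w) (ix k y) then
        bS p s r U K u F3 Q3 x0 (k + 1) w y ⬝ᵥ bS p s r U K u F3 Q3 x0 (k + 1) w y else 0) ≤
      dB p s r U K x u F3 Q3 x0 := by
  rw [← range_eq_Ico]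
  refine sum_le_sum fun k _ => sum_le_sum fun w _ => sum_le_sum fun y _ => ?_
  by_cases h : Ch (bS p s r U K u F3 Q3 x0) k (ix k w) (ix k y)
  · rw [if_pos h, if_pos (bS_ch h).2]
  · rw [if_neg h]
    split_ifs
    · exact dot_nn _
    · exact le_rfl

/-- **The births, summed over the `x0`.** -/
theorem sum_dB {g : ℤ → ℤ → ℝ} {v : ℤ → ℤ → ι → ℝ} {x : Pt} {P : ℝ} (hB : BSl n e cP F3 Q3)
    (he : 0 ≤ e) (ht : 0 < p.t) (hs : 0 ≤ s) (hK : K ≤ n) (C : Cls K x s r P U g u v) (t : ℤ) :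
    ∑ x0 ∈ iv K t, dB p s r U K x u F3 Q3 x0 ≤
      4 * e * p.t ^ (-p.d) * s * ((cP + 2) * 8 ^ K) := by
  have h1 : 0 < p.t ^ (-p.d) := Real.rpow_pos_of_pos ht _
  have h := mass_x0 (K := K) (R := ix K x.1) (S := ix K x.2.1) (t := t)
    (q := qB p U K Q3) (f := fun x0 k a m => sqv k a m (bS p s r U K u F3 Q3 x0 (k + 1)))
    (mu := 4 * e * p.t ^ (-p.d) * s) (cP := cP + 2) (by positivity)
    (fun k hk i a ha m hm => by
      refine le_trans (le_of_eq ?_) (mass_cb hB he ht hs hK C hk i ha hm)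
      refine sum_congr rfl fun x0 _ => ?_
      unfold sqv
      rw [bS_le hk])
    fun x0 _ => QD_root (Dd_sst _ _ _) hB hK _ _ x0
  refine le_trans (le_of_eq ?_) h
  refine sum_congr rfl fun x0 _ => sum_congr rfl fun k hk => ?_
  have hkK : k ≤ K := (mem_range.1 hk).le
  rw [H784.sum_cells hkK (ix K x.1)]
  have h2 : ∀ a ∈ iv (K - k) (ix K x.1), ∑ w ∈ iv k a, ∑ y ∈ iv K (ix K x.2.1),
      (if qB p U K Q3 k (ix k x0) (ix k w) (ix k y) then
        bS p s r U K u F3 Q3 x0 (k + 1) w y ⬝ᵥ bS p s r U K u F3 Q3 x0 (k + 1) w y else 0) =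
      ∑ m ∈ iv (K - k) (ix K x.2.1), (if qB p U K Q3 k (ix k x0) a m then
        sqv k a m (bS p s r U K u F3 Q3 x0 (k + 1)) else 0) := by
    intro a _
    rw [sum_congr rfl fun w _ => H784.sum_cells hkK (ix K x.2.1) _, sum_comm]
    refine sum_congr rfl fun m _ => ?_
    have h3 : ∀ w ∈ iv k a, ∀ y ∈ iv k m,
        (if qB p U K Q3 k (ix k x0) (ix k w) (ix k y) then
          bS p s r U K u F3 Q3 x0 (k + 1) w y ⬝ᵥ bS p s r U K u F3 Q3 x0 (k + 1) w y else 0) =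
        if qB p U K Q3 k (ix k x0) a m then
          bS p s r U K u F3 Q3 x0 (k + 1) w y ⬝ᵥ bS p s r U K u F3 Q3 x0 (k + 1) w y else 0 := by
      intro w hw y hy
      rw [mem_iv.1 hw, mem_iv.1 hy]
    rw [sum_congr rfl fun w hw => sum_congr rfl fun y hy => h3 w hw y hy]
    split_ifs
    · rfl
    · simp
  rw [sum_congr rfl h2, sum_comm]

end cut

end

end Vale.Agent.P141.H652
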