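import Vale.Agent.P141.H652.NumP
import Vale.Agent.P141.H886.SumU

/-!
# P141, line (A), (TI): the numbers of the slot `b` at the hub `x₁`, under the quantifiers

* `payU` : the payers of the cut family; `dBU` : births and masses; `EBU` : their sum.
-/

namespace Vale.Agent.P141.H652

open Finset Matrix
open Vale.Agent.P141.PL (Pt iv ix cx)
open Vale.Agent.P141.H677 (rt)
open Vale.Agent.P141.H401 (FibU FibP)
open Vale.Agent.P141.H408 (PairQ PairU beI)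
open Vale.Agent.P141.H886 (NumF SumQ SumU)

noncomputable section

open scoped Classical

set_option linter.unusedVariables false

theorem rt_pow {t r δ : ℝ} (ht : 0 < t) (hr : 0 < r) : (r / t) ^ δ = (t / r) ^ (-δ) := by
  rw [← inv_div, Real.inv_rpow (div_pos ht hr).le, ← Real.rpow_neg (div_pos ht hr).le]

/-- **The payers of the slot `b`**, number `X (s 8^K) (t / r)^(-e0 / 2)`. -/
theorem payU {j : ℕ → ℕ} (hj : Tm j) :
    SumU (-1) fun ι _ _ p n ez F1 F2 F3 o K x s r U g u v Q1 Q2 Q3 x0 =>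
      payS (beI p r) (p.lam s r) o K (cx K x) u (fun k => bS p s r U K u F3 Q3 x0 (j k)) x0 := by
  unfold SumU PairU PairQ
  intro a ha ha1
  refine ⟨1, one_pos, fun e0 he0 _ => ⟨1, one_pos, fun k8 _ _ => ⟨1, one_pos, fun k3 _ _ δ hδ => ?_⟩⟩⟩
  refine ⟨1, 1, one_pos, one_pos, fun c _ _ d hd _ Kt e cP L _ he hcP hL =>
    ⟨3 * 515714180 * e * (22 * L + 50 * δ⁻¹), by positivity, ?_⟩⟩
  intro t ht ht1 n ez F1 F2 F3 _ _ _ o ho K hK x ι _ _ s r U g u v hs hr hcls Q1 Q2 Q3 _ _ q3 _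
    hU _
  set p : H401.Num := ⟨a, e0, k8, k3, c, d, Kt, e, cP, L, 1, t⟩ with hp
  have hr0 : 0 < r := by linarith
  have htr : 0 < t / r := div_pos ht hr0
  have htr1 : t / r ≤ 1 := by
    rw [div_le_one hr0]
    linarith
  have hbe : 0 < beI p r := Real.rpow_pos_of_pos htr _
  have hbe1 : beI p r ≤ 1 := Real.rpow_le_one htr.le htr1 (by positivity)
  have hbi : 1 ≤ (beI p r)⁻¹ := (one_le_inv₀ hbe).2 hbe1
  have hbi2 : (beI p r)⁻¹ = (t / r) ^ (-1 * (e0 / 2)) := by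
    show ((t / r) ^ (e0 / 2))⁻¹ = _
    rw [← Real.rpow_neg htr.le]
    congr 1
    ring
  have hrt : 1 ≤ r / t := by
    rw [le_div_iff₀ ht]
    linarith
  have hδ1 : 1 ≤ (r / t) ^ δ := Real.one_le_rpow hrt hδ.le
  have hlog : Real.log (r / t) ≤ (r / t) ^ δ * δ⁻¹ := by
    have := Real.log_le_rpow_div (by linarith : 0 ≤ r / t) hδ
    rwa [div_eq_mul_inv] at this
  have h1 : ∀ t' ∈ rt (cx K x), ∑ x0 ∈ iv K t',
      payS (beI p r) (p.lam s r) o K (cx K x) u (fun k => bS p s r U K u F3 Q3 x0 (j k)) x0 ≤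
      515714180 * (beI p r)⁻¹ * (e * ((22 * L + 50 * δ⁻¹) * (r / t) ^ δ)) * (s * 8 ^ K) := by
    intro t' _
    refine (pay_cls (p := p) hbe ho q3 (by linarith) hK ht ht1 ha.le he0.le hL hs hr hcls hU hj
      t').trans ?_
    have e1 : 515625000 * (beI p r)⁻¹ + 89180 ≤ 515714180 * (beI p r)⁻¹ := by linarith
    have e2 : 22 * L + 50 * Real.log (r / t) ≤ (22 * L + 50 * δ⁻¹) * (r / t) ^ δ := by
      have : 22 * L ≤ 22 * L * (r / t) ^ δ := le_mul_of_one_le_right (by linarith) hδ1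
      linarith
    have e3 : 0 ≤ 22 * L + 50 * Real.log (r / t) := by
      have := Real.log_nonneg hrt
      linarith
    have he0 : 0 ≤ e := by linarith
    show (515625000 * (beI p r)⁻¹ + 89180) * (e * (22 * L + 50 * Real.log (r / t))) *
      (s * 8 ^ K) ≤ _
    gcongr
  refine (sum_le_sum h1).trans ?_
  rw [sum_const, nsmul_eq_mul, H205.card_rt]
  show ((3 : ℕ) : ℝ) * _ ≤ 3 * 515714180 * e * (22 * L + 50 * δ⁻¹) * (t / r) ^ (-δ) *
    (s * 8 ^ K) * (t / r) ^ (-1 * (e0 / 2))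
  rw [rt_pow ht hr0, hbi2]
  refine le_of_eq ?_
  push_cast
  ring

/-- **Births and masses of the slot `b`.** -/
theorem dBU : SumU (-1) fun ι _ _ p n ez F1 F2 F3 o K x s r U g u v Q1 Q2 Q3 x0 =>
      dB p s r U K x u F3 Q3 x0 := by
  unfold SumU PairU PairQ
  intro a ha ha1
  refine ⟨1, one_pos, fun e0 he0 _ => ⟨1, one_pos, fun k8 _ _ => ⟨1, one_pos, fun k3 _ _ δ hδ => ?_⟩⟩⟩
  refine ⟨1, δ, one_pos, hδ, fun c _ _ d hd hdδ Kt e cP L _ he hcP hL =>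
    ⟨12 * e * (cP + 2), by positivity, ?_⟩⟩
  intro t ht ht1 n ez F1 F2 F3 _ _ _ o ho K hK x ι _ _ s r U g u v hs hr hcls Q1 Q2 Q3 _ _ q3 _
    hU _
  have hr0 : 0 < r := by linarith
  have htr : 0 < t / r := div_pos ht hr0
  have htr1 : t / r ≤ 1 := by
    rw [div_le_one hr0]
    linarith
  have h1 : ∀ t' ∈ rt (cx K x), ∑ x0 ∈ iv K t',
      dB ⟨a, e0, k8, k3, c, d, Kt, e, cP, L, 1, t⟩ s r U K x u F3 Q3 x0 ≤
      4 * e * t ^ (-d) * s * ((cP + 2) * 8 ^ K) := fun t' _ =>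
    sum_dB (p := ⟨a, e0, k8, k3, c, d, Kt, e, cP, L, 1, t⟩) q3 (by linarith) ht hs.le hK
      hcls.toCls t'
  refine (sum_le_sum h1).trans ?_
  rw [sum_const, nsmul_eq_mul, H205.card_rt]
  show ((3 : ℕ) : ℝ) * _ ≤ 12 * e * (cP + 2) * (t / r) ^ (-δ) *
    (s * 8 ^ K) * (t / r) ^ (-1 * (e0 / 2))
  have h2 := td_le ht ht1 hr hd.le hdδ
  have h3 : 1 ≤ (t / r) ^ (-1 * (e0 / 2)) :=
    Real.one_le_rpow_of_pos_of_le_one_of_nonpos htr htr1 (by linarith)
  have h4 : 0 ≤ t ^ (-d) := Real.rpow_nonneg ht.le _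
  have h5 : 0 ≤ (t / r) ^ (-δ) := Real.rpow_nonneg htr.le _
  have he0 : 0 ≤ e := by linarith
  calc ((3 : ℕ) : ℝ) * (4 * e * t ^ (-d) * s * ((cP + 2) * 8 ^ K))
      = 12 * e * (cP + 2) * t ^ (-d) * (s * 8 ^ K) * 1 := by push_cast; ring
    _ ≤ 12 * e * (cP + 2) * (t / r) ^ (-δ) * (s * 8 ^ K) * (t / r) ^ (-1 * (e0 / 2)) := by
        gcongr

theorem tm_k : Tm fun k => k := Or.inl fun _ => rfl

theorem tm_k1 : Tm fun k => k - 1 := Or.inr fun _ => rfl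

/-- **The number `EB`**: births, masses and payers, time `k` at the scale `k`. -/
theorem EBU : SumU (-1) fun ι _ _ p n ez F1 F2 F3 o K x s r U g u v Q1 Q2 Q3 x0 =>
    dB p s r U K x u F3 Q3 x0 +
      payS (beI p r) (p.lam s r) o K (cx K x) u (fun k => bS p s r U K u F3 Q3 x0 k) x0 :=
  SumU.add dBU (payU tm_k)

end

end Vale.Agent.P141.H652
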