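import Vale.Agent.P141.H652.ZbEb
import Vale.Agent.P141.H581.TVCP

/-!
# P141, line (A), (TI), leaf `LBCg`: the first slot of the fixed-`x₀` composition

`b := bS .. x0`, row pieces `PbS` : where a row piece changes.

* `PbS_off`, `PbS_qB`; `bS_capk`, `bS_capk1`, `bS_capN`; `bS_hB1`, `bS_hB2`, `pay_hB3`, `pay_hB4` :
  the hypotheses `hPb`, `cap`, `cap1`, `capN`, `hB1` to `hB4` of `H736.fix_BC`.
-/

namespace Vale.Agent.P141.H652

open Finset Matrix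
open Vale.Agent.P075 (Ix)
open Vale.Agent.P141.PL (Pt iv ix cx mem_iv)
open Vale.Agent.P141.PL.H315 (Tri)
open Vale.Agent.P141.H103 (GW)
open Vale.Agent.P141.H585.PairO (mh GW_mono)
open Vale.Agent.P141.H677 (KT GT)
open Vale.Agent.P141.H401 (qB)
open Vale.Agent.P141.H784 (av)
open Vale.Agent.P141.H457
open Vale.Agent.P141.H874
open Vale.Agent.P141.H505.Sk1 (Ch)

noncomputable section

open scoped Classical

set_option linter.unusedSectionVars false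

variable {ι : Type} [Fintype ι] [DecidableEq ι] {p : H401.Num}
  {F3 : ℕ → Pt → ℝ} {Q3 : ℕ → Pt → Prop} {K : ℕ} {s r : ℝ} {U : Tri}
  {u : ℤ → ℤ → ι → ℝ}

/-- the row pieces (outer point `w`, hub cell `m`) which change at the step `k` -/
def PbS (p : H401.Num) (s r : ℝ) (U : Tri) (K : ℕ) (u : ℤ → ℤ → ι → ℝ) (F3 : ℕ → Pt → ℝ)
    (Q3 : ℕ → Pt → Prop) (x0 : ℤ) (k : ℕ) (w m : ℤ) : Prop :=
  ∃ x ∈ iv k m, bS p s r U K u F3 Q3 x0 (k + 1) x w ≠ bS p s r U K u F3 Q3 x0 k x w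

/-- `hPb` -/
theorem PbS_off (x0 : ℤ) : ∀ k < K, ∀ w m, ¬ PbS p s r U K u F3 Q3 x0 k w m → ∀ x ∈ iv k m,
    bS p s r U K u F3 Q3 x0 (k + 1) x w = bS p s r U K u F3 Q3 x0 k x w := by
  intro k _ w m h x hx
  by_contra hne
  exact h ⟨x, hx, hne⟩

theorem PbS_ch {x0 : ℤ} {k : ℕ} {w m : ℤ} (h : PbS p s r U K u F3 Q3 x0 k w m) :
    Ch (bS p s r U K u F3 Q3 x0) k m (ix k w) := by
  obtain ⟨x, hx, hne⟩ := h
  exact ⟨x, hx, w, mem_iv.2 rfl, hne⟩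

/-- a row piece which changes sits on an affected square -/
theorem PbS_qB {x0 : ℤ} {k : ℕ} {w m : ℤ} (h : PbS p s r U K u F3 Q3 x0 k w m) :
    qB p U K Q3 k (ix k x0) m (ix k w) := (bS_ch (PbS_ch h)).2

/-- `cap` -/
theorem bS_capk (hth : 0 < p.th s r) (x0 : ℤ) : ∀ k < K, ∀ n m,
    (p.th s r ^ 2 • (1 : Matrix (Ix k × ι) (Ix k × ι) ℝ) -
      CP (bS p s r U K u F3 Q3 x0 k) k k n m).PosSemidef :=
  fun k hk n m => bS_cap hth x0 le_rfl (Nat.le_succ k) n m hk.le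

/-- `cap1` -/
theorem bS_capk1 (hth : 0 < p.th s r) (x0 : ℤ) : ∀ k < K, ∀ n m,
    (p.th s r ^ 2 • (1 : Matrix (Ix k × ι) (Ix k × ι) ℝ) -
      CP (bS p s r U K u F3 Q3 x0 (k + 1)) k k n m).PosSemidef :=
  fun k hk n m => bS_cap hth x0 (Nat.le_succ k) le_rfl n m hk.le

/-- `capN` -/
theorem bS_capN (hth : 0 < p.th s r) (x0 : ℤ) : ∀ n m,
    (p.th s r ^ 2 • (1 : Matrix (Ix K × ι) (Ix K × ι) ℝ) -
      CP (bS p s r U K u F3 Q3 x0 K) K K n m).PosSemidef :=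
  fun n m => bS_cap hth x0 le_rfl (Nat.le_succ K) n m le_rfl

/-- `hB1` -/
theorem bS_hB1 (x : Pt) (x0 : ℤ) :
    H581.TVCP.mB K (ix K x.2.1) (ix K x.1) (bS p s r U K u F3 Q3 x0 0) ≤
      dB p s r U K x u F3 Q3 x0 := bS_mass x x0 0

/-- `hB2` -/
theorem bS_hB2 (x : Pt) (x0 : ℤ) :
    ∑ k ∈ Ico 0 K, H581.TVCP.mB K (ix K x.2.1) (ix K x.1)
      (rs (PbS p s r U K u F3 Q3 x0 k) k (bS p s r U K u F3 Q3 x0 (k + 1))) ≤
      dB p s r U K x u F3 Q3 x0 := by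
  refine le_trans ?_ (bS_born x x0)
  refine sum_le_sum fun k _ => sum_le_sum fun w _ => sum_le_sum fun y _ => ?_
  unfold rs
  by_cases h : PbS p s r U K u F3 Q3 x0 k y (ix k w)
  · rw [if_pos h, if_pos (PbS_ch h)]
  · rw [if_neg h]
    split_ifs
    · rw [zero_dotProduct]
      exact dot_nn _
    · rw [zero_dotProduct]

section pay

variable {be l : ℝ} {M : Pt} {o x0 : ℤ}

/-- `hB3` -/
theorem pay_hB3 (hbe : 0 < be) (hl : 0 < l) (b : ℕ → ℤ → ℤ → ι → ℝ) :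
    ∑ k ∈ Ico 0 K, GW K M.2.1 M.1 M.2.2 (k + 1) (H677.cP o x0 (k + 1)) (fun n n' m =>
      av (k + 1) n m fun x y => b (k + 1) x y ⬝ᵥ
        Fv be (fun k x m => Th l K M.2.1 (KT l u x) (o - 2) x0 x k m)
          (fun k x m => ah l K M.2.1 (KT l u x) (o - 2) x0 x k m) k n' x *ᵥ b (k + 1) x y) ≤
    payS be l o K M u b x0 := by
  have hT := wt_Th (fun x => H677.tr_T hl K u x) M.2.1 (o - 2) x0
  refine le_trans (le_of_eq ?_) (zb_pay hbe hl b)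
  refine sum_congr rfl fun k _ => ?_
  congr 1
  funext n n' m
  rw [zb_av hbe hT.ps]

/-- `hB4` -/
theorem pay_hB4 (hbe : 0 < be) (b : ℕ → ℤ → ℤ → ι → ℝ) :
    ∑ k ∈ Ico 0 K, GW K M.2.1 M.1 M.2.2 (k + 1) (H677.cP o x0 (k + 1)) (fun n n' m =>
      av (k + 1) n m fun x y => b (k + 1) x y ⬝ᵥ
        eb l K M.2.1 (KT l u x) (o - 2) x0 x (k + 1) n' *ᵥ b (k + 1) x y) ≤
    payS be l o K M u b x0 := by
  refine le_trans (le_of_eq ?_) (eb_pay hbe b)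
  rw [eb_gen]

end pay

end

end Vale.Agent.P141.H652
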