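import Vale.Agent.P141.H652.MartW
import Vale.Agent.P141.H922.TieSum
import Vale.Agent.P141.H419.MidL

/-!
# P141, line (A), (D3): the increasing slot of the label trees

`S = √l K⁻¹` on the tree of `x₂` at fixed `x₁`, `W = 1 - S`, drift `E = mean S' - S`
(zero outside the root cell).  `Th` = the window average of `W` seen from `(x₀, x₁, x₃-cell)`:
a supermartingale in `x₃` at fixed `(x₀, x₁)`.

* `WT_drift`, `WT_psd`, `WT_le_one`, `ET_psd`, `ET_le`;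
* `EnV_le` : the energy of `W v`, `E v` is at most `2 ^ N ⟪v, G_top v⟫ / l`;
* `ET_sum` : `SUM 2 ^ k ⟪v, E v⟫ ≤ 2 ^ N ⟪v, G_top v⟫ / (2 l)`;
* `Th_mean`, `Th_zero`, `Th_psd`, `Th_le`, `Th_le_two`, `eb_psd`, `eb_le`;
* `near_nodes`, `half_nodes`, `eb_nodes` : the sums over the nodes with the real ties.
-/

namespace Vale.Agent.P141.H652

open Finset Matrix
open Vale.Agent.P141.PL (Pt Bx iv ix cx mem_iv card_iv ix_ix)
open Vale.Agent.P141.PL.H560 (cbs bx0)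
open Vale.Agent.P141.H420 (Tr)

set_option linter.unusedSectionVars false

noncomputable section

variable {ι : Type*} [Fintype ι] [DecidableEq ι]

/-! ### The tree -/

/-- `1 - S` below the cell `M` of scale `N` -/
def WT (l : ℝ) (N : ℕ) (M : ℤ) (K : ℕ → ℤ → Matrix ι ι ℝ) (k : ℕ) (q : ℤ) : Matrix ι ι ℝ :=
  if q ∈ iv (N - k) M then 1 - √l • (K k q)⁻¹ else 0

/-- the drift: mean of `S` over the children minus `S` -/
def ET (l : ℝ) (N : ℕ) (M : ℤ) (K : ℕ → ℤ → Matrix ι ι ℝ) (k : ℕ) (q : ℤ) : Matrix ι ι ℝ :=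
  if (1 ≤ k ∧ k ≤ N) ∧ q ∈ iv (N - k) M then
    √l • ((1 / 2 : ℝ) • ((K (k - 1) (2 * q))⁻¹ + (K (k - 1) (2 * q + 1))⁻¹) - (K k q)⁻¹) else 0

variable {l : ℝ} {N : ℕ} {M : ℤ} {G K : ℕ → ℤ → Matrix ι ι ℝ}

theorem WT_in {k : ℕ} {q : ℤ} (hq : q ∈ iv (N - k) M) :
    WT l N M K k q = 1 - √l • (K k q)⁻¹ := by
  unfold WT
  rw [if_pos hq]

theorem WT_out {k : ℕ} {q : ℤ} (hq : q ∉ iv (N - k) M) : WT l N M K k q = 0 := by
  unfold WT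
  rw [if_neg hq]

theorem ET_in {k : ℕ} {q : ℤ} (hk : k < N) (hq : q ∈ iv (N - (k + 1)) M) :
    ET l N M K (k + 1) q =
      √l • ((1 / 2 : ℝ) • ((K k (2 * q))⁻¹ + (K k (2 * q + 1))⁻¹) - (K (k + 1) q)⁻¹) := by
  unfold ET
  rw [if_pos ⟨⟨by omega, by omega⟩, hq⟩, Nat.add_sub_cancel]

theorem ET_out {k : ℕ} {q : ℤ} (hq : q ∉ iv (N - k) M) : ET l N M K k q = 0 := by
  unfold ET
  rw [if_neg fun h => hq h.2]

theorem in_left {k : ℕ} (hk : k < N) {q : ℤ} :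
    2 * q ∈ iv (N - k) M ↔ q ∈ iv (N - (k + 1)) M := by
  rw [show N - k = (N - (k + 1)) + 1 by omega, PL.H588.mem_iv_double]

theorem in_right {k : ℕ} (hk : k < N) {q : ℤ} :
    2 * q + 1 ∈ iv (N - k) M ↔ q ∈ iv (N - (k + 1)) M := by
  rw [show N - k = (N - (k + 1)) + 1 by omega, PL.H588.mem_iv_double']

/-- **The tree with drift**, exact. -/
theorem WT_drift (l : ℝ) (N : ℕ) (M : ℤ) (K : ℕ → ℤ → Matrix ι ι ℝ) :
    Drift N (WT l N M K) (ET l N M K) := by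
  intro k hk q
  by_cases h : q ∈ iv (N - (k + 1)) M
  · rw [WT_in ((in_left hk).2 h), WT_in ((in_right hk).2 h), WT_in h, ET_in hk h]
    module
  · rw [WT_out (fun h1 => h ((in_left hk).1 h1)), WT_out (fun h1 => h ((in_right hk).1 h1)),
      WT_out h, ET_out h]
    simp

theorem WT_psd (h : Tr l N G K) (k : ℕ) (q : ℤ) : (WT l N M K k q).PosSemidef := by
  unfold WT
  split_ifs
  · have hs := Real.sqrt_pos.2 h.l_pos
    have h1 := (H420.inv_le h.l_pos (h.psG k q) (h.pdK k q) (h.sq k q)).smul hs.le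
    rwa [smul_sub, smul_smul, mul_inv_cancel₀ hs.ne', one_smul] at h1
  · exact PosSemidef.zero

theorem WT_le_one (h : Tr l N G K) (k : ℕ) (q : ℤ) : (1 - WT l N M K k q).PosSemidef := by
  unfold WT
  split_ifs
  · rw [sub_sub_cancel]
    exact (h.pdK k q).inv.posSemidef.smul (Real.sqrt_nonneg l)
  · rw [sub_zero]
    exact PosSemidef.one

/-- the form of the drift -/
theorem ET_form {k : ℕ} {q : ℤ} (hk : k < N) (hq : q ∈ iv (N - (k + 1)) M) (v : ι → ℝ) :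
    v ⬝ᵥ ET l N M K (k + 1) q *ᵥ v = √l * ((1 / 2) * (v ⬝ᵥ (K k (2 * q))⁻¹ *ᵥ v +
      v ⬝ᵥ (K k (2 * q + 1))⁻¹ *ᵥ v) - v ⬝ᵥ (K (k + 1) q)⁻¹ *ᵥ v) := by
  rw [ET_in hk hq, smul_mulVec, dotProduct_smul, sub_mulVec, dotProduct_sub, H186.form_half_add,
    smul_eq_mul]

/-- the increments of `S v` -/
def rh (l : ℝ) (K K' : Matrix ι ι ℝ) (v : ι → ℝ) : ι → ℝ := √l • (K⁻¹ *ᵥ v - K'⁻¹ *ᵥ v)

/-- one node: the energy of the increments -/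
theorem rh_node (h : Tr l N G K) {k : ℕ} (hk : k < N) (q : ℤ) (v : ι → ℝ) :
    (1 / 2) * (rh l (K (k + 1) q) (K k (2 * q)) v ⬝ᵥ rh l (K (k + 1) q) (K k (2 * q)) v +
      rh l (K (k + 1) q) (K k (2 * q + 1)) v ⬝ᵥ rh l (K (k + 1) q) (K k (2 * q + 1)) v) ≤
    √l * ((1 / 2) * (v ⬝ᵥ (K k (2 * q))⁻¹ *ᵥ v + v ⬝ᵥ (K k (2 * q + 1))⁻¹ *ᵥ v) -
      v ⬝ᵥ (K (k + 1) q)⁻¹ *ᵥ v) := by
  have hl := h.l_pos
  have hs := Real.sqrt_pos.2 hl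
  have h1 := (H483.nd' h hk q).rho_le v
  have h2 := H186.sqrt_le_form (h.pdK k (2 * q)).posSemidef (h.psG k (2 * q)) hl.le
    (h.sq k (2 * q)) (rh l (K (k + 1) q) (K k (2 * q)) v)
  have h3 := H186.sqrt_le_form (h.pdK k (2 * q + 1)).posSemidef (h.psG k (2 * q + 1)) hl.le
    (h.sq k (2 * q + 1)) (rh l (K (k + 1) q) (K k (2 * q + 1)) v)
  unfold rh at *
  have hll : √l * √l = l := Real.mul_self_sqrt hl.le
  set A := (√l • ((K (k + 1) q)⁻¹ *ᵥ v - (K k (2 * q))⁻¹ *ᵥ v)) ⬝ᵥ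
    (√l • ((K (k + 1) q)⁻¹ *ᵥ v - (K k (2 * q))⁻¹ *ᵥ v)) with hA
  set B := (√l • ((K (k + 1) q)⁻¹ *ᵥ v - (K k (2 * q + 1))⁻¹ *ᵥ v)) ⬝ᵥ
    (√l • ((K (k + 1) q)⁻¹ *ᵥ v - (K k (2 * q + 1))⁻¹ *ᵥ v)) with hB
  set X := (1 / 2) * (v ⬝ᵥ (K k (2 * q))⁻¹ *ᵥ v + v ⬝ᵥ (K k (2 * q + 1))⁻¹ *ᵥ v) -
      v ⬝ᵥ (K (k + 1) q)⁻¹ *ᵥ v with hX
  have h4 : √l * ((1 / 2) * (A + B)) ≤ √l * (√l * X) := by
    have h5 : √l * (√l * X) = l * X := by rw [← mul_assoc, hll]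
    rw [h5]
    linarith
  exact le_of_mul_le_mul_left h4 hs

theorem ET_psd (h : Tr l N G K) (k : ℕ) (q : ℤ) : (ET l N M K k q).PosSemidef := by
  by_cases hk : (1 ≤ k ∧ k ≤ N) ∧ q ∈ iv (N - k) M
  · obtain ⟨j, rfl⟩ : ∃ j, k = j + 1 := ⟨k - 1, by omega⟩
    have hj : j < N := by omega
    refine PosSemidef.of_dotProduct_mulVec_nonneg ?_ fun v => ?_
    · rw [ET_in hj hk.2]
      have e1 := (h.pdK j (2 * q)).inv.isHermitian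
      have e2 := (h.pdK j (2 * q + 1)).inv.isHermitian
      have e3 := (h.pdK (j + 1) q).inv.isHermitian
      unfold Matrix.IsHermitian at *
      simp only [conjTranspose_smul, conjTranspose_sub, conjTranspose_add, e1, e2, e3,
        star_trivial]
    · rw [star_trivial, ET_form hj hk.2]
      refine le_trans ?_ (rh_node h hj q v)
      have n1 := H922.dot_self_nonneg (rh l (K (j + 1) q) (K j (2 * q)) v)
      have n2 := H922.dot_self_nonneg (rh l (K (j + 1) q) (K j (2 * q + 1)) v)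
      positivity
  · unfold ET
    rw [if_neg hk]
    exact PosSemidef.zero

/-- `E ≤ W` -/
theorem ET_le_WT (h : Tr l N G K) {k : ℕ} (hk : k < N) (q : ℤ) :
    (WT l N M K (k + 1) q - ET l N M K (k + 1) q).PosSemidef := by
  have h1 := WT_drift l N M K k hk q
  have h2 : WT l N M K (k + 1) q - ET l N M K (k + 1) q =
      (1 / 2 : ℝ) • (WT l N M K k (2 * q) + WT l N M K k (2 * q + 1)) := by
    rw [h1, smul_smul]
    norm_num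
  rw [h2]
  exact ((WT_psd h _ _).add (WT_psd h _ _)).smul (by norm_num)

/-! ### Energies -/

/-- one cell, exact -/
theorem step_eq {k : ℕ} (hk : k < N) {q : ℤ} (hq : q ∈ iv (N - (k + 1)) M) (v : ι → ℝ) :
    dwV (fun k q => WT l N M K k q *ᵥ v) (k + 1) q ⬝ᵥ
        dwV (fun k q => WT l N M K k q *ᵥ v) (k + 1) q +
      (ET l N M K (k + 1) q *ᵥ v) ⬝ᵥ (ET l N M K (k + 1) q *ᵥ v) =
    (1 / 2) * (rh l (K (k + 1) q) (K k (2 * q)) v ⬝ᵥ rh l (K (k + 1) q) (K k (2 * q)) v +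
      rh l (K (k + 1) q) (K k (2 * q + 1)) v ⬝ᵥ rh l (K (k + 1) q) (K k (2 * q + 1)) v) := by
  have e1 : dwV (fun k q => WT l N M K k q *ᵥ v) (k + 1) q =
      (1 / 2 : ℝ) • (rh l (K (k + 1) q) (K k (2 * q)) v -
        rh l (K (k + 1) q) (K k (2 * q + 1)) v) := by
    unfold dwV rh
    rw [Nat.add_sub_cancel]
    beta_reduce
    rw [WT_in ((in_left hk).2 hq), WT_in ((in_right hk).2 hq), sub_mulVec, sub_mulVec,
      smul_mulVec, smul_mulVec]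
    module
  have e2 : ET l N M K (k + 1) q *ᵥ v =
      (-(1 / 2) : ℝ) • (rh l (K (k + 1) q) (K k (2 * q)) v +
        rh l (K (k + 1) q) (K k (2 * q + 1)) v) := by
    unfold rh
    rw [ET_in hk hq, smul_mulVec, sub_mulVec, smul_mulVec, add_mulVec]
    module
  rw [e1, e2]
  generalize rh l (K (k + 1) q) (K k (2 * q)) v = a
  generalize rh l (K (k + 1) q) (K k (2 * q + 1)) v = b
  simp only [smul_dotProduct, dotProduct_smul, sub_dotProduct, dotProduct_sub, add_dotProduct,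
    dotProduct_add, smul_eq_mul]
  rw [dotProduct_comm b a]
  ring

omit [Fintype ι] [DecidableEq ι] in
theorem sum_range_Icc (f : ℕ → ℝ) (N : ℕ) : ∑ k ∈ range N, f (k + 1) = ∑ k ∈ Icc 1 N, f k := by
  rw [range_eq_Ico, Finset.sum_Ico_add' f 0 N 1]
  refine sum_congr ?_ fun _ _ => rfl
  ext x
  simp only [mem_Ico, mem_Icc]
  omega

/-- the tree sum of the forms of the drift -/
theorem ET_tree (h : Tr l N G K) (v : ι → ℝ) {k : ℕ} (hk : k ≤ N) (m : ℤ) :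
    H420.tsum (fun j i => √l * ((1 / 2) * (v ⬝ᵥ (K (j - 1) (2 * i))⁻¹ *ᵥ v +
      v ⬝ᵥ (K (j - 1) (2 * i + 1))⁻¹ *ᵥ v) - v ⬝ᵥ (K j i)⁻¹ *ᵥ v)) k m ≤
    (2 * l)⁻¹ * (v ⬝ᵥ G k m *ᵥ v) := by
  have hl := h.l_pos
  have hs := Real.sqrt_pos.2 hl
  have key := H420.tsum_le (f := fun j i => √l * ((1 / 2) * (v ⬝ᵥ (K (j - 1) (2 * i))⁻¹ *ᵥ v +
      v ⬝ᵥ (K (j - 1) (2 * i + 1))⁻¹ *ᵥ v) - v ⬝ᵥ (K j i)⁻¹ *ᵥ v))
    (F := fun j i => -(√l * (v ⬝ᵥ (K j i)⁻¹ *ᵥ v))) (b := -(v ⬝ᵥ v)) (n := N)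
    (fun j hj i => ?_) (fun i => ?_) k hk m
  · refine key.trans ?_
    have h1 := H186.one_sub_le (h.pdK k m) hl (h.sq k m) v
    rw [div_eq_inv_mul] at h1
    linarith
  · simp only [Nat.add_sub_cancel]
    apply le_of_eq
    ring
  · have h1 := H186.inv_form_le (h.pdK 0 i) (h.psG 0 i) hl (h.sq 0 i) v
    rw [le_div_iff₀ hs] at h1
    linarith

/-- **The forms of the drift**, all scales: at most `2 ^ N ⟪v, G_top v⟫ / (2 l)`. -/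
theorem ET_sum (h : Tr l N G K) (v : ι → ℝ) :
    ∑ k ∈ Icc 1 N, 2 ^ k * ∑ q ∈ iv (N - k) M, v ⬝ᵥ ET l N M K k q *ᵥ v ≤
      2 ^ N * ((2 * l)⁻¹ * (v ⬝ᵥ G N M *ᵥ v)) := by
  have h1 := mul_le_mul_of_nonneg_left (ET_tree h v le_rfl M) (by positivity : (0 : ℝ) ≤ 2 ^ N)
  rw [H922.tsum_iv] at h1
  refine le_trans (le_of_eq ?_) h1
  refine sum_congr rfl fun k hk => ?_
  obtain ⟨j, rfl⟩ : ∃ j, k = j + 1 := ⟨k - 1, by have := (mem_Icc.1 hk).1; omega⟩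
  have hj : j < N := (mem_Icc.1 hk).2
  refine congrArg _ (sum_congr rfl fun q hq => ?_)
  rw [ET_form hj hq, Nat.add_sub_cancel]

/-- **The energy of `W v` and `E v`**: at most `2 ^ N ⟪v, G_top v⟫ / l`. -/
theorem EnV_le (h : Tr l N G K) (v : ι → ℝ) :
    EnV N M (fun k q => WT l N M K k q *ᵥ v) (fun k q => ET l N M K k q *ᵥ v) ≤
      2 ^ N * (l⁻¹ * (v ⬝ᵥ G N M *ᵥ v)) := by
  have hl := h.l_pos
  have hM : M ∈ iv (N - N) M := by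
    rw [Nat.sub_self, mem_iv]
    unfold ix
    simp
  have h1 : (WT l N M K N M *ᵥ v) ⬝ᵥ (WT l N M K N M *ᵥ v) ≤ (2 * l)⁻¹ * (v ⬝ᵥ G N M *ᵥ v) := by
    rw [WT_in hM, sub_mulVec, one_mulVec, smul_mulVec]
    have := H483.w_le hl (h.psG N M) (h.pdK N M) (h.sq N M) v
    rwa [div_eq_inv_mul] at this
  have h2 : ∑ k ∈ range N, 2 ^ (k + 1) * ∑ q ∈ iv (N - (k + 1)) M,
      (dwV (fun k q => WT l N M K k q *ᵥ v) (k + 1) q ⬝ᵥ
        dwV (fun k q => WT l N M K k q *ᵥ v) (k + 1) q +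
      (ET l N M K (k + 1) q *ᵥ v) ⬝ᵥ (ET l N M K (k + 1) q *ᵥ v)) ≤
      2 ^ N * ((2 * l)⁻¹ * (v ⬝ᵥ G N M *ᵥ v)) := by
    refine le_trans ?_ (ET_sum (M := M) h v)
    rw [← sum_range_Icc (fun k => 2 ^ k * ∑ q ∈ iv (N - k) M, v ⬝ᵥ ET l N M K k q *ᵥ v)]
    refine sum_le_sum fun k hk => ?_
    have hk' := mem_range.1 hk
    refine mul_le_mul_of_nonneg_left (sum_le_sum fun q hq => ?_) (by positivity)
    rw [step_eq hk' hq, ET_form hk' hq]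
    exact rh_node h hk' q v
  unfold EnV
  have h3 := mul_le_mul_of_nonneg_left h1 (by positivity : (0 : ℝ) ≤ 2 ^ N)
  refine (add_le_add h3 h2).trans (le_of_eq ?_)
  rw [mul_inv]
  ring

/-! ### The slot -/

/-- start of the window of `x₂`-points tied to `x₀`, `x₁` and the `x₃`-cell `m` of scale `k` -/
def st (c x0 x1 : ℤ) (k : ℕ) (m : ℤ) : ℤ := c + 1 - x0 - x1 - 2 ^ k * (m + 1)

/-- the window average of `1 - S` -/
def Th (l : ℝ) (N : ℕ) (M : ℤ) (K : ℕ → ℤ → Matrix ι ι ℝ) (c x0 x1 : ℤ) (k : ℕ) (m : ℤ) :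
    Matrix ι ι ℝ := Fw (WT l N M K) (ET l N M K) k (st c x0 x1 k m)

/-- the loss of `Th` at the halving of the `x₃`-cell -/
def eb (l : ℝ) (N : ℕ) (M : ℤ) (K : ℕ → ℤ → Matrix ι ι ℝ) (c x0 x1 : ℤ) (k : ℕ) (m : ℤ) :
    Matrix ι ι ℝ := ebw (ET l N M K) k (st c x0 x1 k m)

theorem st_odd (c x0 x1 : ℤ) (k : ℕ) (m : ℤ) :
    st c x0 x1 k (2 * m + 1) = st c x0 x1 (k + 1) m := by
  unfold st
  rw [pow_succ]
  ring

theorem st_even (c x0 x1 : ℤ) (k : ℕ) (m : ℤ) :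
    st c x0 x1 k (2 * m) = st c x0 x1 (k + 1) m + 2 ^ k := by
  unfold st
  rw [pow_succ]
  ring

/-- **The mean of the two halves of the `x₃`-cell**: exact, any drift. -/
theorem Th_sum (l : ℝ) (N : ℕ) (M : ℤ) (K : ℕ → ℤ → Matrix ι ι ℝ) (c x0 x1 : ℤ) (k : ℕ) (m : ℤ) :
    Th l N M K c x0 x1 k (2 * m) + Th l N M K c x0 x1 k (2 * m + 1) =
      (2 : ℝ) • (Th l N M K c x0 x1 (k + 1) m - eb l N M K c x0 x1 (k + 1) m) := by
  unfold Th eb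
  rw [st_odd, st_even, add_comm]
  exact Fw_half _ _ k _

theorem Th_mean (l : ℝ) (N : ℕ) (M : ℤ) (K : ℕ → ℤ → Matrix ι ι ℝ) (c x0 x1 : ℤ) (k : ℕ) (m : ℤ) :
    (1 / 2 : ℝ) • (Th l N M K c x0 x1 k (2 * m) + Th l N M K c x0 x1 k (2 * m + 1)) =
      Th l N M K c x0 x1 (k + 1) m - eb l N M K c x0 x1 (k + 1) m := by
  rw [Th_sum, smul_smul]
  norm_num

/-- at the END the slot is `1 - S` at the tied point -/
theorem Th_zero (l : ℝ) (N : ℕ) (M : ℤ) (K : ℕ → ℤ → Matrix ι ι ℝ) (c x0 x1 m : ℤ) :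
    Th l N M K c x0 x1 0 m = WT l N M K 0 (c - x0 - x1 - m) := by
  unfold Th Fw gw
  have : st c x0 x1 0 m = c - x0 - x1 - m := by unfold st; ring
  simp [this]

theorem Th_psd (h : Tr l N G K) (c x0 x1 : ℤ) (k : ℕ) (m : ℤ) :
    (Th l N M K c x0 x1 k m).PosSemidef :=
  Fw_psd (fun y => WT_psd h 0 y) (fun j y => ET_psd h j y) k _

theorem eb_psd (h : Tr l N G K) (c x0 x1 : ℤ) (k : ℕ) (m : ℤ) :
    (eb l N M K c x0 x1 k m).PosSemidef := ebw_psd (fun j y => ET_psd h j y) k _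

/-- `Th ≤ W q + W (q + 1)`, `q` the cell of the start of the window -/
theorem Th_le (h : Tr l N G K) (c x0 x1 : ℤ) {k : ℕ} (hk : k ≤ N) (m : ℤ) :
    (WT l N M K k (st c x0 x1 k m / 2 ^ k) + WT l N M K k (st c x0 x1 k m / 2 ^ k + 1) -
      Th l N M K c x0 x1 k m).PosSemidef :=
  Fw_le (WT_drift l N M K) (fun y => WT_psd h 0 y) (fun j y => ET_psd h j y) hk _

theorem Th_le_two' (h : Tr l N G K) (c x0 x1 : ℤ) {k : ℕ} (hk : k ≤ N) (m : ℤ) :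
    ((2 : ℝ) • (1 : Matrix ι ι ℝ) - Th l N M K c x0 x1 k m).PosSemidef := by
  have h1 := Th_le (M := M) h c x0 x1 hk m
  have h2 := WT_le_one (M := M) h k (st c x0 x1 k m / 2 ^ k)
  have h3 := WT_le_one (M := M) h k (st c x0 x1 k m / 2 ^ k + 1)
  have h4 := (h1.add h2).add h3
  have e : WT l N M K k (st c x0 x1 k m / 2 ^ k) + WT l N M K k (st c x0 x1 k m / 2 ^ k + 1) -
      Th l N M K c x0 x1 k m + (1 - WT l N M K k (st c x0 x1 k m / 2 ^ k)) +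
      (1 - WT l N M K k (st c x0 x1 k m / 2 ^ k + 1)) =
      (2 : ℝ) • (1 : Matrix ι ι ℝ) - Th l N M K c x0 x1 k m := by
    rw [two_smul]
    abel
  rwa [e] at h4

/-- `Th ≤ 2` at every scale -/
theorem Th_le_two (h : Tr l N G K) (c x0 x1 : ℤ) (k : ℕ) (m : ℤ) :
    ((2 : ℝ) • (1 : Matrix ι ι ℝ) - Th l N M K c x0 x1 k m).PosSemidef := by
  induction k generalizing m with
  | zero => exact Th_le_two' h c x0 x1 (Nat.zero_le N) m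
  | succ k ih =>
    rcases le_or_gt (k + 1) N with hk | hk
    · exact Th_le_two' h c x0 x1 hk m
    · have e0 : eb l N M K c x0 x1 (k + 1) m = 0 := by
        unfold eb ebw
        rw [sum_eq_zero fun y _ => ?_, smul_zero]
        unfold ET
        rw [if_neg fun h1 => by omega]
      have e1 : Th l N M K c x0 x1 (k + 1) m = (1 / 2 : ℝ) •
          (Th l N M K c x0 x1 k (2 * m) + Th l N M K c x0 x1 k (2 * m + 1)) := by
        rw [Th_mean, e0, sub_zero]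
      have h2 := ((ih (2 * m)).add (ih (2 * m + 1))).smul (by norm_num : (0 : ℝ) ≤ 1 / 2)
      have e2 : (1 / 2 : ℝ) • ((2 : ℝ) • (1 : Matrix ι ι ℝ) - Th l N M K c x0 x1 k (2 * m) +
          ((2 : ℝ) • (1 : Matrix ι ι ℝ) - Th l N M K c x0 x1 k (2 * m + 1))) =
          (2 : ℝ) • (1 : Matrix ι ι ℝ) - Th l N M K c x0 x1 (k + 1) m := by
        rw [e1]
        module
      rwa [e2] at h2

/-- `eb ≤ Th` -/
theorem eb_le_Th (h : Tr l N G K) (c x0 x1 : ℤ) (k : ℕ) (m : ℤ) :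
    (Th l N M K c x0 x1 (k + 1) m - eb l N M K c x0 x1 (k + 1) m).PosSemidef := by
  rw [← Th_mean]
  exact ((Th_psd h _ _ _ _ _).add (Th_psd h _ _ _ _ _)).smul (by norm_num)

/-- `eb ≤ E q + E (q + 1)` -/
theorem eb_le (h : Tr l N G K) (c x0 x1 : ℤ) (k : ℕ) (m : ℤ) :
    (ET l N M K k (st c x0 x1 k m / 2 ^ k) + ET l N M K k (st c x0 x1 k m / 2 ^ k + 1) -
      eb l N M K c x0 x1 k m).PosSemidef := ebw_le (fun j y => ET_psd h j y) k _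

/-! ### The vectors of the slot -/

theorem Th_mulVec (l : ℝ) (N : ℕ) (M : ℤ) (K : ℕ → ℤ → Matrix ι ι ℝ) (c x0 x1 : ℤ) (k : ℕ) (m : ℤ)
    (v : ι → ℝ) : Th l N M K c x0 x1 k m *ᵥ v =
      Fw (fun k q => WT l N M K k q *ᵥ v) (fun k q => ET l N M K k q *ᵥ v) k (st c x0 x1 k m) :=
  Fw_map ((Matrix.mulVecBilin ℝ ℝ).flip v) (WT l N M K) (ET l N M K) k (st c x0 x1 k m)

theorem drift_vec (l : ℝ) (N : ℕ) (M : ℤ) (K : ℕ → ℤ → Matrix ι ι ℝ) (v : ι → ℝ) :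
    Drift N (fun k q => WT l N M K k q *ᵥ v) (fun k q => ET l N M K k q *ᵥ v) :=
  (WT_drift l N M K).map ((Matrix.mulVecBilin ℝ ℝ).flip v)

/-- half difference of the two children of the `x₃`-cell `(k + 1, m)` -/
def ah (l : ℝ) (N : ℕ) (M : ℤ) (K : ℕ → ℤ → Matrix ι ι ℝ) (c x0 x1 : ℤ) (k : ℕ) (m : ℤ) :
    Matrix ι ι ℝ :=
  (1 / 2 : ℝ) • (Th l N M K c x0 x1 k (2 * m) - Th l N M K c x0 x1 k (2 * m + 1))

/-- **The weights of `H419.MidL`.** -/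
theorem wt_Th {G K : ℤ → ℕ → ℤ → Matrix ι ι ℝ} (hT : ∀ x, Tr l N (G x) (K x)) (M c x0 : ℤ) :
    H419.Wt (fun k x m => Th l N M (K x) c x0 x k m) (fun k x m => eb l N M (K x) c x0 x (k + 1) m)
      (fun k x m => ah l N M (K x) c x0 x k m) where
  ps k x m := Th_psd (hT x) c x0 x k m
  pe k x m := eb_psd (hT x) c x0 x (k + 1) m
  even k x m := by
    rw [← Th_mean]
    unfold ah
    module
  odd k x m := by
    rw [← Th_mean]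
    unfold ah
    module

/-! ### The window of a node -/

/-- shift of the window -/
def dl (o : ℤ) : ℤ := (1 - o) / 2

theorem dl_cases {o : ℤ} (ho : o = 1 ∨ o = -1) : (o = 1 ∧ dl o = 0) ∨ (o = -1 ∧ dl o = 1) := by
  rcases ho with rfl | rfl
  · exact Or.inl ⟨rfl, rfl⟩
  · exact Or.inr ⟨rfl, rfl⟩

/-- **The window of a real tie** starts in one of the cells `m₂ + dl o - 2, …, m₂ + dl o`. -/
theorem st_cell {o : ℤ} (ho : o = 1 ∨ o = -1) {k : ℕ} {m : Pt} {x0 x1 : ℤ}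
    (h0 : x0 ∈ iv k (bx0 o m).1) (h1 : x1 ∈ iv k m.1) :
    m.2.1 + dl o - 2 ≤ st (o - 2) x0 x1 k m.2.2 / 2 ^ k ∧
      st (o - 2) x0 x1 k m.2.2 / 2 ^ k ≤ m.2.1 + dl o := by
  have hp : (0 : ℤ) < 2 ^ k := by positivity
  have e0 : (bx0 o m).1 = o - 2 - (m.1 + m.2.1 + m.2.2) := rfl
  rw [e0] at h0
  unfold iv at h0 h1
  rw [mem_Ico] at h0 h1
  obtain ⟨a0, b0⟩ := h0
  obtain ⟨a1, b1⟩ := h1
  generalize m.2.1 = q at *
  generalize m.2.2 = r at *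
  generalize m.1 = s at *
  unfold st
  rcases dl_cases ho with ⟨rfl, hd⟩ | ⟨rfl, hd⟩
  · rw [hd]
    constructor
    · rw [Int.le_ediv_iff_mul_le hp]
      linarith
    · have : (1 - 2 + 1 - x0 - x1 - 2 ^ k * (r + 1)) / 2 ^ k < q + 1 := by
        rw [Int.ediv_lt_iff_lt_mul hp]
        linarith
      linarith
  · rw [hd]
    constructor
    · rw [Int.le_ediv_iff_mul_le hp]
      linarith
    · have : (-1 - 2 + 1 - x0 - x1 - 2 ^ k * (r + 1)) / 2 ^ k < q + 1 + 1 := by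
        rw [Int.ediv_lt_iff_lt_mul hp]
        linarith
      linarith

/-- distance to the value of the cell of the node, both offsets -/
theorem near_o {w E : ℕ → ℤ → ι → ℝ} (h : Drift N w E) {k : ℕ} (hk : k ≤ N) {a m o : ℤ}
    (ho : o = 1 ∨ o = -1) (h1 : m + dl o - 2 ≤ a / 2 ^ k) (h2 : a / 2 ^ k ≤ m + dl o) :
    (Fw w E k a - w k m) ⬝ᵥ (Fw w E k a - w k m) ≤ 3 * NrV w k (m + dl o) := by
  have hn := NrV_nonneg w k (m + dl o)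
  have h3 := near_vec h hk h1 h2
  rcases dl_cases ho with ⟨rfl, hd⟩ | ⟨rfl, hd⟩
  · rw [hd, add_zero] at hn h3 ⊢
    linarith
  · rw [hd] at hn h3 ⊢
    have h4 : (w k (m + 1) - w k m) ⬝ᵥ (w k (m + 1) - w k m) ≤ (1 / 4) * NrV w k (m + 1) := by
      unfold NrV dotProduct
      rw [mul_sum]
      refine sum_le_sum fun i _ => ?_
      have b0 := Bv_nonneg (fun k q => w k q i) k (m + 1)
      have b1 := Bv_nonneg (fun k q => w k q i) k (m + 1 - 1)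
      have b2 := Bv_nonneg (fun k q => w k q i) k (m + 1 - 2)
      have n2 := sq_nonneg (nb (fun k q => w k q i) k (m + 1 - 2))
      have e1 : nb (fun k q => w k q i) k (m + 1 - 1) = w k (m + 1) i - w k m i := by
        unfold nb
        rw [show m + 1 - 1 = m by ring]
      unfold Nr
      rw [Pi.sub_apply, ← pow_two, e1]
      linarith
    have h5 : ∀ x y : ι → ℝ, (x + y) ⬝ᵥ (x + y) ≤ 2 * (x ⬝ᵥ x) + 2 * (y ⬝ᵥ y) := by
      intro x y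
      have h6 := H922.dot_self_nonneg (x - y)
      simp only [sub_dotProduct, dotProduct_sub] at h6
      simp only [add_dotProduct, dotProduct_add]
      linarith
    have h6 := h5 (Fw w E k a - w k (m + 1)) (w k (m + 1) - w k m)
    rw [sub_add_sub_cancel] at h6
    linarith

/-! ### Sums over the nodes -/

section nodes

variable {K : ℕ} {M : Pt} {G Kq : ℤ → ℕ → ℤ → Matrix ι ι ℝ} {v : ℤ → ℤ → ι → ℝ}

omit [Fintype ι] [DecidableEq ι] in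
/-- a function of the point of the node dominated by a function of the `x₂`-cell -/
theorem nodes_dom (o : ℤ) {f : ℕ → Pt → ℤ → ℤ → ℤ → ℝ} {Φ : ℕ → ℤ → ℤ → ℤ → ℝ} {Q : ℤ → ℤ → ℝ}
    (hf : ∀ k ∈ Icc 1 K, ∀ m ∈ cbs K M k, ∀ x0 ∈ iv k (bx0 o m).1, ∀ x1 ∈ iv k m.1,
      ∀ x3 ∈ iv k m.2.2, f k m x0 x1 x3 ≤ Φ k m.2.1 x1 x3)
    (hΦ0 : ∀ k q x1 x3, 0 ≤ Φ k q x1 x3)
    (hΦ : ∀ x1 ∈ iv K M.1, ∀ x3 ∈ iv K M.2.2, ∑ k ∈ Icc 1 K, 2 ^ k *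
      ∑ q ∈ iv (K - k) M.2.1, Φ k q x1 x3 ≤ 2 ^ K * Q x1 x3)
    {W : ℤ → ℤ → ℤ → ℝ} {e : ℝ} (he : 0 ≤ e) (hW0 : ∀ x0 x1 x3, 0 ≤ W x0 x1 x3)
    (hW : ∀ k ≤ K, ∀ j x1 x3, ∑ x0 ∈ iv k j, W x0 x1 x3 ≤ e * 2 ^ k) :
    ∑ k ∈ Icc 1 K, ∑ m ∈ cbs K M k, ∑ x0 ∈ iv k (bx0 o m).1, ∑ x1 ∈ iv k m.1,
      ∑ x3 ∈ iv k m.2.2, W x0 x1 x3 * f k m x0 x1 x3 ≤
    e * (2 ^ K * ∑ x1 ∈ iv K M.1, ∑ x3 ∈ iv K M.2.2, Q x1 x3) := by
  refine le_trans ?_ ((H922.node_sum_le o K M hΦ0 hW).trans ?_)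
  · refine sum_le_sum fun k hk => sum_le_sum fun m hm => sum_le_sum fun x0 h0 =>
      sum_le_sum fun x1 h1 => sum_le_sum fun x3 h3 => ?_
    exact mul_le_mul_of_nonneg_left (hf k hk m hm x0 h0 x1 h1 x3 h3) (hW0 _ _ _)
  · refine mul_le_mul_of_nonneg_left (mul_le_mul_of_nonneg_left (sum_le_sum fun x1 h1 =>
      sum_le_sum fun x3 h3 => ?_) (by positivity)) he
    have h4 := hΦ x1 h1 x3 h3
    rw [← H922.tsum_iv (fun k q => Φ k q x1 x3) K M.2.1] at h4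
    exact le_of_mul_le_mul_left h4 (by positivity)

omit [Fintype ι] [DecidableEq ι] in
/-- shifted sums of a function supported in the root cell -/
theorem sum_shift_le {f : ℤ → ℝ} (hf : ∀ q, 0 ≤ f q) {X : Finset ℤ} (hX : ∀ q, q ∉ X → f q = 0)
    (T : Finset ℤ) (i : ℤ) : ∑ q ∈ T, f (q + i) ≤ ∑ q ∈ X, f q := by
  have h1 : ∑ q ∈ T, f (q + i) = ∑ q ∈ T.map (addRightEmbedding i), f q := by
    rw [sum_map]
    rfl
  rw [h1, ← sum_filter_add_sum_filter_not (T.map (addRightEmbedding i)) (fun q => q ∈ X),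
    sum_eq_zero (s := (T.map (addRightEmbedding i)).filter fun q => ¬ q ∈ X)
      (fun q hq => hX q (mem_filter.1 hq).2), add_zero]
  refine sum_le_sum_of_subset_of_nonneg (fun q hq => (mem_filter.1 hq).2) fun q _ _ => hf q

/-- **Distance of the slot to `W v` at the node**, real ties, weight of bounded `x₀`-line
averages. -/
theorem near_nodes' {o : ℤ} (ho : o = 1 ∨ o = -1) (hT : ∀ x1 ∈ iv K M.1, Tr l K (G x1) (Kq x1))
    (v : ℤ → ℤ → ι → ℝ) {W : ℤ → ℤ → ℤ → ℝ} {e : ℝ} (he : 0 ≤ e)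
    (hW0 : ∀ x0 x1 x3, 0 ≤ W x0 x1 x3)
    (hW : ∀ k ≤ K, ∀ j x1 x3, ∑ x0 ∈ iv k j, W x0 x1 x3 ≤ e * 2 ^ k) :
    ∑ k ∈ Icc 1 K, ∑ m ∈ cbs K M k, ∑ x0 ∈ iv k (bx0 o m).1, ∑ x1 ∈ iv k m.1,
      ∑ x3 ∈ iv k m.2.2, W x0 x1 x3 *
        (((Th l K M.2.1 (Kq x1) (o - 2) x0 x1 k m.2.2 - WT l K M.2.1 (Kq x1) k m.2.1) *ᵥ v x1 x3) ⬝ᵥ
        ((Th l K M.2.1 (Kq x1) (o - 2) x0 x1 k m.2.2 - WT l K M.2.1 (Kq x1) k m.2.1) *ᵥ
          v x1 x3)) ≤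
    e * (2 ^ K * ∑ x1 ∈ iv K M.1, ∑ x3 ∈ iv K M.2.2,
      12288 * l⁻¹ * (v x1 x3 ⬝ᵥ G x1 K M.2.1 *ᵥ v x1 x3)) := by
  refine nodes_dom o (f := fun k m x0 x1 x3 =>
        ((Th l K M.2.1 (Kq x1) (o - 2) x0 x1 k m.2.2 - WT l K M.2.1 (Kq x1) k m.2.1) *ᵥ v x1 x3) ⬝ᵥ
        ((Th l K M.2.1 (Kq x1) (o - 2) x0 x1 k m.2.2 - WT l K M.2.1 (Kq x1) k m.2.1) *ᵥ
          v x1 x3))
    (Φ := fun k q x1 x3 => 3 * NrV (fun k q => WT l K M.2.1 (Kq x1) k q *ᵥ v x1 x3) k (q + dl o))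
    (fun k hk m _ x0 h0 x1 h1 x3 _ => ?_)
    (fun k q x1 x3 => mul_nonneg (by norm_num) (NrV_nonneg _ _ _)) (fun x1 h1 x3 _ => ?_) he hW0 hW
  · obtain ⟨a1, a2⟩ := st_cell ho h0 h1
    rw [sub_mulVec, Th_mulVec]
    exact near_o (drift_vec l K M.2.1 (Kq x1) (v x1 x3)) (mem_Icc.1 hk).2 ho a1 a2
  · have h2 := near_sum (drift_vec l K M.2.1 (Kq x1) (v x1 x3)) (M := M.2.1)
      (fun k _ q hq => by rw [WT_out hq, zero_mulVec])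
      (fun k _ q hq => by rw [ET_out hq, zero_mulVec])
      (fun k => (iv (K - k) M.2.1).map (addRightEmbedding (dl o)))
    have h3 := EnV_le (M := M.2.1) (hT x1 h1) (v x1 x3)
    have h4 : ∑ k ∈ Icc 1 K, (2 : ℝ) ^ k * ∑ q ∈ iv (K - k) M.2.1,
        3 * NrV (fun k q => WT l K M.2.1 (Kq x1) k q *ᵥ v x1 x3) k (q + dl o) ≤
        3 * ∑ k ∈ range (K + 1), 2 ^ k * ∑ m ∈ (iv (K - k) M.2.1).map (addRightEmbedding (dl o)),
          NrV (fun k q => WT l K M.2.1 (Kq x1) k q *ᵥ v x1 x3) k m := by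
      rw [mul_sum]
      refine (le_of_eq (sum_congr rfl fun k _ => ?_)).trans
        (sum_le_sum_of_subset_of_nonneg (fun k hk => ?_) fun k _ _ => ?_)
      · rw [← mul_sum, sum_map]
        simp only [addRightEmbedding_apply]
        ring
      · rw [mem_range]
        have := (mem_Icc.1 hk).2
        omega
      · exact mul_nonneg (by norm_num) (mul_nonneg (by positivity)
          (sum_nonneg fun _ _ => NrV_nonneg _ _ _))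
    refine h4.trans ?_
    calc _ ≤ 3 * (4096 * (2 ^ K * (l⁻¹ * (v x1 x3 ⬝ᵥ G x1 K M.2.1 *ᵥ v x1 x3)))) := by
          refine mul_le_mul_of_nonneg_left (h2.trans ?_) (by norm_num)
          exact mul_le_mul_of_nonneg_left h3 (by norm_num)
      _ = _ := by ring

/-- **The half differences of the slot**, real ties. -/
theorem half_nodes' {o : ℤ} (ho : o = 1 ∨ o = -1) (hT : ∀ x1 ∈ iv K M.1, Tr l K (G x1) (Kq x1))
    (v : ℤ → ℤ → ι → ℝ) {W : ℤ → ℤ → ℤ → ℝ} {e : ℝ} (he : 0 ≤ e)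
    (hW0 : ∀ x0 x1 x3, 0 ≤ W x0 x1 x3)
    (hW : ∀ k ≤ K, ∀ j x1 x3, ∑ x0 ∈ iv k j, W x0 x1 x3 ≤ e * 2 ^ k) :
    ∑ k ∈ Icc 1 K, ∑ m ∈ cbs K M k, ∑ x0 ∈ iv k (bx0 o m).1, ∑ x1 ∈ iv k m.1,
      ∑ x3 ∈ iv k m.2.2, W x0 x1 x3 *
        ((ah l K M.2.1 (Kq x1) (o - 2) x0 x1 (k - 1) m.2.2 *ᵥ v x1 x3) ⬝ᵥ
        (ah l K M.2.1 (Kq x1) (o - 2) x0 x1 (k - 1) m.2.2 *ᵥ v x1 x3)) ≤
    e * (2 ^ K * ∑ x1 ∈ iv K M.1, ∑ x3 ∈ iv K M.2.2,
      4096 * l⁻¹ * (v x1 x3 ⬝ᵥ G x1 K M.2.1 *ᵥ v x1 x3)) := by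
  refine nodes_dom o (f := fun k m x0 x1 x3 =>
        (ah l K M.2.1 (Kq x1) (o - 2) x0 x1 (k - 1) m.2.2 *ᵥ v x1 x3) ⬝ᵥ
        (ah l K M.2.1 (Kq x1) (o - 2) x0 x1 (k - 1) m.2.2 *ᵥ v x1 x3))
    (Φ := fun k q x1 x3 => HdV (fun k q => WT l K M.2.1 (Kq x1) k q *ᵥ v x1 x3) k (q + dl o))
    (fun k hk m _ x0 h0 x1 h1 x3 _ => ?_)
    (fun k q x1 x3 => HdV_nonneg _ _ _) (fun x1 h1 x3 _ => ?_) he hW0 hW
  · obtain ⟨j, rfl⟩ : ∃ j, k = j + 1 := ⟨k - 1, by have := (mem_Icc.1 hk).1; omega⟩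
    obtain ⟨a1, a2⟩ := st_cell ho h0 h1
    have hj : j ≤ K := by have := (mem_Icc.1 hk).2; omega
    have h2 := half_vec' (drift_vec l K M.2.1 (Kq x1) (v x1 x3)) hj a1 a2
    rw [Nat.add_sub_cancel]
    have e1 : ah l K M.2.1 (Kq x1) (o - 2) x0 x1 j m.2.2 *ᵥ v x1 x3 =
        -((1 / 2 : ℝ) • (Fw (fun k q => WT l K M.2.1 (Kq x1) k q *ᵥ v x1 x3)
          (fun k q => ET l K M.2.1 (Kq x1) k q *ᵥ v x1 x3) j (st (o - 2) x0 x1 (j + 1) m.2.2) -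
          Fw (fun k q => WT l K M.2.1 (Kq x1) k q *ᵥ v x1 x3)
          (fun k q => ET l K M.2.1 (Kq x1) k q *ᵥ v x1 x3) j
            (st (o - 2) x0 x1 (j + 1) m.2.2 + 2 ^ j))) := by
      unfold ah
      rw [smul_mulVec, sub_mulVec, Th_mulVec, Th_mulVec, st_odd, st_even]
      module
    rw [e1, neg_dotProduct, dotProduct_neg, neg_neg]
    exact h2
  · have h2 := half_sum (drift_vec l K M.2.1 (Kq x1) (v x1 x3)) (M := M.2.1)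
      (fun k _ q hq => by rw [WT_out hq, zero_mulVec])
      (fun k _ q hq => by rw [ET_out hq, zero_mulVec])
      (fun k => (iv (K - (k + 1)) M.2.1).map (addRightEmbedding (dl o)))
    have h3 := EnV_le (M := M.2.1) (hT x1 h1) (v x1 x3)
    rw [← sum_range_Icc (fun k => 2 ^ k * ∑ q ∈ iv (K - k) M.2.1,
      HdV (fun k q => WT l K M.2.1 (Kq x1) k q *ᵥ v x1 x3) k (q + dl o))]
    have h4 : ∀ k, ∑ m ∈ (iv (K - (k + 1)) M.2.1).map (addRightEmbedding (dl o)),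
        HdV (fun k q => WT l K M.2.1 (Kq x1) k q *ᵥ v x1 x3) (k + 1) m =
        ∑ q ∈ iv (K - (k + 1)) M.2.1,
          HdV (fun k q => WT l K M.2.1 (Kq x1) k q *ᵥ v x1 x3) (k + 1) (q + dl o) := by
      intro k
      rw [sum_map]
      simp only [addRightEmbedding_apply]
    simp only [h4] at h2
    calc _ ≤ 4096 * (2 ^ K * (l⁻¹ * (v x1 x3 ⬝ᵥ G x1 K M.2.1 *ᵥ v x1 x3))) := by
          exact h2.trans (mul_le_mul_of_nonneg_left h3 (by norm_num))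
      _ = _ := by ring

/-- **The losses of the slot**, real ties. -/
theorem eb_nodes' {o : ℤ} (ho : o = 1 ∨ o = -1) (hT : ∀ x1 ∈ iv K M.1, Tr l K (G x1) (Kq x1))
    (v : ℤ → ℤ → ι → ℝ) {W : ℤ → ℤ → ℤ → ℝ} {e : ℝ} (he : 0 ≤ e)
    (hW0 : ∀ x0 x1 x3, 0 ≤ W x0 x1 x3)
    (hW : ∀ k ≤ K, ∀ j x1 x3, ∑ x0 ∈ iv k j, W x0 x1 x3 ≤ e * 2 ^ k) :
    ∑ k ∈ Icc 1 K, ∑ m ∈ cbs K M k, ∑ x0 ∈ iv k (bx0 o m).1, ∑ x1 ∈ iv k m.1,
      ∑ x3 ∈ iv k m.2.2, W x0 x1 x3 *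
        (v x1 x3 ⬝ᵥ eb l K M.2.1 (Kq x1) (o - 2) x0 x1 k m.2.2 *ᵥ v x1 x3) ≤
    e * (2 ^ K * ∑ x1 ∈ iv K M.1, ∑ x3 ∈ iv K M.2.2,
      2 * l⁻¹ * (v x1 x3 ⬝ᵥ G x1 K M.2.1 *ᵥ v x1 x3)) := by
  have hE : ∀ x1 ∈ iv K M.1, ∀ k q (y : ι → ℝ), 0 ≤ y ⬝ᵥ ET l K M.2.1 (Kq x1) k q *ᵥ y :=
    fun x1 h1 k q y => H420.quad_nonneg (ET_psd (M := M.2.1) (hT x1 h1) k q) y
  refine nodes_dom o (f := fun k m x0 x1 x3 =>
        v x1 x3 ⬝ᵥ eb l K M.2.1 (Kq x1) (o - 2) x0 x1 k m.2.2 *ᵥ v x1 x3)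
    (Φ := fun k q x1 x3 => if x1 ∈ iv K M.1 then ∑ i ∈ range 4,
      v x1 x3 ⬝ᵥ ET l K M.2.1 (Kq x1) k (q + (dl o - 2 + i)) *ᵥ v x1 x3 else 0)
    (fun k hk m hm x0 h0 x1 h1 x3 _ => ?_)
    (fun k q x1 x3 => ?_) (fun x1 h1 x3 _ => ?_) he hW0 hW
  · have hx1 : x1 ∈ iv K M.1 := by
      unfold cbs at hm
      rw [mem_product] at hm
      have h2 := hm.1
      have hkK := (mem_Icc.1 hk).2
      rw [mem_iv] at h1 h2 ⊢
      rw [← h1, ix_ix, Nat.add_sub_cancel' hkK] at h2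
      exact h2
    rw [if_pos hx1]
    obtain ⟨a1, a2⟩ := st_cell ho h0 h1
    have h2 := H420.quad_nonneg (eb_le (M := M.2.1) (hT x1 hx1) (o - 2) x0 x1 k m.2.2) (v x1 x3)
    rw [sub_mulVec, dotProduct_sub, add_mulVec, dotProduct_add] at h2
    set q := st (o - 2) x0 x1 k m.2.2 / 2 ^ k with hq
    obtain ⟨i, hi⟩ : ∃ i : ℕ, q = m.2.1 + (dl o - 2 + i) :=
      ⟨(q - (m.2.1 + (dl o - 2))).toNat, by omega⟩
    have hi3 : i < 3 := by omega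
    have hsub : ({i, i + 1} : Finset ℕ) ⊆ range 4 := by
      intro j hj
      simp only [mem_insert, mem_singleton] at hj
      rw [mem_range]
      omega
    refine le_trans ?_ (sum_le_sum_of_subset_of_nonneg hsub fun j _ _ => hE x1 hx1 _ _ _)
    rw [sum_pair (by omega), ← hi]
    have e4 : m.2.1 + (dl o - 2 + ((i + 1 : ℕ) : ℤ)) = q + 1 := by push_cast; rw [hi]; ring
    rw [e4]
    linarith
  · split_ifs with h1
    · exact sum_nonneg fun i _ => hE x1 h1 _ _ _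
    · exact le_rfl
  · simp only [if_pos h1]
    have h2 := ET_sum (M := M.2.1) (hT x1 h1) (v x1 x3)
    have h3 : ∀ k, ∑ q ∈ iv (K - k) M.2.1, ∑ i ∈ range 4,
        v x1 x3 ⬝ᵥ ET l K M.2.1 (Kq x1) k (q + (dl o - 2 + (i : ℕ))) *ᵥ v x1 x3 ≤
        4 * ∑ q ∈ iv (K - k) M.2.1, v x1 x3 ⬝ᵥ ET l K M.2.1 (Kq x1) k q *ᵥ v x1 x3 := by
      intro k
      rw [sum_comm]
      refine (sum_le_sum fun i _ => sum_shift_le
        (f := fun q => v x1 x3 ⬝ᵥ ET l K M.2.1 (Kq x1) k q *ᵥ v x1 x3)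
        (fun q => hE x1 h1 _ _ _) (X := iv (K - k) M.2.1)
        (fun q hq => by rw [ET_out hq, zero_mulVec, dotProduct_zero]) _ _).trans (le_of_eq ?_)
      rw [sum_const, card_range, nsmul_eq_mul]
      norm_num
    calc _ ≤ ∑ k ∈ Icc 1 K, (2 : ℝ) ^ k * (4 * ∑ q ∈ iv (K - k) M.2.1,
          v x1 x3 ⬝ᵥ ET l K M.2.1 (Kq x1) k q *ᵥ v x1 x3) :=
          sum_le_sum fun k _ => mul_le_mul_of_nonneg_left (h3 k) (by positivity)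
      _ = 4 * ∑ k ∈ Icc 1 K, (2 : ℝ) ^ k * ∑ q ∈ iv (K - k) M.2.1,
          v x1 x3 ⬝ᵥ ET l K M.2.1 (Kq x1) k q *ᵥ v x1 x3 := by
          rw [mul_sum]
          exact sum_congr rfl fun k _ => by ring
      _ ≤ 4 * (2 ^ K * ((2 * l)⁻¹ * (v x1 x3 ⬝ᵥ G x1 K M.2.1 *ᵥ v x1 x3))) := by linarith
      _ = _ := by rw [mul_inv]; ring

/-- label potentials over `x₃` -/
theorem pot_sum {P C : ℝ} (hC : 0 ≤ C) (hT : ∀ x1 ∈ iv K M.1, Tr l K (G x1) (Kq x1))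
    (hv : ∀ x1 ∈ iv K M.1, ∀ θ : ι → ℝ, ∑ x3 ∈ iv K M.2.2, (θ ⬝ᵥ v x1 x3) ^ 2 ≤ P * (θ ⬝ᵥ θ)) :
    ∑ x1 ∈ iv K M.1, ∑ x3 ∈ iv K M.2.2, C * (v x1 x3 ⬝ᵥ G x1 K M.2.1 *ᵥ v x1 x3) ≤
      C * (P * ∑ x1 ∈ iv K M.1, (G x1 K M.2.1).trace) := by
  rw [mul_sum, mul_sum]
  refine sum_le_sum fun x1 h1 => ?_
  rw [← mul_sum]
  exact mul_le_mul_of_nonneg_left (H922.sum_form_le _ _ (hv x1 h1) ((hT x1 h1).psG K M.2.1)) hC

/-- **Distance of the slot to `W v` at the node**, `v` with label potentials `≤ P`. -/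
theorem near_nodes {P : ℝ} {o : ℤ} (ho : o = 1 ∨ o = -1)
    (hl : 0 < l) (hT : ∀ x1 ∈ iv K M.1, Tr l K (G x1) (Kq x1))
    (hv : ∀ x1 ∈ iv K M.1, ∀ θ : ι → ℝ, ∑ x3 ∈ iv K M.2.2, (θ ⬝ᵥ v x1 x3) ^ 2 ≤ P * (θ ⬝ᵥ θ))
    {W : ℤ → ℤ → ℤ → ℝ} {e : ℝ} (he : 0 ≤ e) (hW0 : ∀ x0 x1 x3, 0 ≤ W x0 x1 x3)
    (hW : ∀ k ≤ K, ∀ j x1 x3, ∑ x0 ∈ iv k j, W x0 x1 x3 ≤ e * 2 ^ k) :
    ∑ k ∈ Icc 1 K, ∑ m ∈ cbs K M k, ∑ x0 ∈ iv k (bx0 o m).1, ∑ x1 ∈ iv k m.1,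
      ∑ x3 ∈ iv k m.2.2, W x0 x1 x3 *
        (((Th l K M.2.1 (Kq x1) (o - 2) x0 x1 k m.2.2 - WT l K M.2.1 (Kq x1) k m.2.1) *ᵥ v x1 x3) ⬝ᵥ
        ((Th l K M.2.1 (Kq x1) (o - 2) x0 x1 k m.2.2 - WT l K M.2.1 (Kq x1) k m.2.1) *ᵥ
          v x1 x3)) ≤
    e * (2 ^ K * (12288 * l⁻¹ * (P * ∑ x1 ∈ iv K M.1, (G x1 K M.2.1).trace))) :=
  (near_nodes' ho hT v he hW0 hW).trans (mul_le_mul_of_nonneg_left (mul_le_mul_of_nonneg_left
    (pot_sum (by positivity) hT hv) (by positivity)) he)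

/-- **The half differences of the slot**, `v` with label potentials `≤ P`. -/
theorem half_nodes {P : ℝ} {o : ℤ} (ho : o = 1 ∨ o = -1)
    (hl : 0 < l) (hT : ∀ x1 ∈ iv K M.1, Tr l K (G x1) (Kq x1))
    (hv : ∀ x1 ∈ iv K M.1, ∀ θ : ι → ℝ, ∑ x3 ∈ iv K M.2.2, (θ ⬝ᵥ v x1 x3) ^ 2 ≤ P * (θ ⬝ᵥ θ))
    {W : ℤ → ℤ → ℤ → ℝ} {e : ℝ} (he : 0 ≤ e) (hW0 : ∀ x0 x1 x3, 0 ≤ W x0 x1 x3)
    (hW : ∀ k ≤ K, ∀ j x1 x3, ∑ x0 ∈ iv k j, W x0 x1 x3 ≤ e * 2 ^ k) :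
    ∑ k ∈ Icc 1 K, ∑ m ∈ cbs K M k, ∑ x0 ∈ iv k (bx0 o m).1, ∑ x1 ∈ iv k m.1,
      ∑ x3 ∈ iv k m.2.2, W x0 x1 x3 *
        ((ah l K M.2.1 (Kq x1) (o - 2) x0 x1 (k - 1) m.2.2 *ᵥ v x1 x3) ⬝ᵥ
        (ah l K M.2.1 (Kq x1) (o - 2) x0 x1 (k - 1) m.2.2 *ᵥ v x1 x3)) ≤
    e * (2 ^ K * (4096 * l⁻¹ * (P * ∑ x1 ∈ iv K M.1, (G x1 K M.2.1).trace))) :=
  (half_nodes' ho hT v he hW0 hW).trans (mul_le_mul_of_nonneg_left (mul_le_mul_of_nonneg_left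
    (pot_sum (by positivity) hT hv) (by positivity)) he)

/-- **The losses of the slot**, `v` with label potentials `≤ P`. -/
theorem eb_nodes {P : ℝ} {o : ℤ} (ho : o = 1 ∨ o = -1)
    (hl : 0 < l) (hT : ∀ x1 ∈ iv K M.1, Tr l K (G x1) (Kq x1))
    (hv : ∀ x1 ∈ iv K M.1, ∀ θ : ι → ℝ, ∑ x3 ∈ iv K M.2.2, (θ ⬝ᵥ v x1 x3) ^ 2 ≤ P * (θ ⬝ᵥ θ))
    {W : ℤ → ℤ → ℤ → ℝ} {e : ℝ} (he : 0 ≤ e) (hW0 : ∀ x0 x1 x3, 0 ≤ W x0 x1 x3)
    (hW : ∀ k ≤ K, ∀ j x1 x3, ∑ x0 ∈ iv k j, W x0 x1 x3 ≤ e * 2 ^ k) :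
    ∑ k ∈ Icc 1 K, ∑ m ∈ cbs K M k, ∑ x0 ∈ iv k (bx0 o m).1, ∑ x1 ∈ iv k m.1,
      ∑ x3 ∈ iv k m.2.2, W x0 x1 x3 *
        (v x1 x3 ⬝ᵥ eb l K M.2.1 (Kq x1) (o - 2) x0 x1 k m.2.2 *ᵥ v x1 x3) ≤
    e * (2 ^ K * (2 * l⁻¹ * (P * ∑ x1 ∈ iv K M.1, (G x1 K M.2.1).trace))) :=
  (eb_nodes' ho hT v he hW0 hW).trans (mul_le_mul_of_nonneg_left (mul_le_mul_of_nonneg_left
    (pot_sum (by positivity) hT hv) (by positivity)) he)

end nodes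

/-! ### Sums over all `x₀` at fixed `(x₁, x₃)` -/

section all

variable {K : ℕ} {M : ℤ} {G Kq : ℤ → ℕ → ℤ → Matrix ι ι ℝ} {v : ℤ → ℤ → ι → ℝ}

theorem fibre {k : ℕ} {A q x : ℤ} (h : (A - x) / 2 ^ k = q) :
    x ∈ iv k ((A + 1 - 2 ^ k * (q + 1)) / 2 ^ k) ∪ iv k ((A + 1 - 2 ^ k * (q + 1)) / 2 ^ k + 1) := by
  have hp : (0 : ℤ) < 2 ^ k := by positivity
  have h1 : 2 ^ k * q ≤ A - x := by
    have := Int.ediv_mul_le (A - x) hp.ne'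
    rw [h] at this
    linarith
  have h2 : A - x < 2 ^ k * (q + 1) := by
    have := Int.lt_ediv_add_one_mul_self (A - x) hp
    rw [h] at this
    linarith
  set B := A + 1 - 2 ^ k * (q + 1) with hB
  have h3 : B ≤ x := by linarith
  have h4 : x < B + 2 ^ k := by linarith
  have h5 : B / 2 ^ k ≤ x / 2 ^ k := Int.ediv_le_ediv hp h3
  have h6 : x / 2 ^ k ≤ B / 2 ^ k + 1 := by
    have h7 : x / 2 ^ k ≤ (B + 2 ^ k) / 2 ^ k := Int.ediv_le_ediv hp h4.le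
    rwa [Int.add_ediv_of_dvd_right (dvd_refl _), Int.ediv_self hp.ne'] at h7
  rw [mem_union, mem_iv, mem_iv]
  unfold ix
  omega

/-- a function of the cell of the window, weighted sums over `x₀` -/
theorem fib_sum {W : ℤ → ℝ} {e : ℝ} (hW0 : ∀ x, 0 ≤ W x) {k : ℕ}
    (hW : ∀ j, ∑ x ∈ iv k j, W x ≤ e * 2 ^ k) {f : ℤ → ℝ} (hf : ∀ q, 0 ≤ f q) (X : Finset ℤ)
    (c x1 m : ℤ) : ∑ x ∈ X, W x * f (st c x x1 k m / 2 ^ k) ≤
      2 * e * (2 ^ k * ∑ q ∈ X.image (fun x => st c x x1 k m / 2 ^ k), f q) := by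
  rw [← sum_fiberwise_of_maps_to (s := X) (t := X.image (fun x => st c x x1 k m / 2 ^ k))
    (g := fun x => st c x x1 k m / 2 ^ k) (fun x hx => mem_image_of_mem _ hx), mul_sum, mul_sum]
  refine sum_le_sum fun q _ => ?_
  have e1 : ∑ x ∈ X.filter (fun x => st c x x1 k m / 2 ^ k = q),
      W x * f (st c x x1 k m / 2 ^ k) =
      (∑ x ∈ X.filter (fun x => st c x x1 k m / 2 ^ k = q), W x) * f q := by
    rw [sum_mul]
    refine sum_congr rfl fun x hx => ?_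
    rw [(mem_filter.1 hx).2]
  rw [e1]
  have e2 : ∑ x ∈ X.filter (fun x => st c x x1 k m / 2 ^ k = q), W x ≤ 2 * (e * 2 ^ k) := by
    set A := c + 1 - x1 - 2 ^ k * (m + 1) with hA
    set j := (A + 1 - 2 ^ k * (q + 1)) / 2 ^ k with hj
    have h1 : X.filter (fun x => st c x x1 k m / 2 ^ k = q) ⊆ iv k j ∪ iv k (j + 1) := by
      intro x hx
      have h2 := (mem_filter.1 hx).2
      have h3 : st c x x1 k m = A - x := by rw [hA]; unfold st; ring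
      rw [h3] at h2
      exact fibre h2
    refine (sum_le_sum_of_subset_of_nonneg h1 fun x _ _ => hW0 x).trans ?_
    have h4 := sum_union_inter (s₁ := iv k j) (s₂ := iv k (j + 1)) (f := W)
    have h5 : 0 ≤ ∑ x ∈ iv k j ∩ iv k (j + 1), W x := sum_nonneg fun x _ => hW0 x
    have h6 := hW j
    have h7 := hW (j + 1)
    linarith
  calc _ ≤ 2 * (e * 2 ^ k) * f q := mul_le_mul_of_nonneg_right e2 (hf q)
    _ = _ := by ring

/-- **The half differences at fixed `(x₁, x₃)`**: sum over all scales and all `x₀`. -/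
theorem half_all {Kr Gr : ℕ → ℤ → Matrix ι ι ℝ} (hT : Tr l K Gr Kr) (w : ι → ℝ) {W : ℤ → ℝ} {e : ℝ}
    (he : 0 ≤ e) (hW0 : ∀ x, 0 ≤ W x) (hW : ∀ k ≤ K, ∀ j, ∑ x ∈ iv k j, W x ≤ e * 2 ^ k)
    (X : Finset ℤ) (c x1 x3 : ℤ) :
    ∑ k ∈ range K, ∑ x ∈ X, W x * ((ah l K M Kr c x x1 k (ix (k + 1) x3) *ᵥ w) ⬝ᵥ
      (ah l K M Kr c x x1 k (ix (k + 1) x3) *ᵥ w)) ≤
    e * (2 ^ K * (8192 * l⁻¹ * (w ⬝ᵥ Gr K M *ᵥ w))) := by
  have h1 : ∀ k ∈ range K, ∑ x ∈ X, W x * ((ah l K M Kr c x x1 k (ix (k + 1) x3) *ᵥ w) ⬝ᵥ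
      (ah l K M Kr c x x1 k (ix (k + 1) x3) *ᵥ w)) ≤
      2 * e * (2 ^ (k + 1) * ∑ q ∈ X.image (fun x => st c x x1 (k + 1) (ix (k + 1) x3) /
        2 ^ (k + 1)), HdV (fun k q => WT l K M Kr k q *ᵥ w) (k + 1) q) := by
    intro k hk
    have hk' := mem_range.1 hk
    refine le_trans (sum_le_sum fun x _ => mul_le_mul_of_nonneg_left ?_ (hW0 x))
      (fib_sum hW0 (hW (k + 1) hk') (fun q => HdV_nonneg _ _ _) X c x1 (ix (k + 1) x3))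
    have h2 := half_vec' (drift_vec l K M Kr w) hk'.le
      (a := st c x x1 (k + 1) (ix (k + 1) x3))
      (m := st c x x1 (k + 1) (ix (k + 1) x3) / 2 ^ (k + 1)) (by linarith) le_rfl
    have e1 : ah l K M Kr c x x1 k (ix (k + 1) x3) *ᵥ w =
        -((1 / 2 : ℝ) • (Fw (fun k q => WT l K M Kr k q *ᵥ w)
          (fun k q => ET l K M Kr k q *ᵥ w) k (st c x x1 (k + 1) (ix (k + 1) x3)) -
          Fw (fun k q => WT l K M Kr k q *ᵥ w)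
          (fun k q => ET l K M Kr k q *ᵥ w) k (st c x x1 (k + 1) (ix (k + 1) x3) + 2 ^ k))) := by
      unfold ah
      rw [smul_mulVec, sub_mulVec, Th_mulVec, Th_mulVec, st_odd, st_even]
      module
    rw [e1, neg_dotProduct, dotProduct_neg, neg_neg]
    exact h2
  refine (sum_le_sum h1).trans ?_
  rw [← mul_sum]
  have h2 := half_sum (drift_vec l K M Kr w) (M := M)
      (fun k _ q hq => by rw [WT_out hq, zero_mulVec])
      (fun k _ q hq => by rw [ET_out hq, zero_mulVec])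
      (fun k => X.image (fun x => st c x x1 (k + 1) (ix (k + 1) x3) / 2 ^ (k + 1)))
  have h3 := EnV_le (M := M) hT w
  calc _ ≤ 2 * e * (4096 * (2 ^ K * (l⁻¹ * (w ⬝ᵥ Gr K M *ᵥ w)))) :=
        mul_le_mul_of_nonneg_left (h2.trans (mul_le_mul_of_nonneg_left h3 (by norm_num)))
          (by positivity)
    _ = _ := by ring

/-- **The losses at fixed `(x₁, x₃)`**: sum over all scales and all `x₀`. -/
theorem eb_all {Kr Gr : ℕ → ℤ → Matrix ι ι ℝ} (hT : Tr l K Gr Kr) (w : ι → ℝ) {W : ℤ → ℝ} {e : ℝ}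
    (he : 0 ≤ e) (hW0 : ∀ x, 0 ≤ W x) (hW : ∀ k ≤ K, ∀ j, ∑ x ∈ iv k j, W x ≤ e * 2 ^ k)
    (X : Finset ℤ) (c x1 x3 : ℤ) :
    ∑ k ∈ Icc 1 K, ∑ x ∈ X, W x * (w ⬝ᵥ eb l K M Kr c x x1 k (ix k x3) *ᵥ w) ≤
    e * (2 ^ K * (2 * l⁻¹ * (w ⬝ᵥ Gr K M *ᵥ w))) := by
  have hE : ∀ k q, 0 ≤ w ⬝ᵥ ET l K M Kr k q *ᵥ w := fun k q =>
    H420.quad_nonneg (ET_psd (M := M) hT k q) w
  have h1 : ∀ k ∈ Icc 1 K, ∑ x ∈ X, W x * (w ⬝ᵥ eb l K M Kr c x x1 k (ix k x3) *ᵥ w) ≤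
      4 * e * (2 ^ k * ∑ q ∈ iv (K - k) M, w ⬝ᵥ ET l K M Kr k q *ᵥ w) := by
    intro k hk
    have hk' := (mem_Icc.1 hk).2
    refine le_trans (sum_le_sum fun x _ => mul_le_mul_of_nonneg_left ?_ (hW0 x))
      ((fib_sum hW0 (hW k hk') (f := fun q => w ⬝ᵥ ET l K M Kr k q *ᵥ w +
        w ⬝ᵥ ET l K M Kr k (q + 1) *ᵥ w) (fun q => add_nonneg (hE k q) (hE k _)) X c x1
        (ix k x3)).trans ?_)
    · have h2 := H420.quad_nonneg (eb_le (M := M) hT c x x1 k (ix k x3)) w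
      rw [sub_mulVec, dotProduct_sub, add_mulVec, dotProduct_add] at h2
      linarith
    · have h3 := sum_shift_le (f := fun q => w ⬝ᵥ ET l K M Kr k q *ᵥ w) (hE k)
        (X := iv (K - k) M) (fun q hq => by rw [ET_out hq, zero_mulVec, dotProduct_zero])
        (X.image (fun x => st c x x1 k (ix k x3) / 2 ^ k)) 0
      have h4 := sum_shift_le (f := fun q => w ⬝ᵥ ET l K M Kr k q *ᵥ w) (hE k)
        (X := iv (K - k) M) (fun q hq => by rw [ET_out hq, zero_mulVec, dotProduct_zero])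
        (X.image (fun x => st c x x1 k (ix k x3) / 2 ^ k)) 1
      simp only [add_zero] at h3
      rw [sum_add_distrib]
      calc _ ≤ 2 * e * (2 ^ k * (∑ q ∈ iv (K - k) M, w ⬝ᵥ ET l K M Kr k q *ᵥ w +
            ∑ q ∈ iv (K - k) M, w ⬝ᵥ ET l K M Kr k q *ᵥ w)) := by
            gcongr
        _ = _ := by ring
  refine (sum_le_sum h1).trans ?_
  rw [← mul_sum]
  have h2 := ET_sum (M := M) hT w
  calc _ ≤ 4 * e * (2 ^ K * ((2 * l)⁻¹ * (w ⬝ᵥ Gr K M *ᵥ w))) :=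
        mul_le_mul_of_nonneg_left h2 (by positivity)
    _ = _ := by rw [mul_inv]; ring

/-- the forms of `W` over the cells of one scale -/
theorem WT_sum {Kr Gr : ℕ → ℤ → Matrix ι ι ℝ} (hT : Tr l K Gr Kr) (w : ι → ℝ) {k : ℕ}
    (hk : k ≤ K) : 2 ^ k * ∑ q ∈ iv (K - k) M, w ⬝ᵥ WT l K M Kr k q *ᵥ w ≤
      2 ^ K * ((2 * l)⁻¹ * (w ⬝ᵥ Gr K M *ᵥ w)) := by
  have hl := hT.l_pos
  have h1 : ∀ q ∈ iv (K - k) M, w ⬝ᵥ WT l K M Kr k q *ᵥ w ≤ (2 * l)⁻¹ * (w ⬝ᵥ Gr k q *ᵥ w) := by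
    intro q hq
    have h2 := H186.one_sub_le (hT.pdK k q) hl (hT.sq k q) w
    rw [div_eq_inv_mul] at h2
    rw [WT_in hq, sub_mulVec, dotProduct_sub, one_mulVec, smul_mulVec, dotProduct_smul,
      smul_eq_mul]
    exact h2
  have h3 : ∀ j, j ≤ K - k → ∀ m, 2 ^ k * ∑ q ∈ iv j m, w ⬝ᵥ Gr k q *ᵥ w =
      2 ^ (k + j) * (w ⬝ᵥ Gr (k + j) m *ᵥ w) := by
    intro j
    induction j with
    | zero =>
      intro _ m
      have e : iv 0 m = {m} := by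
        ext x
        rw [mem_iv, mem_singleton]
        unfold ix
        simp
      rw [e, sum_singleton, add_zero]
    | succ j ih =>
      intro hj m
      have e : ∑ q ∈ iv (j + 1) m, w ⬝ᵥ Gr k q *ᵥ w = ∑ q ∈ iv j (2 * m), w ⬝ᵥ Gr k q *ᵥ w +
          ∑ q ∈ iv j (2 * m + 1), w ⬝ᵥ Gr k q *ᵥ w := by
        have e1 : iv (j + 1) m = iv j (2 * m) ∪ iv j (2 * m + 1) := by
          ext x
          rw [mem_union, mem_iv, mem_iv, mem_iv]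
          unfold ix
          rw [pow_succ, ← Int.ediv_ediv_of_nonneg (by positivity)]
          omega
        rw [e1, sum_union]
        rw [disjoint_left]
        intro x hx hx'
        rw [mem_iv] at hx hx'
        omega
      rw [e, mul_add, ih (by omega), ih (by omega), ← add_assoc k j 1,
        hT.mean (k + j) (by omega) m, H186.form_half_add, pow_succ]
      ring
  have h4 := h3 (K - k) le_rfl M
  rw [Nat.add_sub_cancel' hk] at h4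
  calc _ ≤ 2 ^ k * ∑ q ∈ iv (K - k) M, (2 * l)⁻¹ * (w ⬝ᵥ Gr k q *ᵥ w) :=
        mul_le_mul_of_nonneg_left (sum_le_sum h1) (by positivity)
    _ = (2 * l)⁻¹ * (2 ^ k * ∑ q ∈ iv (K - k) M, w ⬝ᵥ Gr k q *ᵥ w) := by rw [← mul_sum]; ring
    _ = _ := by rw [h4]; ring

/-- **The forms of the slot at fixed `(x₁, x₃)`**: one scale, sum over all `x₀`. -/
theorem Th_all {Kr Gr : ℕ → ℤ → Matrix ι ι ℝ} (hT : Tr l K Gr Kr) (w : ι → ℝ) {W : ℤ → ℝ} {e : ℝ}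
    (he : 0 ≤ e) (hW0 : ∀ x, 0 ≤ W x) {k : ℕ} (hk : k ≤ K)
    (hW : ∀ j, ∑ x ∈ iv k j, W x ≤ e * 2 ^ k) (X : Finset ℤ) (c x1 m : ℤ) :
    ∑ x ∈ X, W x * (w ⬝ᵥ Th l K M Kr c x x1 k m *ᵥ w) ≤
    e * (2 ^ K * (2 * l⁻¹ * (w ⬝ᵥ Gr K M *ᵥ w))) := by
  have hE : ∀ q, 0 ≤ w ⬝ᵥ WT l K M Kr k q *ᵥ w := fun q =>
    H420.quad_nonneg (WT_psd (M := M) hT k q) w
  refine le_trans (sum_le_sum fun x _ => mul_le_mul_of_nonneg_left ?_ (hW0 x))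
      ((fib_sum hW0 hW (f := fun q => w ⬝ᵥ WT l K M Kr k q *ᵥ w +
        w ⬝ᵥ WT l K M Kr k (q + 1) *ᵥ w) (fun q => add_nonneg (hE q) (hE _)) X c x1 m).trans ?_)
  · have h2 := H420.quad_nonneg (Th_le (M := M) hT c x x1 hk m) w
    rw [sub_mulVec, dotProduct_sub, add_mulVec, dotProduct_add] at h2
    linarith
  · have h3 := sum_shift_le (f := fun q => w ⬝ᵥ WT l K M Kr k q *ᵥ w) hE
        (X := iv (K - k) M) (fun q hq => by rw [WT_out hq, zero_mulVec, dotProduct_zero])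
        (X.image (fun x => st c x x1 k m / 2 ^ k)) 0
    have h4 := sum_shift_le (f := fun q => w ⬝ᵥ WT l K M Kr k q *ᵥ w) hE
        (X := iv (K - k) M) (fun q hq => by rw [WT_out hq, zero_mulVec, dotProduct_zero])
        (X.image (fun x => st c x x1 k m / 2 ^ k)) 1
    simp only [add_zero] at h3
    have h5 := WT_sum (M := M) hT w hk
    rw [sum_add_distrib]
    calc _ ≤ 2 * e * (2 ^ k * (∑ q ∈ iv (K - k) M, w ⬝ᵥ WT l K M Kr k q *ᵥ w +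
            ∑ q ∈ iv (K - k) M, w ⬝ᵥ WT l K M Kr k q *ᵥ w)) := by
            gcongr
      _ = 4 * e * (2 ^ k * ∑ q ∈ iv (K - k) M, w ⬝ᵥ WT l K M Kr k q *ᵥ w) := by ring
      _ ≤ 4 * e * (2 ^ K * ((2 * l)⁻¹ * (w ⬝ᵥ Gr K M *ᵥ w))) :=
        mul_le_mul_of_nonneg_left h5 (by positivity)
      _ = _ := by rw [mul_inv]; ring

end all

end

end Vale.Agent.P141.H652
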