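import Vale.Agent.P141.H103.PlaneW

/-!
# The plane step with an outer offset (rectangular nodes)

`PlaneW` of `H103` with middle scale `k` and outer scale `k + r`.  The plane is
`n + m / 2 ^ r + n' = c (k + r)` (outer scale, through the ancestor of the middle cell), offsets of
the plane are allowed (`PlD D`).  The constants do not depend on `r`.
-/

namespace Vale.Agent.P141.H652

open Finset Matrix Vale.Agent.P141.PL Vale.Agent.P141.H103

noncomputable section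

/-- planes with offset; `PlD 2` is `H588.Pl` -/
def PlD (D : ℕ) (c : ℕ → ℤ) : Prop :=
  ∀ k, 2 - (D : ℤ) ≤ c k - 2 * c (k + 1) ∧ c k - 2 * c (k + 1) ≤ D + 1

theorem PlD_of_Pl {c : ℕ → ℤ} (h : H588.Pl c) : PlD 2 c := fun k => by
  have := h k
  push_cast
  omega

/-- a fixed offset `j` -/
theorem PlD.add {D : ℕ} {c : ℕ → ℤ} (h : PlD D c) (j : ℤ) {e : ℕ} (he : |j| ≤ e) :
    PlD (D + e) (fun k => c k + j) := fun k => by
  have h1 := h k
  have h2 := abs_le.1 he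
  push_cast
  constructor <;> [linarith [h1.1, h1.2, h2.1, h2.2]; linarith [h1.1, h1.2, h2.1, h2.2]]

variable {ι : Type*} [Fintype ι]

/-- plane functional: middle scale `k`, outer scale `k + r` -/
def MR (N : ℕ) (R S T : ℤ) (k r : ℕ) (c : ℤ) (p q : ℤ → ℤ → Matrix ι ι ℝ) : ℝ :=
  (2 : ℝ) ^ (k + r) * 2 ^ k * ∑ m ∈ iv (N - k) S, ∑ n ∈ iv (N - (k + r)) R,
    if c - m / 2 ^ r - n ∈ iv (N - (k + r)) T then (p n m * q (c - m / 2 ^ r - n) m).trace else 0

/-- plane sum of the gains -/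
def GR (N : ℕ) (R S T : ℤ) (k r : ℕ) (c : ℤ) (g : ℤ → ℤ → ℤ → ℝ) : ℝ :=
  (2 : ℝ) ^ (k + r) * 2 ^ k * ∑ m ∈ iv (N - k) S, ∑ n ∈ iv (N - (k + r)) R,
    if c - m / 2 ^ r - n ∈ iv (N - (k + r)) T then g n (c - m / 2 ^ r - n) m else 0

theorem MR_zero (N : ℕ) (R S T : ℤ) (k : ℕ) (c : ℤ) (p q : ℤ → ℤ → Matrix ι ι ℝ) :
    MR N R S T k 0 c p q = MW N R S T k c p q := by
  unfold MR MW
  have h4 : (4 : ℝ) ^ k = 2 ^ k * 2 ^ k := by rw [← mul_pow]; norm_num
  simp only [pow_zero, Int.ediv_one, add_zero, h4]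

theorem GR_zero (N : ℕ) (R S T : ℤ) (k : ℕ) (c : ℤ) (g : ℤ → ℤ → ℤ → ℝ) :
    GR N R S T k 0 c g = GW N R S T k c g := by
  unfold GR GW
  have h4 : (4 : ℝ) ^ k = 2 ^ k * 2 ^ k := by rw [← mul_pow]; norm_num
  simp only [pow_zero, Int.ediv_one, add_zero, h4]

theorem SEW_eqR (N : ℕ) (R S : ℤ) (k K : ℕ) (P : ℕ → ℤ → ℤ → Matrix ι ι ℝ) :
    SEW N K (EW N R S k P)
      = 2 ^ k * ∑ m ∈ iv (N - k) S, SEW N K (eW N R (fun a n => P a n m)) := by
  unfold SEW
  simp only [EW_eq]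
  rw [Finset.sum_add_distrib, mul_add, ← Finset.mul_sum, Finset.sum_comm]
  congr 1
  · rw [Finset.mul_sum]
    refine Finset.sum_congr rfl fun r _ => ?_
    rw [← Finset.mul_sum, Finset.sum_sub_distrib]
    ring
  · ring

theorem EW_antiR {N k K : ℕ} {R S : ℤ} {P : ℕ → ℤ → ℤ → Matrix ι ι ℝ} (hO : OutM N K P)
    (sP : ∀ a n m, (P a n m)ᵀ = P a n m) {a : ℕ} (ha : K ≤ a) (haN : a < N) :
    EW N R S k P (a + 1) ≤ EW N R S k P a := by
  rw [EW_eq, EW_eq]
  refine mul_le_mul_of_nonneg_left (Finset.sum_le_sum fun m _ => ?_) (by positivity)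
  exact eW_anti (fun a h1 h2 n => hO a h1 h2 n m) (fun a n => sP a n m) ha haN

theorem EW_antiR' {N k K : ℕ} {R S : ℤ} {P : ℕ → ℤ → ℤ → Matrix ι ι ℝ} (hO : OutM N K P)
    (sP : ∀ a n m, (P a n m)ᵀ = P a n m) {a : ℕ} (ha : K ≤ a) (haN : a ≤ N) :
    EW N R S k P a ≤ EW N R S k P K := by
  induction a, ha using Nat.le_induction with
  | base => exact le_rfl
  | succ a ha ih => exact (EW_antiR hO sP ha (by omega)).trans (ih (by omega))

variable {κ : Type*} [Fintype κ]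

/-- **The step with outer offset `r`.** -/
theorem stepR {N k r D : ℕ} (h : k + r < N) {R S T : ℤ} {c : ℕ → ℤ} (hc : PlD D c)
    {P Q : ℕ → ℤ → ℤ → Matrix ι ι ℝ} {pu qu : ℤ → ℤ → Matrix κ κ ℝ} {g : ℤ → ℤ → ℤ → ℝ}
    (hP : OutM N (k + r) P) (hQ : OutM N (k + r) Q) (sP : ∀ a n m, (P a n m)ᵀ = P a n m)
    (sQ : ∀ a n m, (Q a n m)ᵀ = Q a n m)
    (mid : ∀ n n' m, (pu n m * qu n' m).trace + g n n' m
      ≤ (1 / 2) * ((P (k + r + 1) n (2 * m) * Q (k + r + 1) n' (2 * m)).trace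
        + (P (k + r + 1) n (2 * m + 1) * Q (k + r + 1) n' (2 * m + 1)).trace)) :
    MR N R S T (k + 1) r (c (k + r + 1)) pu qu + GR N R S T (k + 1) r (c (k + r + 1)) g
      ≤ MR N R S T k r (c (k + r)) (P (k + r)) (Q (k + r))
        + (4 * D + 1) * (SEW N (k + r) (EW N R S k P) + SEW N (k + r) (EW N T S k Q)) := by
  have e : N - k = (N - (k + 1)) + 1 := by omega
  have eK : k + 1 + r = k + r + 1 := by omega
  -- the middle split
  have h1 : MR N R S T (k + 1) r (c (k + r + 1)) pu qu + GR N R S T (k + 1) r (c (k + r + 1)) g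
      ≤ 2 ^ k * ∑ m ∈ iv (N - k) S, (2 ^ (k + r + 1) * ∑ n ∈ iv (N - (k + r + 1)) R,
        (if c (k + r + 1) - m / 2 ^ r / 2 - n ∈ iv (N - (k + r + 1)) T then
          (P (k + r + 1) n m * Q (k + r + 1) (c (k + r + 1) - m / 2 ^ r / 2 - n) m).trace
          else 0)) := by
    rw [e, H588.sum_iv_succ]
    unfold MR GR
    rw [eK, ← mul_add, ← Finset.sum_add_distrib]
    have h4 : (2 : ℝ) ^ (k + r + 1) * 2 ^ (k + 1) = 2 ^ k * (2 * 2 ^ (k + r + 1)) := by
      rw [pow_succ 2 k]; ring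
    rw [h4, mul_assoc]
    refine mul_le_mul_of_nonneg_left ?_ (by positivity)
    rw [Finset.mul_sum]
    refine Finset.sum_le_sum fun m _ => ?_
    have e1 : 2 * m / 2 ^ r / 2 = m / 2 ^ r := by
      rw [Int.ediv_ediv_of_nonneg (by positivity), ← pow_succ, pow_succ', 
        ← Int.ediv_ediv_of_nonneg (by norm_num)]
      congr 1
      omega
    have e2 : (2 * m + 1) / 2 ^ r / 2 = m / 2 ^ r := by
      rw [Int.ediv_ediv_of_nonneg (by positivity), ← pow_succ, pow_succ', 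
        ← Int.ediv_ediv_of_nonneg (by norm_num)]
      congr 1
      omega
    rw [e1, e2, ← mul_add, mul_comm (2 : ℝ) (2 ^ (k + r + 1)), mul_assoc]
    refine mul_le_mul_of_nonneg_left ?_ (by positivity)
    rw [← Finset.sum_add_distrib, ← Finset.sum_add_distrib, Finset.mul_sum]
    refine Finset.sum_le_sum fun n _ => ?_
    split_ifs with hcc
    · have := mid n (c (k + r + 1) - m / 2 ^ r - n) m
      linarith
    · simp
  refine h1.trans ?_
  -- the outer split and the shift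
  have h2 : ∀ m, 2 ^ (k + r + 1) * ∑ n ∈ iv (N - (k + r + 1)) R,
        (if c (k + r + 1) - m / 2 ^ r / 2 - n ∈ iv (N - (k + r + 1)) T then
          (P (k + r + 1) n m * Q (k + r + 1) (c (k + r + 1) - m / 2 ^ r / 2 - n) m).trace else 0)
      ≤ 2 ^ (k + r) * alW N R T (k + r) (fun n => P (k + r) n m) (fun n => Q (k + r) n m)
          (c (k + r) - m / 2 ^ r)
        + (4 * D + 1) * (SEW N (k + r) (eW N R (fun a n => P a n m))
          + SEW N (k + r) (eW N T (fun a n => Q a n m))) := by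
    intro m
    have oP : Out N (k + r) (fun a n => P a n m) := fun a h1 h2 n => hP a h1 h2 n m
    have oQ : Out N (k + r) (fun a n => Q a n m) := fun a h1 h2 n => hQ a h1 h2 n m
    have yP : ∀ a n, ((fun a n => P a n m) a n)ᵀ = (fun a n => P a n m) a n := fun a n => sP a n m
    have yQ : ∀ a n, ((fun a n => Q a n m) a n)ᵀ = (fun a n => Q a n m) a n := fun a n => sQ a n m
    have q1 := outer_split h (R := R) (T := T) oP oQ yP yQ (c (k + r + 1) - m / 2 ^ r / 2)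
    have q2 := shiftW h.le (R := R) (T := T) oP oQ yP yQ (t := c (k + r) - m / 2 ^ r)
      (t' := 2 * (c (k + r + 1) - m / 2 ^ r / 2) + 1) (D := D) (by
        have := hc (k + r)
        rw [abs_le]
        generalize m / 2 ^ r = M at *
        constructor <;> omega)
    have q3 := first_le_SEW h (e := eW N R (fun a n => P a n m))
      (fun a h1 h2 => eW_anti oP yP h1 h2) (eW_nonneg yP N)
    have q4 := first_le_SEW h (e := eW N T (fun a n => Q a n m))
      (fun a h1 h2 => eW_anti oQ yQ h1 h2) (eW_nonneg yQ N)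
    have q5 : (2 : ℝ) ^ (k + r) * (alW N R T (k + r) (fun n => P (k + r) n m)
          (fun n => Q (k + r) n m) (2 * (c (k + r + 1) - m / 2 ^ r / 2) + 1)
          - alW N R T (k + r) (fun n => P (k + r) n m) (fun n => Q (k + r) n m)
          (c (k + r) - m / 2 ^ r)) ≤ 2 ^ (k + r) * |alW N R T (k + r)
          (fun n => P (k + r) n m) (fun n => Q (k + r) n m)
          (2 * (c (k + r + 1) - m / 2 ^ r / 2) + 1)
          - alW N R T (k + r) (fun n => P (k + r) n m) (fun n => Q (k + r) n m)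
          (c (k + r) - m / 2 ^ r)| := mul_le_mul_of_nonneg_left (le_abs_self _) (by positivity)
    have p3 : 0 ≤ eW N R (fun a n => P a n m) (k + r)
        - eW N R (fun a n => P a n m) (k + r + 1) := by
      have := eW_anti (R := R) oP yP le_rfl h
      linarith
    have p4 : 0 ≤ eW N T (fun a n => Q a n m) (k + r)
        - eW N T (fun a n => Q a n m) (k + r + 1) := by
      have := eW_anti (R := T) oQ yQ le_rfl h
      linarith
    linarith
  refine (mul_le_mul_of_nonneg_left (Finset.sum_le_sum fun m _ => h2 m) (by positivity)).trans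
    (le_of_eq ?_)
  rw [SEW_eqR, SEW_eqR, Finset.sum_add_distrib, ← Finset.mul_sum, ← Finset.mul_sum,
    Finset.sum_add_distrib, MR]
  unfold alW
  ring

/-- the functional is at most half of the own energies, both signs -/
theorem abs_MR_le (N k r : ℕ) (R S T : ℤ) (c : ℤ)
    {p q : ℤ → ℤ → Matrix ι ι ℝ} {P Q : ℕ → ℤ → ℤ → Matrix ι ι ℝ}
    (hp : P (k + r) = p) (hq : Q (k + r) = q)
    (sP : ∀ a n m, (P a n m)ᵀ = P a n m) (sQ : ∀ a n m, (Q a n m)ᵀ = Q a n m) :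
    |MR N R S T k r c p q| ≤ (1 / 2) * (EW N R S k P (k + r) + EW N T S k Q (k + r)) := by
  subst hp hq
  unfold MR EW
  rw [abs_mul, abs_of_nonneg (by positivity : (0 : ℝ) ≤ 2 ^ (k + r) * 2 ^ k), ← mul_add,
    mul_left_comm]
  refine mul_le_mul_of_nonneg_left ?_ (by positivity)
  rw [← Finset.sum_add_distrib, Finset.mul_sum]
  refine (Finset.abs_sum_le_sum_abs _ _).trans (Finset.sum_le_sum fun m _ => ?_)
  have h := H588.sum_refl_le (N - (k + r)) R T (c - m / 2 ^ r)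
    (fun n => (1 / 2) * (Q (k + r) n m * Q (k + r) n m).trace)
    (fun n => mul_nonneg (by norm_num) (P075.trace_sq_nonneg (sQ (k + r) n m)))
  rw [mul_add, Finset.mul_sum, Finset.mul_sum]
  refine le_trans ?_ (add_le_add_right h _)
  rw [← Finset.sum_add_distrib]
  refine (Finset.abs_sum_le_sum_abs _ _).trans (Finset.sum_le_sum fun n _ => ?_)
  have h0 := P075.trace_sq_nonneg (sP (k + r) n m)
  split_ifs with hcc
  · exact abs_trace_le (sP (k + r) n m) (sQ (k + r) (c - m / 2 ^ r - n) m)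
  · simp only [abs_zero]
    positivity

/-! ### Telescoping -/

/-- `telW` with offset `r` and constant `C`. -/
theorem telR {k₀ N r : ℕ} {C : ℝ} (hC : 0 ≤ C) (hkN : k₀ + r ≤ N) {M M' g x : ℕ → ℝ}
    {E E' F F' dE dF : ℕ → ℕ → ℝ}
    (h1 : ∀ k, k₀ ≤ k → k + r < N → M (k + 1) + g k
      ≤ M' k + C * (SEW N (k + r) (E' k) + SEW N (k + r) (F' k)))
    (h2 : ∀ k, k₀ ≤ k → k + r < N → ∀ a, k + r + 1 ≤ a → a ≤ N → E (k + 1) a ≤ E' k a + dE k a)
    (h3 : ∀ k, k₀ ≤ k → k + r < N → ∀ a, k + r + 1 ≤ a → a ≤ N → F (k + 1) a ≤ F' k a + dF k a)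
    (h4 : ∀ k, k₀ ≤ k → k + r < N → M' k + C * (WW N (k + r) (E' k) + WW N (k + r) (F' k))
      ≤ M k + C * (WW N (k + r) (E k) + WW N (k + r) (F k)) + x k) :
    ∑ k ∈ Ico k₀ (N - r), g k + (M (N - r) + C * (WW N N (E (N - r)) + WW N N (F (N - r))))
      ≤ M k₀ + C * (WW N (k₀ + r) (E k₀) + WW N (k₀ + r) (F k₀)) + ∑ k ∈ Ico k₀ (N - r), x k
        + C * ∑ k ∈ Ico k₀ (N - r), (WW N (k + r + 1) (dE k) + WW N (k + r + 1) (dF k)) := by
  have key : ∀ K, k₀ ≤ K → K + r ≤ N →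
      ∑ k ∈ Ico k₀ K, g k + (M K + C * (WW N (K + r) (E K) + WW N (K + r) (F K)))
      ≤ M k₀ + C * (WW N (k₀ + r) (E k₀) + WW N (k₀ + r) (F k₀)) + ∑ k ∈ Ico k₀ K, x k
        + C * ∑ k ∈ Ico k₀ K, (WW N (k + r + 1) (dE k) + WW N (k + r + 1) (dF k)) := by
    intro K hK
    induction K, hK using Nat.le_induction with
    | base => intro _; simp
    | succ K hK ih =>
      intro hKN
      have hlt : K + r < N := by omega
      have q := ih hlt.le
      have q1 := h1 K hK hlt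
      have q2 := mul_le_mul_of_nonneg_left (WW_step hlt (h2 K hK hlt)) hC
      have q3 := mul_le_mul_of_nonneg_left (WW_step hlt (h3 K hK hlt)) hC
      have q4 := h4 K hK hlt
      rw [sum_Ico_succ_top hK, sum_Ico_succ_top hK, sum_Ico_succ_top hK,
        show K + 1 + r = K + r + 1 by omega]
      simp only [mul_add] at q q1 q2 q3 q4 ⊢
      linarith
  have h := key (N - r) (by omega) (by omega)
  rw [show N - r + r = N by omega] at h
  exact h

/-- **The sum of the gains over all scales, outer offset `r`.** -/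
theorem totalR {k₀ N r D : ℕ} (hkN : k₀ + r ≤ N) {R S T : ℤ} {c : ℕ → ℤ} (hc : PlD D c)
    {ι : ℕ → Type*} [∀ k, Fintype (ι k)]
    {P P' Q Q' : ∀ k, ℕ → ℤ → ℤ → Matrix (ι k) (ι k) ℝ} {g : ℕ → ℤ → ℤ → ℤ → ℝ}
    {dE dF : ℕ → ℕ → ℝ} {x : ℕ → ℝ}
    (oP : ∀ k, k₀ ≤ k → k + r ≤ N → OutM N (k + r) (P k))
    (oQ : ∀ k, k₀ ≤ k → k + r ≤ N → OutM N (k + r) (Q k))
    (oP' : ∀ k, k₀ ≤ k → k + r < N → OutM N (k + r) (P' k))
    (oQ' : ∀ k, k₀ ≤ k → k + r < N → OutM N (k + r) (Q' k))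
    (sP : ∀ k a n m, (P k a n m)ᵀ = P k a n m) (sQ : ∀ k a n m, (Q k a n m)ᵀ = Q k a n m)
    (sP' : ∀ k a n m, (P' k a n m)ᵀ = P' k a n m) (sQ' : ∀ k a n m, (Q' k a n m)ᵀ = Q' k a n m)
    (mid : ∀ k, k₀ ≤ k → k + r < N → ∀ n n' m,
      (P (k + 1) (k + r + 1) n m * Q (k + 1) (k + r + 1) n' m).trace + g k n n' m
      ≤ (1 / 2) * ((P' k (k + r + 1) n (2 * m) * Q' k (k + r + 1) n' (2 * m)).trace
        + (P' k (k + r + 1) n (2 * m + 1) * Q' k (k + r + 1) n' (2 * m + 1)).trace))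
    (hE : ∀ k, k₀ ≤ k → k + r < N → ∀ a, k + r + 1 ≤ a → a ≤ N →
      EW N R S (k + 1) (P (k + 1)) a ≤ EW N R S k (P' k) a + dE k a)
    (hF : ∀ k, k₀ ≤ k → k + r < N → ∀ a, k + r + 1 ≤ a → a ≤ N →
      EW N T S (k + 1) (Q (k + 1)) a ≤ EW N T S k (Q' k) a + dF k a)
    (hx : ∀ k, k₀ ≤ k → k + r < N →
      MR N R S T k r (c (k + r)) (P' k (k + r)) (Q' k (k + r))
      + (4 * D + 1) * (WW N (k + r) (EW N R S k (P' k)) + WW N (k + r) (EW N T S k (Q' k)))
      ≤ MR N R S T k r (c (k + r)) (P k (k + r)) (Q k (k + r))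
      + (4 * D + 1) * (WW N (k + r) (EW N R S k (P k)) + WW N (k + r) (EW N T S k (Q k)))
      + x k) :
    ∑ k ∈ Ico k₀ (N - r), GR N R S T (k + 1) r (c (k + r + 1)) (g k)
      ≤ (16 * D + 5) * (EW N R S k₀ (P k₀) (k₀ + r) + EW N T S k₀ (Q k₀) (k₀ + r))
        + ∑ k ∈ Ico k₀ (N - r), x k
        + (4 * D + 1) * ∑ k ∈ Ico k₀ (N - r),
          (WW N (k + r + 1) (dE k) + WW N (k + r + 1) (dF k)) := by
  have hD0 : (0 : ℝ) ≤ D := Nat.cast_nonneg D
  have h := telR (C := 4 * D + 1) (by positivity) hkN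
    (M := fun k => MR N R S T k r (c (k + r)) (P k (k + r)) (Q k (k + r)))
    (M' := fun k => MR N R S T k r (c (k + r)) (P' k (k + r)) (Q' k (k + r)))
    (g := fun k => GR N R S T (k + 1) r (c (k + r + 1)) (g k)) (x := x)
    (E := fun k => EW N R S k (P k)) (E' := fun k => EW N R S k (P' k))
    (F := fun k => EW N T S k (Q k)) (F' := fun k => EW N T S k (Q' k)) (dE := dE) (dF := dF)
    (fun k h1 h2 => by
      have := stepR h2 hc (R := R) (S := S) (T := T) (oP' k h1 h2) (oQ' k h1 h2) (sP' k) (sQ' k)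
        (mid k h1 h2)
      rw [show k + 1 + r = k + r + 1 by omega]
      exact this)
    hE hF hx
  have hN : N - r + r = N := by omega
  have q1 := abs_le.1 (abs_MR_le N (N - r) r R S T (c (N - r + r))
    (P := P (N - r)) (Q := Q (N - r)) rfl rfl (sP (N - r)) (sQ (N - r)))
  rw [hN] at q1
  have q2 := le_WW (N := N) (k := N) (e := EW N R S (N - r) (P (N - r))) (EW_nonneg (sP (N - r)))
  have q3 := le_WW (N := N) (k := N) (e := EW N T S (N - r) (Q (N - r))) (EW_nonneg (sQ (N - r)))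
  have q4 := EW_nonneg (N := N) (R := R) (S := S) (k := N - r) (sP (N - r)) N
  have q5 := EW_nonneg (N := N) (R := T) (S := S) (k := N - r) (sQ (N - r)) N
  have p1 := abs_le.1 (abs_MR_le N k₀ r R S T (c (k₀ + r)) (P := P k₀) (Q := Q k₀) rfl rfl
    (sP k₀) (sQ k₀))
  have p2 := WW_le (N := N) (k := k₀ + r) (e := EW N R S k₀ (P k₀)) (EW_nonneg (sP k₀) (k₀ + r))
    fun a h1 h2 => EW_antiR' (oP k₀ le_rfl hkN) (sP k₀) h1 h2
  have p3 := WW_le (N := N) (k := k₀ + r) (e := EW N T S k₀ (Q k₀)) (EW_nonneg (sQ k₀) (k₀ + r))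
    fun a h1 h2 => EW_antiR' (oQ k₀ le_rfl hkN) (sQ k₀) h1 h2
  have p4 := EW_nonneg (N := N) (R := R) (S := S) (k := k₀) (sP k₀) (k₀ + r)
  have p5 := EW_nonneg (N := N) (R := T) (S := S) (k := k₀) (sQ k₀) (k₀ + r)
  have hp : (4 * D + 1 : ℝ) * (WW N (k₀ + r) (EW N R S k₀ (P k₀))
      + WW N (k₀ + r) (EW N T S k₀ (Q k₀))) ≤ (4 * D + 1) * (4 * EW N R S k₀ (P k₀) (k₀ + r)
        + 4 * EW N T S k₀ (Q k₀) (k₀ + r)) :=
    mul_le_mul_of_nonneg_left (by linarith) (by positivity)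
  have hq : (4 * D + 1 : ℝ) * (EW N R S (N - r) (P (N - r)) N + EW N T S (N - r) (Q (N - r)) N)
      ≤ (4 * D + 1) * (WW N N (EW N R S (N - r) (P (N - r)))
        + WW N N (EW N T S (N - r) (Q (N - r)))) :=
    mul_le_mul_of_nonneg_left (by linarith) (by positivity)
  have hq2 : 0 ≤ (4 * D : ℝ) * (EW N R S (N - r) (P (N - r)) N
      + EW N T S (N - r) (Q (N - r)) N) := by positivity
  simp only [hN] at h
  simp only [mul_add, add_mul] at h hp hq hq2 ⊢
  linarith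

/-- the gains at offset `r`, static pair, product form -/
theorem totalR_sqrt {k₀ N r D : ℕ} (hkN : k₀ + r ≤ N) {R S T : ℤ} {c : ℕ → ℤ} (hc : PlD D c)
    {ι : ℕ → Type*} [∀ k, Fintype (ι k)]
    {P Q : ∀ k, ℕ → ℤ → ℤ → Matrix (ι k) (ι k) ℝ} {g : ℕ → ℤ → ℤ → ℤ → ℝ}
    (oP : ∀ k, k₀ ≤ k → k + r ≤ N → OutM N (k + r) (P k))
    (oQ : ∀ k, k₀ ≤ k → k + r ≤ N → OutM N (k + r) (Q k))
    (sP : ∀ k a n m, (P k a n m)ᵀ = P k a n m) (sQ : ∀ k a n m, (Q k a n m)ᵀ = Q k a n m)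
    (mid : ∀ k, k₀ ≤ k → k + r < N → ∀ n n' m,
      (P (k + 1) (k + r + 1) n m * Q (k + 1) (k + r + 1) n' m).trace + g k n n' m
      ≤ (1 / 2) * ((P k (k + r + 1) n (2 * m) * Q k (k + r + 1) n' (2 * m)).trace
        + (P k (k + r + 1) n (2 * m + 1) * Q k (k + r + 1) n' (2 * m + 1)).trace))
    (hE : ∀ k, k₀ ≤ k → k + r < N → ∀ a, k + r + 1 ≤ a → a ≤ N →
      EW N R S (k + 1) (P (k + 1)) a ≤ EW N R S k (P k) a)
    (hF : ∀ k, k₀ ≤ k → k + r < N → ∀ a, k + r + 1 ≤ a → a ≤ N →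
      EW N T S (k + 1) (Q (k + 1)) a ≤ EW N T S k (Q k) a) :
    ∑ k ∈ Ico k₀ (N - r), GR N R S T (k + 1) r (c (k + r + 1)) (g k)
      ≤ 2 * (16 * D + 5)
        * √(EW N R S k₀ (P k₀) (k₀ + r) * EW N T S k₀ (Q k₀) (k₀ + r)) := by
  set G := ∑ k ∈ Ico k₀ (N - r), GR N R S T (k + 1) r (c (k + r + 1)) (g k) with hG
  set X := EW N R S k₀ (P k₀) (k₀ + r) with hX
  set Y := EW N T S k₀ (Q k₀) (k₀ + r) with hY
  set L : ℝ := 16 * D + 5 with hL
  have L0 : 0 < L := by positivity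
  have X0 : 0 ≤ X := EW_nonneg (sP k₀) (k₀ + r)
  have Y0 : 0 ≤ Y := EW_nonneg (sQ k₀) (k₀ + r)
  have key : ∀ μ : ℝ, 0 < μ → G ≤ L * (μ ^ 2 * X + (μ⁻¹) ^ 2 * Y) := by
    intro μ hμ
    have h := totalR hkN hc (P := fun k a n m => μ • P k a n m)
      (P' := fun k a n m => μ • P k a n m) (Q := fun k a n m => μ⁻¹ • Q k a n m)
      (Q' := fun k a n m => μ⁻¹ • Q k a n m) (g := g) (dE := fun _ _ => 0) (dF := fun _ _ => 0)
      (x := fun _ => 0) (R := R) (S := S) (T := T)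
      (fun k h1 h2 => (oP k h1 h2).smul μ) (fun k h1 h2 => (oQ k h1 h2).smul μ⁻¹)
      (fun k h1 h2 => (oP k h1 h2.le).smul μ) (fun k h1 h2 => (oQ k h1 h2.le).smul μ⁻¹)
      (fun k a n m => by rw [transpose_smul, sP]) (fun k a n m => by rw [transpose_smul, sQ])
      (fun k a n m => by rw [transpose_smul, sP]) (fun k a n m => by rw [transpose_smul, sQ])
      (fun k h1 h2 n n' m => by
        have := mid k h1 h2 n n' m
        simp only [Matrix.smul_mul, Matrix.mul_smul, smul_smul,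
          inv_mul_cancel₀ hμ.ne', one_smul]
        exact this)
      (fun k h1 h2 a h3 h4 => by
        simp only [EW_smul, add_zero]
        exact mul_le_mul_of_nonneg_left (hE k h1 h2 a h3 h4) (sq_nonneg _))
      (fun k h1 h2 a h3 h4 => by
        simp only [EW_smul, add_zero]
        exact mul_le_mul_of_nonneg_left (hF k h1 h2 a h3 h4) (sq_nonneg _))
      (fun k h1 h2 => by simp)
    simp only [EW_smul, sum_const_zero, add_zero, WW, mul_zero] at h
    exact h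
  rw [Real.sqrt_mul X0]
  have sX := Real.sq_sqrt X0
  have sY := Real.sq_sqrt Y0
  have nX := Real.sqrt_nonneg X
  have nY := Real.sqrt_nonneg Y
  refine le_of_forall_pos_le_add fun ε hε => ?_
  set δ : ℝ := min 1 (ε / (2 * L * (√X + √Y + 1))) with hδ
  have hden : 0 < 2 * L * (√X + √Y + 1) := by positivity
  have δ0 : 0 < δ := lt_min one_pos (by positivity)
  have δ1 : δ ≤ 1 := min_le_left _ _
  have δ2 : 2 * L * (√X + √Y + 1) * δ ≤ ε := by
    have := min_le_right (1 : ℝ) (ε / (2 * L * (√X + √Y + 1)))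
    rw [← hδ, le_div_iff₀ hden] at this
    linarith
  have a0 : 0 < √X + δ := by positivity
  have b0 : 0 < √Y + δ := by positivity
  have h := key (√((√Y + δ) / (√X + δ))) (Real.sqrt_pos.2 (div_pos b0 a0))
  rw [inv_pow, Real.sq_sqrt (div_pos b0 a0).le, inv_div] at h
  have c1 : (√Y + δ) / (√X + δ) * X ≤ (√Y + δ) * (√X + δ) := by
    rw [div_mul_eq_mul_div, div_le_iff₀ a0, mul_assoc]
    refine mul_le_mul_of_nonneg_left ?_ b0.le
    nlinarith
  have c2 : (√X + δ) / (√Y + δ) * Y ≤ (√Y + δ) * (√X + δ) := by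
    rw [div_mul_eq_mul_div, div_le_iff₀ b0]
    have : Y ≤ (√Y + δ) * (√Y + δ) := by nlinarith
    calc (√X + δ) * Y ≤ (√X + δ) * ((√Y + δ) * (√Y + δ)) :=
          mul_le_mul_of_nonneg_left this a0.le
      _ = _ := by ring
  have c3 : (√Y + δ) * (√X + δ) ≤ √X * √Y + (√X + √Y + 1) * δ := by nlinarith
  have h5 : G ≤ L * (2 * (√X * √Y + (√X + √Y + 1) * δ)) :=
    h.trans (mul_le_mul_of_nonneg_left (by linarith) L0.le)
  nlinarith [h5, δ2]

end

end Vale.Agent.P141.H652
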