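import Vale.Agent.P141.H652.RedI
import Vale.Agent.P141.H401.Adapt

/-!
# P141, line (A), (TI): the slot `Th` in the letters of `H401.PartF`

* `NT` : the increasing part with the slot `Th`;
* `DT` : what is needed of the families: `C = φ v` with the line energies of `φ`, and the
  unweighted gap family of the static pair;
* `NI_of_NT` : `PartF D NT → PartF D NI` for every bundle which implies `DT`.
-/

namespace Vale.Agent.P141.H652

open Finset Matrix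
open Vale.Agent.P141.PL (Pt iv hs ix cx mem_iv)
open Vale.Agent.P141.PL.H315 (Tri)
open Vale.Agent.P141.H48 (US ES)
open Vale.Agent.P141.H677 (KT rt sN)
open Vale.Agent.P141.H576 (GapFam)
open Vale.Agent.P141.H401 (FunF NS NI Bun StX PartX PartF)

noncomputable section

open scoped Classical

/-- the increasing part with the slot `Th` -/
def NT : FunF := fun _ _ _ l o Al K x u A b C _ =>
  NS o Al K x fun x0 k m => |ndT l K (ix K x.2.1) (KT l u) (o - 2) x0 (A x0 k) (b x0 k)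
    (C x0 k) k m|

/-- what the slot `Th` needs of the families -/
structure DT {ι : Type} [Fintype ι] [DecidableEq ι] (p : H401.Num) (ez : ℝ) (K : ℕ) (x : Pt) (s : ℝ)
    (v : ℤ → ℤ → ι → ℝ) (A : ℤ → ℕ → ℤ → ℤ → ℝ) (b C : ℤ → ℕ → ℤ → ℤ → ι → ℝ) : Prop where
  /-- the third family and its line energies -/
  line : ∃ φ : ℕ → Pt → ℝ,
    (∀ k ∈ Icc 1 K, ∀ j x1 x3, ∑ x0 ∈ iv k j, φ k (x0, x1, x3) ^ 2 ≤ ez * 2 ^ k) ∧
    ∀ x0 k z w, C x0 k z w = φ k (x0, w, z) • v w z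
  /-- the gap family of the static pair, no weight -/
  gap : ∃ qA qB : ℕ → ℤ → ℤ → ℤ → Prop, ∀ t₀ : ℤ,
    GapFam 1 K (fun _ _ _ => (0 : Matrix ι ι ℝ)) (fun _ _ _ => 1) (ix K x.2.2) (ix K x.2.1)
      (ix K x.1) t₀ A b qA qB (p.CD * (p.t ^ (2 - 2 * p.c - 2 * p.d) * s ^ (3 / 2 : ℝ)))
      (p.CD * (p.t ^ (2 - 2 * p.c - 2 * p.d) * s ^ (3 / 2 : ℝ))) p.CD

/-- the statement of the error -/
def ErrT : StX := fun ι _ _ p _ ez _ _ _ o K x s r U _ u v B =>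
  ∀ (A : ℤ → ℕ → ℤ → ℤ → ℝ) (b C : ℤ → ℕ → ℤ → ℤ → ι → ℝ), DT p ez K x s v A b C →
    ∀ sg : ℕ → Pt → ℝ,
      NI ι (p.lam s r) o (p.al U K) K x u A b C sg ≤
        NT ι (p.lam s r) o (p.al U K) K x u A b C sg + B

/-- **The price of the error of the slot.** -/
theorem err_T : PartX ErrT := by
  intro a ha ha1
  refine ⟨1, one_pos, fun e0 he0 _ => ⟨1, one_pos, fun k8 _ _ => ⟨1, one_pos, fun k3 _ _ => ?_⟩⟩⟩
  refine ⟨e0 / 4, e0 / 12, e0 / 8, e0 / 2, by positivity, by positivity, by positivity,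
    by positivity, fun c hc hcc d hd hdd Kt e cP L hK he hcP hL CD hCD => ?_⟩
  obtain ⟨C, hC, H⟩ := TI_red (c := c) (d := d) (e₀ := e0) (L := L) (cP := CD) (CA := CD) hcc hdd
    (by linarith) (by linarith) (by linarith)
  refine ⟨C, hC, ?_⟩
  intro t ht ht1 n ez F1 F2 F3 h1 h3 h2 o ho K hKn x ι _ _ s r U g u v hs hr hcls A b Cf hD sg
  obtain ⟨φ, hφ, hCf⟩ := hD.line
  obtain ⟨qA, qB, hgap⟩ := hD.gap
  exact H t ht ht1 ez h2.1 o ho K x ι s r U g u v hs hr hcls.toCls _ φ A b Cf qA qB hφ hCf hgap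

/-- **From the slot `Th` to the increasing part.** -/
theorem NI_of_NT {D : Bun}
    (hD : ∀ (ι : Type) [Fintype ι] [DecidableEq ι] (p : H401.Num) (n : ℕ) (ez : ℝ)
      (F1 F2 F3 : ℕ → Pt → ℝ) (o : ℤ) (K : ℕ) (x : Pt) (s r : ℝ) (U : Tri) (g : ℤ → ℤ → ℝ)
      (u v : ℤ → ℤ → ι → ℝ) (A : ℤ → ℕ → ℤ → ℤ → ℝ) (b C : ℤ → ℕ → ℤ → ℤ → ι → ℝ),
      D ι p n ez F1 F2 F3 o K x s r U g u v A b C → DT p ez K x s v A b C)
    (H : PartF D NT) : PartF D NI := by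
  refine PartX.add H err_T ?_
  intro ι _ _ p n ez F1 F2 F3 o K x s r U g u v B1 B2 B _ _ _ _ h1 h2 h3 A b C hDD sg hsg
  have k1 := h1 A b C hDD sg hsg
  have k2 := h2 A b C (hD ι p n ez F1 F2 F3 o K x s r U g u v A b C hDD) sg
  linarith

end

end Vale.Agent.P141.H652
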