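import Vale.Agent.P141.H652.GlueI
import Vale.Agent.P141.H576.GapI
import Vale.Agent.P141.H204.Vec

/-!
# P141, line (A), (TI): the gaps of the static pair `(A, b)`, unweighted

* `tr_one`, `ze_one`, `GW_gp` : the weight `1` in the letters of `H103`;
* `capU` : the node cap of the killed vector input without weight, natural number;
* `gapU` : `H576.GapFam` with weight `1` for `fA g (kF Λ g K F1)` and `fb u (kF Λ U K F3)`;
* `gp_sum` : the gap energy of the pair over all alive nodes.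
-/

namespace Vale.Agent.P141.H652

open Finset Matrix
open Vale.Agent.P141.PL (Pt iv hs ix cx mem_iv card_iv ix_ix)
open Vale.Agent.P141.PL.H560 (cbs bx0)
open Vale.Agent.P141.PL.H804 (bx3)
open Vale.Agent.P141.PL.H315 (A2 avg avg_nonneg)
open Vale.Agent.P141.H48 (A4 US BSl Mo4 sst Qth)
open Vale.Agent.P141.H550 (avg_comm avg_congr avg_mono avg_mul_left)
open Vale.Agent.P141.H103 (qK gK GW QK PA GW_gK QK_congr QK_zero PA_zero QW)
open Vale.Agent.P141.H588G (S2 cnt)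
open Vale.Agent.P141.H677 (fA fb kF rt sN)
open Vale.Agent.P141.H769 (corner ix_of_le sst_congr ix_two_pow_mul not_sst_le ptiv_congr)
open Vale.Agent.P141.H576 (GapFam Dd_sst QD QD_root QD_root' agB_kD fb_kD_zero)

noncomputable section

open scoped Classical

variable {κ : Type*} [Fintype κ] [DecidableEq κ]

/-! ### The weight `1` -/

/-- the unit tree -/
theorem tr_one (N : ℕ) : H420.Tr (1 : ℝ) N (fun _ _ => (0 : Matrix κ κ ℝ)) (fun _ _ => 1) where
  l_pos := one_pos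
  psG := fun _ _ => PosSemidef.zero
  pdK := fun _ _ => PosDef.one
  sq := fun _ _ => by simp
  mean := fun _ _ _ => by simp

/-- with the weight `1` the residual is the half difference -/
theorem ze_one (q : ℕ → ℤ → κ → ℝ) (k : ℕ) (m : ℤ) :
    H483.ze (fun _ _ => (1 : Matrix κ κ ℝ)) q k m = H483.hd q k m := by
  unfold H483.ze H483.hd
  rw [sub_self, smul_zero, zero_mulVec, sub_zero]

/-- **The gap energies of a family of nodes on the plane.** -/
theorem gp_scale (A : ℤ → ℤ → ℝ) (b : ℤ → ℤ → κ → ℝ) {N : ℕ} {R : Pt} {k : ℕ} {c : ℤ}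
    {s : Finset Pt} (hs : s ⊆ bx3 N R k c) :
    ∑ m ∈ s, gpT A b k m ≤
      GW N R.1 R.2.1 R.2.2 k c (gK A b (fun _ _ _ => (1 : Matrix κ κ ℝ)) k) := by
  rw [GW_gK]
  refine (sum_le_sum_of_subset_of_nonneg hs fun m _ _ => gpT_nonneg A b k m).trans (le_of_eq ?_)
  rw [PL.H804.sum_bx3_21]
  refine sum_congr rfl fun m _ => sum_congr rfl fun n _ => ?_
  split_ifs
  · unfold gpT
    refine sum_congr rfl fun z _ => sum_congr rfl fun x _ => ?_
    rw [ze_one, inv_one, one_mulVec]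
  · rfl

/-! ### The unweighted cap of the vector family -/

/-- **The node cap of the killed vector input, no weight.** -/
theorem capU {Λ M : ℝ} (hΛ : 1 ≤ Λ) (hM : 0 ≤ M) {n : ℕ} {F : ℕ → Pt → ℝ} (hMo : Mo4 n M F)
    {K : ℕ} (hK : K ≤ n) (U : ℤ × ℤ → ℝ) (u : ℤ → ℤ → κ → ℝ) {X Y : ℤ}
    (hu : ∀ x ∈ iv K (ix K X), ∀ y ∈ iv K (ix K Y), u x y ⬝ᵥ u x y ≤ U (x, y) ^ 2)
    {k : ℕ} (hk : k < K) (i r s : ℤ) (hX : ix (K - k) r = ix K X) (hY : ix (K - k) s = ix K Y) :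
    ∑ x0 ∈ iv k i, S2 (QK (fb u (kF Λ U K F) x0 (k + 1))
        (fun _ _ _ => (1 : Matrix κ κ ℝ)) k k r s) ≤
      24 * Λ ^ 2 * M * (A2 K U X Y * √(A4 K U X Y)) * 2 ^ k := by
  have hA2 : 0 ≤ A2 K U X Y := PL.H315.A2_nonneg _ _ _ _
  have hA4 : 0 ≤ A4 K U X Y := H769.A4_nonneg _ _ _ _
  have hpos : 0 ≤ 24 * Λ ^ 2 * M * (A2 K U X Y * √(A4 K U X Y)) * 2 ^ k := by positivity
  have hcx : ix K (2 ^ k * r) = ix K X := by
    rw [← hX, ← Nat.add_sub_cancel' hk.le, ← ix_ix, ix_two_pow_mul, Nat.add_sub_cancel_left]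
  have hcy : ix K (2 ^ k * s) = ix K Y := by
    rw [← hY, ← Nat.add_sub_cancel' hk.le, ← ix_ix, ix_two_pow_mul, Nat.add_sub_cancel_left]
  by_cases hst : sst Λ U K (k + 1) (2 ^ k * r) (2 ^ k * s)
  · refine le_trans (le_of_eq (sum_eq_zero fun x0 _ => ?_)) hpos
    rw [QK_congr (b' := 0), QK_zero]
    · unfold S2
      rw [Matrix.mul_zero, trace_zero]
    · intro x hx y hy
      unfold H677.fb H677.kF
      rw [if_pos]
      · rw [zero_smul]
        rfl
      right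
      exact (sst_congr (ix_of_le (Nat.le_succ k) (corner k hx))
        (ix_of_le (Nat.le_succ k) (corner k hy))).2 hst
  · set G : Pt → ℝ := fun p => F (k + 1) (p.2.2, p.1, p.2.1) with hG
    have e1 : ∀ x0 ∈ iv k i, S2 (QK (fb u (kF Λ U K F) x0 (k + 1))
        (fun _ _ _ => (1 : Matrix κ κ ℝ)) k k r s) =
        avg (iv k s) fun y => avg (iv k s) fun y' => (∑ l, avg (iv k r) fun x =>
          H769.sl (fun x y => u x y l) G x0 x y * H769.sl (fun x y => u x y l) G x0 x y') ^ 2 := by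
      intro x0 _
      unfold H103.QK
      rw [H338.S2_QW fun x => by rw [inv_one, transpose_one]]
      refine avg_congr fun y hy => avg_congr fun y' hy' => ?_
      congr 1
      rw [← H550.avg_sum]
      refine avg_congr fun x hx => ?_
      rw [inv_one, one_mulVec, hG]
      unfold H677.fb H677.kF H769.sl
      rw [if_neg, if_neg, smul_dotProduct, dotProduct_smul, smul_eq_mul, smul_eq_mul, dotProduct,
        mul_sum, mul_sum]
      · refine sum_congr rfl fun l _ => ?_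
        simp only
        ring
      all_goals
        push Not
        refine ⟨by omega, fun h => hst ?_⟩
      · exact (sst_congr (ix_of_le (Nat.le_succ k) (corner k hx))
          (ix_of_le (Nat.le_succ k) (corner k hy))).1 h
      · exact (sst_congr (ix_of_le (Nat.le_succ k) (corner k hx))
          (ix_of_le (Nat.le_succ k) (corner k hy'))).1 h
    rw [sum_congr rfl e1, H338.sum_iv']
    have h0 : (avg (iv k i) fun x0 => avg (iv k s) fun y => avg (iv k s) fun y' =>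
        (∑ l, avg (iv k r) fun x => H769.sl (fun x y => u x y l) G x0 x y *
          H769.sl (fun x y => u x y l) G x0 x y') ^ 2) =
        H204.mo4t (iv k r) (iv k s) (iv k i) (fun l x y => u x y l) G := rfl
    rw [h0, mul_comm]
    refine mul_le_mul_of_nonneg_right ?_ (by positivity)
    have h10 : ∀ a : ℤ → ℤ → ℝ, H769.mo4 (iv k r) (iv k s) (iv k i) a G ≤
        M * (H922.n2 (iv k r ×ˢ iv k s) (H834.gf a) ^ 2 *
          H922.n4 (iv k r ×ˢ iv k s) (H834.gf a) ^ 2) := by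
      intro a
      have h := hMo k (hk.trans_le hK) (i, r, s) a
      rw [H769.mo4f_eq] at h
      exact h
    have h1 := H204.mo4t_le hM h10 (fun l x y => u x y l)
    refine h1.trans ?_
    have hvn : ∀ p ∈ iv k r ×ˢ iv k s, H204.vn (fun l (p : ℤ × ℤ) => u p.1 p.2 l) p ^ 2 ≤
        U (p.1, p.2) ^ 2 := by
      intro p hp
      rw [mem_product] at hp
      rw [H204.vn_sq]
      refine le_trans (le_of_eq ?_) (hu p.1 ?_ p.2 ?_)
      · unfold dotProduct
        exact sum_congr rfl fun l _ => sq _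
      · rw [mem_iv, ← hX]
        have := mem_iv.1 hp.1
        rw [← this, ix_ix, Nat.add_sub_cancel' hk.le]
      · rw [mem_iv, ← hY]
        have := mem_iv.1 hp.2
        rw [← this, ix_ix, Nat.add_sub_cancel' hk.le]
    have h2 : H922.n2 (iv k r ×ˢ iv k s) (H204.vn fun l (p : ℤ × ℤ) => u p.1 p.2 l) ^ 2 ≤
        A2 k U (2 ^ k * r) (2 ^ k * s) := by
      rw [← H769.n2_sq_iv, H922.n2_sq, H922.n2_sq]
      exact avg_mono fun p hp => hvn p hp
    have h3 : H922.n4 (iv k r ×ˢ iv k s) (H204.vn fun l (p : ℤ × ℤ) => u p.1 p.2 l) ^ 2 ≤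
        √(A4 k U (2 ^ k * r) (2 ^ k * s)) := by
      rw [← H769.n4_sq_iv, H922.n4_sq, H922.n4_sq]
      refine Real.sqrt_le_sqrt (avg_mono fun p hp => ?_)
      have h4 := hvn p hp
      have h5 : 0 ≤ H204.vn (fun l (p : ℤ × ℤ) => u p.1 p.2 l) p ^ 2 := sq_nonneg _
      calc H204.vn (fun l (p : ℤ × ℤ) => u p.1 p.2 l) p ^ 4 =
          (H204.vn (fun l (p : ℤ × ℤ) => u p.1 p.2 l) p ^ 2) ^ 2 := by ring
        _ ≤ (U (p.1, p.2) ^ 2) ^ 2 := pow_le_pow_left₀ h5 h4 2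
        _ = _ := by ring
    obtain ⟨h5, h6⟩ := not_sst_le hk hst
    have e3 : A2 K U (2 ^ k * r) (2 ^ k * s) = A2 K U X Y := by
      unfold PL.H315.A2
      rw [ptiv_congr hcx, ptiv_congr hcy]
    have e4 : A4 K U (2 ^ k * r) (2 ^ k * s) = A4 K U X Y := by
      unfold H48.A4
      rw [ptiv_congr hcx, ptiv_congr hcy]
    rw [e3] at h5
    rw [e4] at h6
    have h7 : √(A4 k U (2 ^ k * r) (2 ^ k * s)) ≤ 2 * (Λ * √(A4 K U X Y)) := by
      refine (Real.sqrt_le_sqrt h6).trans ?_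
      have h8 : 4 * (Λ * A4 K U X Y) ≤ (2 * (Λ * √(A4 K U X Y))) ^ 2 := by
        have h9 : (2 * (Λ * √(A4 K U X Y))) ^ 2 = 4 * (Λ ^ 2 * √(A4 K U X Y) ^ 2) := by ring
        rw [h9, Real.sq_sqrt hA4]
        have h10 : Λ ≤ Λ ^ 2 := by nlinarith
        nlinarith [mul_le_mul_of_nonneg_right h10 hA4]
      exact (Real.sqrt_le_sqrt h8).trans (le_of_eq (Real.sqrt_sq (by positivity)))
    calc 3 * M * (H922.n2 (iv k r ×ˢ iv k s) (H204.vn fun l (p : ℤ × ℤ) => u p.1 p.2 l) ^ 2 *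
          H922.n4 (iv k r ×ˢ iv k s) (H204.vn fun l (p : ℤ × ℤ) => u p.1 p.2 l) ^ 2)
        ≤ 3 * M * ((4 * (Λ * A2 K U X Y)) * (2 * (Λ * √(A4 K U X Y)))) := by
          refine mul_le_mul_of_nonneg_left ?_ (by positivity)
          exact mul_le_mul (h2.trans h5) (h3.trans h7) (sq_nonneg _) (by positivity)
      _ = 24 * Λ ^ 2 * M * (A2 K U X Y * √(A4 K U X Y)) := by ring

/-- **The unweighted gap family of the killed inputs.** -/
theorem gapU {n K : ℕ} (hK : K ≤ n) {Λ M M' gA gB cP e1 e3 : ℝ} (hΛ : 1 ≤ Λ) (hM : 0 ≤ M)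
    (hM' : 0 ≤ M') {F1 F3 : ℕ → Pt → ℝ} {Q1 Q3 : ℕ → Pt → Prop} (hcP : 0 ≤ cP)
    (hB1 : BSl n e1 cP F1 Q1) (hMo : Mo4 n M F1) (hB3 : BSl n e3 cP F3 Q3) (hMo' : Mo4 n M' F3)
    (g U : ℤ × ℤ → ℝ) (u : ℤ → ℤ → κ → ℝ) {X Y Z R S T t₀ : ℤ} (hT : T = ix K X)
    (hS : S = ix K Y) (hR : R = ix K Z)
    (hu : ∀ x ∈ iv K T, ∀ y ∈ iv K S, u x y ⬝ᵥ u x y ≤ U (x, y) ^ 2)
    (hgA0 : 0 < gA) (hgA : 8 * Λ ^ 2 * M * (A2 K g Y Z * √(A4 K g Y Z)) ≤ gA)
    (hgB0 : 0 < gB) (hgB : 24 * Λ ^ 2 * M' * (A2 K U X Y * √(A4 K U X Y)) ≤ gB) :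
    GapFam 1 K (fun _ _ _ => (0 : Matrix κ κ ℝ)) (fun _ _ _ => 1) R S T t₀
      (fA g (kF Λ g K F1)) (fb u (kF Λ U K F3))
      (fun k i z y => QD (fun k x y => sst Λ g K k x y) Q1 k i y z)
      (QD (fun k x y => sst Λ U K k x y) Q3) gA gB (cP + 2) where
  tr _ := tr_one K
  agA x₀ k hk z hz y hy hQ := by
    simp only [H677.fA_kF]
    exact H103.agreeA hcP hB1 hK g Y Z x₀ hk (hR ▸ hz) (hS ▸ hy) hQ
  agB x₀ k hk x hx y hy hQ := by
    have h := agB_kD (Dd_sst Λ U K) hB3 u (fun _ _ _ => (1 : Matrix κ κ ℝ)) (by omega : k < n) hQ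
    exact h
  zA x₀ z y := by
    simp only [H677.fA_kF, H103.Ap_zero]
    exact PA_zero 0 0 z y
  zB x₀ x y := by
    have h := fb_kD_zero (D := fun k x y => sst Λ U K k x y) u F3 x₀
    rw [H576.kD_sst] at h
    rw [h]
    exact QK_zero _ 0 0 x y
  gA0 := hgA0
  gB0 := hgB0
  capA k hk i _ z hz y hy := by
    simp only [H677.fA_kF]
    refine (H103.capA hΛ hM hMo hK g hk i z y (X := Y) (Y := Z) ?_ ?_).trans ?_
    · rw [← hS]
      exact mem_iv.1 hy
    · rw [← hR]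
      exact mem_iv.1 hz
    · exact mul_le_mul_of_nonneg_right hgA (by positivity)
  capB k hk i _ x hx y hy := by
    refine (capU hΛ hM' hMo' hK U u (X := X) (Y := Y) (hT ▸ hS ▸ hu) hk i x y ?_ ?_).trans ?_
    · rw [← hT]
      exact mem_iv.1 hx
    · rw [← hS]
      exact mem_iv.1 hy
    · exact mul_le_mul_of_nonneg_right hgB (by positivity)
  packA x₀ _ := QD_root' (Dd_sst Λ g K) hB1 hK R S x₀
  packB x₀ _ := QD_root (Dd_sst Λ U K) hB3 hK T S x₀

/-! ### The sum over the alive nodes -/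

/-- **The gap energy of a static pair over all alive nodes.** -/
theorem gp_sum {o : ℤ} (ho : o = 1 ∨ o = -1) {Al : ℕ → Pt → Prop} {K : ℕ} {x : Pt}
    {A : ℤ → ℕ → ℤ → ℤ → ℝ} {b : ℤ → ℕ → ℤ → ℤ → κ → ℝ} {qA qB : ℕ → ℤ → ℤ → ℤ → Prop}
    {gA gB cP : ℝ}
    (f : ∀ t₀, GapFam 1 K (fun _ _ _ => (0 : Matrix κ κ ℝ)) (fun _ _ _ => 1) (cx K x).2.2
      (cx K x).2.1 (cx K x).1 t₀ A b qA qB gA gB cP) :
    sumN o Al K x (fun x0 k m => gpT (A x0 k) (b x0 k) k m) ≤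
      438 * √(gA * gB) * (cP * 8 ^ K) := by
  have h1 : ∀ t₀ ∈ rt (cx K x), ∑ x0 ∈ iv K t₀, ∑ k ∈ Icc 1 K,
      ∑ m ∈ sN Al o K (cx K x) x0 k, gpT (A x0 k) (b x0 k) k m ≤
      146 * √(gA * gB) * (cP * 8 ^ K) := by
    intro t₀ _
    refine le_trans (sum_le_sum fun x0 _ => ?_)
      ((f t₀).gap (c := fun x0 => H677.cP o x0) (fun x0 => H677.cP_pl ho x0)
        fun k x y h => H677.cP_ix o h)
    have e1 : ∀ g : ℕ → ℝ, ∑ k ∈ Icc 1 K, g k = ∑ k ∈ range K, g (k + 1) := by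
      intro g
      rw [range_eq_Ico, sum_Ico_add' g 0 K 1]
      rfl
    rw [e1]
    refine sum_le_sum fun k _ => ?_
    exact gp_scale (A x0 (k + 1)) (b x0 (k + 1)) (R := H677.rv (cx K x))
      (H677.sN_sub Al o K (cx K x) x0 (k + 1))
  unfold sumN
  refine (sum_le_sum h1).trans ?_
  rw [sum_const, nsmul_eq_mul]
  have h2 : (rt (cx K x)).card = 3 := by
    unfold H677.rt
    rw [Int.card_Icc]
    omega
  rw [h2]
  refine le_of_eq ?_
  push_cast
  ring

end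

end Vale.Agent.P141.H652
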