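import Vale.Agent.P141.H652.ThetaW
import Vale.Agent.P141.H677.Fam

/-!
# P141, line (A), (TI): the increasing piece with the slot `Th`

Letters of `H677.Fam` (`z = x3`, `x = x1`, `y = x2`, nodes `m = (m3, m2, m1)`).

* `ndT` : `H677.ndI` with `Th` in place of `1 - S`;
* `ndI_le` : one node;
* `near_swap` : the error energies in the order of `H677.swap0`;
* `TI_le_Th` : the increasing piece is at most the same sum of `ndT` plus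
  `√(energy of the error) * √(energy of the gaps of the pair (A, b))`;
* `line_of_bsl` : line energies of the companions of time `k`.
-/

namespace Vale.Agent.P141.H652

open Finset Matrix
open Vale.Agent.P141.PL (Pt Bx iv hs ix cx mem_iv card_iv ix_ix)
open Vale.Agent.P141.PL.H560 (cbs bx0)
open Vale.Agent.P141.PL.H317 (crn)
open Vale.Agent.P141.H420 (Tr)
open Vale.Agent.P141.H483 (hd)
open Vale.Agent.P141.H103 (qK)
open Vale.Agent.P141.H677 (ndI ST KT GT tr_T rt sN swap0 nodesA rv rv_rv mem_sN)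

noncomputable section

open scoped Classical

variable {κ : Type*} [Fintype κ] [DecidableEq κ]

/-- the node form with the slot `Th` -/
def ndT (l : ℝ) (N : ℕ) (S : ℤ) (Kq : ℤ → ℕ → ℤ → Matrix κ κ ℝ) (c x0 : ℤ) (A : ℤ → ℤ → ℝ)
    (b C : ℤ → ℤ → κ → ℝ) (k : ℕ) (m : Pt) : ℝ :=
  ∑ z ∈ iv k m.1, ∑ x ∈ iv k m.2.2, hs k z * hs k x *
    ((Th l N S (Kq x) c x0 x k m.1 *ᵥ C z x) ⬝ᵥ hd (qK A b z x) k m.2.1)

/-- the error energy of a node -/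
def erT (l : ℝ) (N : ℕ) (S : ℤ) (Kq : ℤ → ℕ → ℤ → Matrix κ κ ℝ) (c x0 : ℤ)
    (C : ℤ → ℤ → κ → ℝ) (k : ℕ) (m : Pt) : ℝ :=
  ∑ z ∈ iv k m.1, ∑ x ∈ iv k m.2.2,
    ((Th l N S (Kq x) c x0 x k m.1 - WT l N S (Kq x) k m.2.1) *ᵥ C z x) ⬝ᵥ
      ((Th l N S (Kq x) c x0 x k m.1 - WT l N S (Kq x) k m.2.1) *ᵥ C z x)

/-- the gap energy of the pair `(A, b)` at a node -/
def gpT (A : ℤ → ℤ → ℝ) (b : ℤ → ℤ → κ → ℝ) (k : ℕ) (m : Pt) : ℝ :=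
  ∑ z ∈ iv k m.1, ∑ x ∈ iv k m.2.2, hd (qK A b z x) k m.2.1 ⬝ᵥ hd (qK A b z x) k m.2.1

omit [DecidableEq κ] in
theorem gpT_nonneg (A : ℤ → ℤ → ℝ) (b : ℤ → ℤ → κ → ℝ) (k : ℕ) (m : Pt) : 0 ≤ gpT A b k m :=
  sum_nonneg fun _ _ => sum_nonneg fun _ _ => H922.dot_self_nonneg _

theorem erT_nonneg (l : ℝ) (N : ℕ) (S : ℤ) (Kq : ℤ → ℕ → ℤ → Matrix κ κ ℝ) (c x0 : ℤ)
    (C : ℤ → ℤ → κ → ℝ) (k : ℕ) (m : Pt) : 0 ≤ erT l N S Kq c x0 C k m :=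
  sum_nonneg fun _ _ => sum_nonneg fun _ _ => H922.dot_self_nonneg _

omit [DecidableEq κ] in
theorem dot_le_sqrt (a b : κ → ℝ) : |a ⬝ᵥ b| ≤ √(a ⬝ᵥ a) * √(b ⬝ᵥ b) := by
  rw [← Real.sqrt_mul (H922.dot_self_nonneg a)]
  refine Real.abs_le_sqrt ?_
  have := sum_mul_sq_le_sq_mul_sq univ a b
  unfold dotProduct
  simp only [← pow_two]
  exact this

/-- **One node**: `1 - S` is replaced by `Th`. -/
theorem ndI_le {l : ℝ} {N : ℕ} {S : ℤ} (Kq : ℤ → ℕ → ℤ → Matrix κ κ ℝ) (c x0 : ℤ)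
    (A : ℤ → ℤ → ℝ) (b C : ℤ → ℤ → κ → ℝ) {k : ℕ} {m : Pt} (hm : m.2.1 ∈ iv (N - k) S) :
    |ndI l Kq A b C k m| ≤ |ndT l N S Kq c x0 A b C k m| +
      √(erT l N S Kq c x0 C k m) * √(gpT A b k m) := by
  have e1 : ndI l Kq A b C k m = ndT l N S Kq c x0 A b C k m -
      ∑ z ∈ iv k m.1, ∑ x ∈ iv k m.2.2, hs k z * hs k x *
        (((Th l N S (Kq x) c x0 x k m.1 - WT l N S (Kq x) k m.2.1) *ᵥ C z x) ⬝ᵥ
          hd (qK A b z x) k m.2.1) := by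
    unfold H677.ndI ndT
    rw [← sum_sub_distrib]
    refine sum_congr rfl fun z _ => ?_
    rw [← sum_sub_distrib]
    refine sum_congr rfl fun x _ => ?_
    have e2 : C z x - ST l (Kq x) (C z x) k m.2.1 = WT l N S (Kq x) k m.2.1 *ᵥ C z x := by
      rw [WT_in hm, sub_mulVec, one_mulVec, smul_mulVec]
      rfl
    rw [e2, sub_mulVec, sub_dotProduct]
    ring
  rw [e1]
  refine (abs_sub _ _).trans (add_le_add le_rfl ?_)
  refine (abs_sum_le_sum_abs _ _).trans ?_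
  have h1 : ∀ z ∈ iv k m.1, |∑ x ∈ iv k m.2.2, hs k z * hs k x *
        (((Th l N S (Kq x) c x0 x k m.1 - WT l N S (Kq x) k m.2.1) *ᵥ C z x) ⬝ᵥ
          hd (qK A b z x) k m.2.1)| ≤ ∑ x ∈ iv k m.2.2,
      √(((Th l N S (Kq x) c x0 x k m.1 - WT l N S (Kq x) k m.2.1) *ᵥ C z x) ⬝ᵥ
        ((Th l N S (Kq x) c x0 x k m.1 - WT l N S (Kq x) k m.2.1) *ᵥ C z x)) *
      √(hd (qK A b z x) k m.2.1 ⬝ᵥ hd (qK A b z x) k m.2.1) := by
    intro z _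
    refine (abs_sum_le_sum_abs _ _).trans (sum_le_sum fun x _ => ?_)
    rw [abs_mul, abs_mul, PL.abs_hs, PL.abs_hs, one_mul, one_mul]
    exact dot_le_sqrt _ _
  refine (sum_le_sum h1).trans ?_
  rw [← sum_product', ← Real.sqrt_mul (erT_nonneg ..)]
  unfold erT gpT
  rw [← sum_product', ← sum_product']
  refine Real.le_sqrt_of_sq_le ?_
  refine (sum_mul_sq_le_sq_mul_sq _ _ _).trans (le_of_eq ?_)
  congr 1
  · exact sum_congr rfl fun p _ => Real.sq_sqrt (H922.dot_self_nonneg _)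
  · exact sum_congr rfl fun p _ => Real.sq_sqrt (H922.dot_self_nonneg _)

omit [Fintype κ] [DecidableEq κ] in
/-- Cauchy-Schwarz over a finite sum -/
theorem cs_step {X : Type*} (s : Finset X) {f a b : X → ℝ} (ha : ∀ i, 0 ≤ a i) (hb : ∀ i, 0 ≤ b i)
    (h : ∀ i ∈ s, f i ≤ √(a i) * √(b i)) :
    ∑ i ∈ s, f i ≤ √(∑ i ∈ s, a i) * √(∑ i ∈ s, b i) :=
  (sum_le_sum h).trans (Real.sum_sqrt_mul_sqrt_le s ha hb)

/-! ### The sum over the alive nodes -/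

section glue

variable {o : ℤ} {Al : ℕ → Pt → Prop} {K : ℕ} {x : Pt} {u v : ℤ → ℤ → κ → ℝ}
  {A : ℤ → ℕ → ℤ → ℤ → ℝ} {b C : ℤ → ℕ → ℤ → ℤ → κ → ℝ}

/-- the sum over the alive nodes at all `x0` -/
def sumN (o : ℤ) (Al : ℕ → Pt → Prop) (K : ℕ) (x : Pt) (f : ℤ → ℕ → Pt → ℝ) : ℝ :=
  ∑ t ∈ rt (PL.cx K x), ∑ x0 ∈ iv K t, ∑ k ∈ Icc 1 K, ∑ m ∈ sN Al o K (PL.cx K x) x0 k, f x0 k m

theorem sumN_mono {f g : ℤ → ℕ → Pt → ℝ} (h : ∀ x0 : ℤ, ∀ k ∈ Icc 1 K,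
    ∀ m ∈ sN Al o K (PL.cx K x) x0 k, f x0 k m ≤ g x0 k m) :
    sumN o Al K x f ≤ sumN o Al K x g :=
  sum_le_sum fun _ _ => sum_le_sum fun x0 _ => sum_le_sum fun k hk => sum_le_sum fun m hm =>
    h x0 k hk m hm

theorem sumN_add (f g : ℤ → ℕ → Pt → ℝ) :
    sumN o Al K x (fun x0 k m => f x0 k m + g x0 k m) = sumN o Al K x f + sumN o Al K x g := by
  unfold sumN
  simp only [← sum_add_distrib]

theorem sumN_nonneg {f : ℤ → ℕ → Pt → ℝ} (h : ∀ x0 k m, 0 ≤ f x0 k m) : 0 ≤ sumN o Al K x f :=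
  sum_nonneg fun _ _ => sum_nonneg fun _ _ => sum_nonneg fun _ _ => sum_nonneg fun _ _ => h _ _ _

theorem sumN_cs {a b : ℤ → ℕ → Pt → ℝ} (ha : ∀ x0 k m, 0 ≤ a x0 k m) (hb : ∀ x0 k m, 0 ≤ b x0 k m) :
    sumN o Al K x (fun x0 k m => √(a x0 k m) * √(b x0 k m)) ≤
      √(sumN o Al K x a) * √(sumN o Al K x b) := by
  unfold sumN
  refine cs_step _ (fun _ => sum_nonneg fun _ _ => sum_nonneg fun _ _ => sum_nonneg fun _ _ =>
    ha _ _ _) (fun _ => sum_nonneg fun _ _ => sum_nonneg fun _ _ => sum_nonneg fun _ _ =>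
    hb _ _ _) fun t _ => ?_
  refine cs_step _ (fun _ => sum_nonneg fun _ _ => sum_nonneg fun _ _ => ha _ _ _)
    (fun _ => sum_nonneg fun _ _ => sum_nonneg fun _ _ => hb _ _ _) fun x0 _ => ?_
  refine cs_step _ (fun _ => sum_nonneg fun _ _ => ha _ _ _)
    (fun _ => sum_nonneg fun _ _ => hb _ _ _) fun k _ => ?_
  exact cs_step _ (fun _ => ha _ _ _) (fun _ => hb _ _ _) fun m _ => le_rfl

/-- **The order of the nodes.** -/
theorem sumN_eq (ho : o = 1 ∨ o = -1) (f : ℤ → ℕ → Pt → ℝ) :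
    sumN o Al K x f = nodesA Al K x fun k m => ∑ x0 ∈ iv k (bx0 o m).1, f x0 k (rv m) := by
  rw [swap0 ho Al K x fun x0 k m => f x0 k (rv m)]
  unfold sumN
  refine sum_congr rfl fun _ _ => sum_congr rfl fun _ _ => sum_congr rfl fun _ _ =>
    sum_congr rfl fun m _ => ?_
  rw [rv_rv]

/-- **The error energy over the alive nodes.** -/
theorem er_sum {l : ℝ} (hl : 0 < l) (ho : o = 1 ∨ o = -1) (u : ℤ → ℤ → κ → ℝ)
    {φ : ℕ → Pt → ℝ} {e : ℝ} (he : 0 ≤ e)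
    (hφ : ∀ k ∈ Icc 1 K, ∀ j x1 x3, ∑ x0 ∈ iv k j, φ k (x0, x1, x3) ^ 2 ≤ e * 2 ^ k)
    (hC : ∀ x0 k z w, C x0 k z w = φ k (x0, w, z) • v w z) :
    sumN o Al K x (fun x0 k m => erT l K (PL.cx K x).2.1 (KT l u) (o - 2) x0 (C x0 k) k m) ≤
      e * (2 ^ K * ∑ x1 ∈ iv K (PL.cx K x).1, ∑ x3 ∈ iv K (PL.cx K x).2.2,
        12288 * l⁻¹ * (v x1 x3 ⬝ᵥ GT u x1 K (PL.cx K x).2.1 *ᵥ v x1 x3)) := by
  have h1 := near_nodesW (K := K) (M := PL.cx K x) (G := GT u) (Kq := KT l u) ho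
    (fun x1 _ => tr_T hl K u x1) v (W := fun k x0 x1 x3 => φ k (x0, x1, x3) ^ 2) he
    (fun _ _ _ _ => sq_nonneg _) hφ
  refine le_trans ?_ h1
  rw [sumN_eq ho]
  unfold H677.nodesA
  refine sum_le_sum fun k _ => ?_
  refine (sum_le_sum_of_subset_of_nonneg (filter_subset _ _) fun m _ _ =>
    sum_nonneg fun _ _ => erT_nonneg ..).trans (sum_le_sum fun m _ => sum_le_sum fun x0 _ => ?_)
  unfold erT
  rw [sum_comm]
  refine sum_le_sum fun x1 _ => sum_le_sum fun x3 _ => le_of_eq ?_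
  rw [hC, mulVec_smul, smul_dotProduct, dotProduct_smul, smul_eq_mul, smul_eq_mul, ← mul_assoc,
    ← pow_two]
  rfl

/-- **The increasing piece with the slot `Th`.** -/
theorem TI_le_Th {l : ℝ} (hl : 0 < l) (ho : o = 1 ∨ o = -1) (u : ℤ → ℤ → κ → ℝ)
    {φ : ℕ → Pt → ℝ} {e : ℝ} (he : 0 ≤ e)
    (hφ : ∀ k ∈ Icc 1 K, ∀ j x1 x3, ∑ x0 ∈ iv k j, φ k (x0, x1, x3) ^ 2 ≤ e * 2 ^ k)
    (hC : ∀ x0 k z w, C x0 k z w = φ k (x0, w, z) • v w z) :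
    sumN o Al K x (fun x0 k m => |ndI l (KT l u) (A x0 k) (b x0 k) (C x0 k) k m|) ≤
      sumN o Al K x (fun x0 k m => |ndT l K (PL.cx K x).2.1 (KT l u) (o - 2) x0 (A x0 k) (b x0 k)
        (C x0 k) k m|) +
      √(e * (2 ^ K * ∑ x1 ∈ iv K (PL.cx K x).1, ∑ x3 ∈ iv K (PL.cx K x).2.2,
        12288 * l⁻¹ * (v x1 x3 ⬝ᵥ GT u x1 K (PL.cx K x).2.1 *ᵥ v x1 x3))) *
      √(sumN o Al K x fun x0 k m => gpT (A x0 k) (b x0 k) k m) := by
  have h1 : sumN o Al K x (fun x0 k m => |ndI l (KT l u) (A x0 k) (b x0 k) (C x0 k) k m|) ≤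
      sumN o Al K x (fun x0 k m => |ndT l K (PL.cx K x).2.1 (KT l u) (o - 2) x0 (A x0 k) (b x0 k)
        (C x0 k) k m| + √(erT l K (PL.cx K x).2.1 (KT l u) (o - 2) x0 (C x0 k) k m) *
          √(gpT (A x0 k) (b x0 k) k m)) := by
    refine sumN_mono fun x0 k hk m hm => ndI_le _ _ _ _ _ _ ?_
    have h2 := (mem_sN.1 hm).1
    unfold cbs at h2
    rw [mem_product, mem_product] at h2
    exact h2.2.1
  refine h1.trans ?_
  rw [sumN_add]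
  refine add_le_add le_rfl ((sumN_cs (fun _ _ _ => erT_nonneg ..) fun _ _ _ =>
    gpT_nonneg ..).trans ?_)
  exact mul_le_mul_of_nonneg_right (Real.sqrt_le_sqrt (er_sum hl ho u he hφ hC))
    (Real.sqrt_nonneg _)

end glue

/-! ### Line energies of the companions -/

omit [Fintype κ] [DecidableEq κ] in
theorem line_of_bsl {n : ℕ} {e cP : ℝ} {F : ℕ → Pt → ℝ} {Q : ℕ → Pt → Prop}
    (h : H48.BSl n e cP F Q) {k : ℕ} (hk : k ∈ Icc 1 n) (j x1 x3 : ℤ) :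
    ∑ x0 ∈ iv k j, F k (x0, x1, x3) ^ 2 ≤ e * 2 ^ k := by
  obtain ⟨i, rfl⟩ : ∃ i, k = i + 1 := ⟨k - 1, by have := (mem_Icc.1 hk).1; omega⟩
  have hi : i < n := (mem_Icc.1 hk).2
  rw [H677.sum_halves]
  have h1 := h.l0 i hi (2 * j) x1 x3
  have h2 := h.l0 i hi (2 * j + 1) x1 x3
  rw [pow_succ]
  linarith

omit [Fintype κ] [DecidableEq κ] in
/-- the same for the killed companion -/
theorem line_kF {n K : ℕ} (hK : K ≤ n) {e cP Λ : ℝ} {a : ℤ × ℤ → ℝ} {F : ℕ → Pt → ℝ}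
    {Q : ℕ → Pt → Prop} (h : H48.BSl n e cP F Q) {k : ℕ} (hk : k ∈ Icc 1 K) (j x1 x3 : ℤ) :
    ∑ x0 ∈ iv k j, H677.kF Λ a K F k (x0, x1, x3) ^ 2 ≤ e * 2 ^ k := by
  refine le_trans (sum_le_sum fun x0 _ => ?_) (line_of_bsl h
    (mem_Icc.2 ⟨(mem_Icc.1 hk).1, (mem_Icc.1 hk).2.trans hK⟩) j x1 x3)
  unfold H677.kF
  split_ifs
  · rw [zero_pow two_ne_zero]
    exact sq_nonneg _
  · exact le_rfl

end

end Vale.Agent.P141.H652
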