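import Vale.Agent.P141.H652.RedF
import Vale.Agent.P141.H401.CutData
import Vale.Agent.P141.H576.StatZ
import Vale.Agent.P141.H816.FDat

/-!
# P141, line (A), (TI): the slot `Th` for the definite cut families

* `mk_DT` : the cut families of `H401.CutData` have the property `DT`;
* `cst_NI` : `CSt NT → CSt NI`.
-/

namespace Vale.Agent.P141.H652

open Finset Matrix
open Vale.Agent.P141.PL (Pt iv hs ix cx mem_iv)
open Vale.Agent.P141.PL.H315 (Tri)
open Vale.Agent.P141.H48 (US ES BSl sst)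
open Vale.Agent.P141.H677 (KT rt sN fA fb kF)
open Vale.Agent.P141.H576 (GapFam QD QD_zero lowW_sub)
open Vale.Agent.P141.H401 (FunF NS NI Bun StX StQ PartX PartY PartF PartQ MkSt CSt mA mb mC qA qB qC
  cA cb b1)

noncomputable section

open scoped Classical

/-- larger numbers -/
theorem gapFam_mono {κ : Type*} [Fintype κ] [DecidableEq κ] {l : ℝ} {N : ℕ}
    {G Kq : ℤ → ℕ → ℤ → Matrix κ κ ℝ} {R S T t₀ : ℤ} {A : ℤ → ℕ → ℤ → ℤ → ℝ}
    {b : ℤ → ℕ → ℤ → ℤ → κ → ℝ} {qA qB : ℕ → ℤ → ℤ → ℤ → Prop} {gA gB cP gA' gB' cP' : ℝ}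
    (f : GapFam l N G Kq R S T t₀ A b qA qB gA gB cP) (hA : gA ≤ gA') (hB : gB ≤ gB')
    (hc : cP ≤ cP') : GapFam l N G Kq R S T t₀ A b qA qB gA' gB' cP' :=
  { f with
    gA0 := f.gA0.trans_le hA
    gB0 := f.gB0.trans_le hB
    capA := fun k hk i hi n hn m hm => (f.capA k hk i hi n hn m hm).trans
      (mul_le_mul_of_nonneg_right hA (by positivity))
    capB := fun k hk i hi n hn m hm => (f.capB k hk i hi n hn m hm).trans
      (mul_le_mul_of_nonneg_right hB (by positivity))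
    packA := fun x₀ hx => (f.packA x₀ hx).trans (mul_le_mul_of_nonneg_right hc (by positivity))
    packB := fun x₀ hx => (f.packB x₀ hx).trans (mul_le_mul_of_nonneg_right hc (by positivity)) }

/-- the property `DT` as a bundle -/
def DTB : Bun := fun _ _ _ p _ ez _ _ _ _ K x s _ _ _ _ v A b C => DT p ez K x s v A b C

/-- **The cut families have the property `DT`.** -/
theorem mk_DT : MkSt DTB := by
  unfold MkSt PartQ PartY
  intro a _ _
  refine ⟨1, one_pos, fun e0 _ _ => ⟨1, one_pos, fun k8 _ _ => ⟨1, one_pos, fun k3 _ _ => ?_⟩⟩⟩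
  refine ⟨1, 1, 1, 1, one_pos, one_pos, one_pos, one_pos, fun c _ _ d hd _ Kt e cP L hK he hcP _ =>
    ?_⟩
  obtain ⟨CA, hCA, H⟩ := gapUN (c := c) hd hK he hcP
  refine ⟨max (CA + 1) (cP + 2), le_max_of_le_left (by linarith), 0, le_rfl, ?_⟩
  intro t ht ht1 n ez F1 F2 F3 h1 h3 h2 o _ K hKn x ι _ _ s r U g u v hs hr hcls Q1 Q2 Q3 q1 q2 q3
  refine ⟨⟨kF (t ^ (-d)) U.2.1 K F2, fun k hk j x1 x3 => ?_, fun x0 k z w => rfl⟩,
    ⟨fun k i n m => qA ⟨a, e0, k8, k3, c, d, Kt, e, cP, L, max (CA + 1) (cP + 2), t⟩ U K Q1 k i n m,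
      fun k i n m => qB ⟨a, e0, k8, k3, c, d, Kt, e, cP, L, max (CA + 1) (cP + 2), t⟩ U K Q3 k i n m,
      fun t₀ => ?_⟩⟩
  · exact H816.line_kF0 q2 h2.1 _ K ((mem_Icc.1 hk).2.trans hKn) j x1 x3
  · have hpos : 0 < t ^ (2 - 2 * c - 2 * d) * s ^ (3 / 2 : ℝ) :=
      mul_pos (Real.rpow_pos_of_pos ht _) (Real.rpow_pos_of_pos hs _)
    have f := H t ht ht1 n F1 F3 Q1 Q3 h1 q1 h3 q3 K hKn x ι s r _ U g u v hs hcls.toCls t₀
    have f1 := gapFam_mono f
      (mul_le_mul_of_nonneg_right ((by linarith : CA ≤ CA + 1).trans (le_max_left _ (cP + 2)))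
        hpos.le)
      (mul_le_mul_of_nonneg_right ((by linarith : CA ≤ CA + 1).trans (le_max_left _ (cP + 2)))
        hpos.le) (le_max_right (CA + 1) (cP + 2))
    exact f1.low (fun _ _ _ => Or.inl rfl) (fun _ _ _ => Or.inl rfl) _ _
      fun x₀ => lowW_sub _ _ _ _

/-- the error of the slot for the cut families -/
theorem err_cst : PartQ fun ι _ _ p _n _ez F1 F2 F3 o K x s r U g u v Q1 _Q2 Q3 B =>
    ∀ sg : ℕ → Pt → ℝ,
      NI ι (p.lam s r) o (p.al U K) K x u (cA p s r U K g F1 Q1) (cb p s r U K u F3 Q3)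
        (mC p U K v F2) sg ≤
      NT ι (p.lam s r) o (p.al U K) K x u (cA p s r U K g F1 Q1) (cb p s r U K u F3 Q3)
        (mC p U K v F2) sg + B := by
  have H1 := mk_DT
  unfold MkSt PartQ at H1
  unfold PartQ
  refine PartY.addX H1 err_T ?_
  intro ι _ _ p n ez F1 F2 F3 o K x s r U g u v B1 B2 B _ _ _ _ z1 _ k1 k2 k3 Q1 Q2 Q3 q1 q2 q3 sg
  exact (k2 _ _ _ (k1 Q1 Q2 Q3 q1 q2 q3) sg).trans (by linarith)

/-- **From the slot `Th` to the increasing part, definite cut families.** -/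
theorem cst_NI (H : CSt NT) : CSt NI := by
  unfold CSt PartQ at H ⊢
  have H2 := err_cst
  unfold PartQ at H2
  exact H401.PartQ.add H H2
    (fun ι _ _ p CD n ez F1 F2 F3 o K x s r U g u v B h => h)
    (fun ι _ _ p CD n ez F1 F2 F3 o K x s r U g u v B h => h)
    (fun ι _ _ p n ez F1 F2 F3 o K x s r U g u v B1 B2 B _ _ _ _ k1 k2 k3 Q1 Q2 Q3 q1 q2 q3 sg hsg =>
      (k2 Q1 Q2 Q3 q1 q2 q3 sg).trans ((add_le_add_left (k1 Q1 Q2 Q3 q1 q2 q3 sg hsg) B2).trans k3))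

end

end Vale.Agent.P141.H652
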