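import Vale.Agent.P141.H652.LabG
import Vale.Agent.P141.H408.SkelTI3

/-!
# P141, line (A), (TI): the leaf `LABg` of `H408.SkelTI3`
-/

namespace Vale.Agent.P141.H652

/-- **Leaf `LABg`** of the skeleton. -/
theorem lABu : H408.LABg := H408.PairQ.toU lABg

end Vale.Agent.P141.H652
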