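import Vale.Agent.P141.H652.PairBt
import Vale.Agent.P141.H652.MkT
import Vale.Agent.P141.H408.SkelTI2

/-!
# P141, line (A), (TI): masses of the definite cut families and the leaf `LAB`

* `row_cA`, `row_cb` : rows of the cut families;
* `mass_cA`, `mass_cb` : masses at time `k + 1`, summed over the `x0` of a cell;
* `PAB_cls` : the static pair `(A, Bt)` for class data, every level `h`;
* `lAB : H408.LAB`.
-/

namespace Vale.Agent.P141.H652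

open Finset Matrix
open Vale.Agent.P141.PL (Pt iv hs ix cx mem_iv)
open Vale.Agent.P141.PL.H315 (Tri A2)
open Vale.Agent.P141.H48 (US ES BSl sst)
open Vale.Agent.P141.H103 (un)
open Vale.Agent.P141.H305 (Cls ClsM)
open Vale.Agent.P141.H677 (KT rt sN fA fb kF)
open Vale.Agent.P141.H677.Sk (FamA FamV)
open Vale.Agent.P141.H576 (GapFam QD QD_root QD_root' Dd_sst agree_kD kD_sst)
open Vale.Agent.P141.H401 (mA mb mC qA qB qC cA cb b1)
open Vale.Agent.P141.H408 (PABf PairQ)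
open Vale.Agent.P141.H816 (row_upto mass_kF isPrj_prW isPrj_prL lowW_eq_cutG)
open Vale.Agent.P141.H769 (iv_pt)

noncomputable section

open scoped Classical

variable {ι : Type} [Fintype ι] [DecidableEq ι] {p : H401.Num} {n : ℕ} {e cP : ℝ}
  {F1 F3 : ℕ → Pt → ℝ} {Q1 Q3 : ℕ → Pt → Prop} {K : ℕ} {s r : ℝ} {U : Tri} {g : ℤ → ℤ → ℝ}
  {u : ℤ → ℤ → ι → ℝ}

/-- the killed input agrees off its affected squares -/
theorem agree_k {Λ : ℝ} {a : ℤ × ℤ → ℝ} {F : ℕ → Pt → ℝ} {Q : ℕ → Pt → Prop}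
    (hB : BSl n e cP F Q) {k : ℕ} (hk : k < n) {x0 i m : ℤ}
    (hQ : ¬ QD (fun k x y => sst Λ a K k x y) Q k (ix k x0) i m) {x y : ℤ} (hx : x ∈ iv k i)
    (hy : y ∈ iv k m) : kF Λ a K F (k + 1) (x0, x, y) = kF Λ a K F k (x0, x, y) := by
  have h := agree_kD (Dd_sst Λ a K) hB hk hQ hx hy
  rwa [kD_sst] at h

theorem ag_mA (hB : BSl n e cP F1 Q1) (hK : K ≤ n) {k : ℕ} (hk : k < K) {x0 i m : ℤ}
    (hQ : ¬ qA p U K Q1 k (ix k x0) i m) {z y : ℤ} (hz : z ∈ iv k i) (hy : y ∈ iv k m) :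
    mA p U K g F1 x0 (k + 1) z y = mA p U K g F1 x0 k z y := by
  unfold H401.mA H677.fA
  rw [agree_k hB (by omega) hQ hy hz]

omit [Fintype ι] [DecidableEq ι] in
theorem ag_mb (hB : BSl n e cP F3 Q3) (hK : K ≤ n) {k : ℕ} (hk : k < K) {x0 i m : ℤ}
    (hQ : ¬ qB p U K Q3 k (ix k x0) i m) {x y : ℤ} (hx : x ∈ iv k i) (hy : y ∈ iv k m) :
    mb p U K u F3 x0 (k + 1) x y = mb p U K u F3 x0 k x y := by
  unfold H401.mb H677.fb
  rw [agree_k hB (by omega) hQ hx hy]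

/-- rows of the cut `A` -/
theorem row_cA (hB : BSl n e cP F1 Q1) (hK : K ≤ n) {k : ℕ} (hk : k < K) (x0 m z : ℤ) :
    ∑ y ∈ iv k m, cA p s r U K g F1 Q1 x0 (k + 1) z y ^ 2 ≤
      ∑ y ∈ iv k m, mA p U K g F1 x0 (k + 1) z y ^ 2 := by
  have h := row_upto (N := K) (F := fun k => un (mA p U K g F1 x0 k))
    (isPrj_prL (p.th s r ^ 2) fun k => un (mA p U K g F1 x0 k))
    (Q := fun k n m => qA p U K Q1 k (ix k x0) n m) (fun _ _ => Or.inl rfl)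
    (fun k hk n m hQ x hx y hy => by
      funext j
      exact ag_mA hB hK hk hQ hx hy) k hk m z
  have e1 := H816.lowF_eq_cutG (Q := fun k n m => qA p U K Q1 k (ix k x0) n m)
    (c := p.th s r ^ 2) (F := fun k => un (mA p U K g F1 x0 k))
  beta_reduce at e1 h
  rw [← e1] at h
  simpa [dotProduct, H103.un, H401.cA, H205.low1, sq] using h

/-- rows of the cut `b` -/
theorem row_cb (hB : BSl n e cP F3 Q3) (hK : K ≤ n) {k : ℕ} (hk : k < K) (x0 m x : ℤ) :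
    ∑ y ∈ iv k m, cb p s r U K u F3 Q3 x0 (k + 1) x y ⬝ᵥ cb p s r U K u F3 Q3 x0 (k + 1) x y ≤
      ∑ y ∈ iv k m, mb p U K u F3 x0 (k + 1) x y ⬝ᵥ mb p U K u F3 x0 (k + 1) x y := by
  have h1 := row_upto (N := K) (F := fun k => mb p U K u F3 x0 k)
    (isPrj_prL (p.th s r ^ 2) fun k => mb p U K u F3 x0 k)
    (Q := fun k n m => qB p U K Q3 k (ix k x0) n m) (fun _ _ => Or.inl rfl)
    (fun k hk n m hQ x hx y hy => ag_mb hB hK hk hQ hx hy) k hk m x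
  have e1 := H816.lowF_eq_cutG (Q := fun k n m => qB p U K Q3 k (ix k x0) n m)
    (c := p.th s r ^ 2) (F := fun k => mb p U K u F3 x0 k)
  beta_reduce at e1 h1
  rw [← e1] at h1
  have h2 := row_upto (N := K) (F := fun k => b1 p s r U K u F3 Q3 x0 k) (isPrj_prW (KT (p.lam s r) u) (p.be s r ^ 2 / √(p.lam s r))
      fun k => b1 p s r U K u F3 Q3 x0 k)
    (Q := fun k n m => qB p U K Q3 k (ix k x0) n m) (fun _ _ => Or.inl rfl)
    (fun k hk n m hQ x hx y hy => H205.lowF_off hQ hx hy) k hk m x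
  have e2 := lowW_eq_cutG (fun k n m => qB p U K Q3 k (ix k x0) n m) (KT (p.lam s r) u)
    (p.be s r ^ 2 / √(p.lam s r)) fun k => b1 p s r U K u F3 Q3 x0 k
  beta_reduce at e2 h2
  rw [← e2] at h2
  exact h2.trans h1

omit [DecidableEq ι] in
/-- **Masses of the cut `A`.** -/
theorem mass_cA {v : ℤ → ℤ → ι → ℝ} {x : Pt} {P : ℝ} (hB : BSl n e cP F1 Q1) (he : 0 ≤ e)
    (ht : 0 < p.t) (hs : 0 ≤ s) (hK : K ≤ n) (C : Cls K x s r P U g u v) {k : ℕ} (hk : k < K)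
    (i : ℤ) {z' y' : ℤ} (hz : z' ∈ iv (K - k) (ix K x.2.2)) (hy : y' ∈ iv (K - k) (ix K x.2.1)) :
    ∑ x0 ∈ iv k i, ∑ z ∈ iv k z', ∑ y ∈ iv k y', cA p s r U K g F1 Q1 x0 (k + 1) z y ^ 2 ≤
      4 * e * p.t ^ (-p.d) * s * 8 ^ k := by
  refine le_trans (sum_le_sum fun x0 _ => sum_le_sum fun z _ => row_cA hB hK hk x0 y' z) ?_
  have hΛ : 0 ≤ p.Lm := Real.rpow_nonneg ht.le _
  have h := mass_kF hB he hΛ hs hK U.2.2 C.U_g2 hk i hy hz
  refine le_trans (le_of_eq ?_) h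
  refine sum_congr rfl fun x0 _ => ?_
  rw [sum_comm]
  refine sum_congr rfl fun y _ => sum_congr rfl fun z _ => ?_
  unfold H401.mA H677.fA
  rw [mul_pow, C.U_g, mul_comm]

/-- **Masses of the cut `b`.** -/
theorem mass_cb {v : ℤ → ℤ → ι → ℝ} {x : Pt} {P : ℝ} (hB : BSl n e cP F3 Q3) (he : 0 ≤ e)
    (ht : 0 < p.t) (hs : 0 ≤ s) (hK : K ≤ n) (C : Cls K x s r P U g u v) {k : ℕ} (hk : k < K)
    (i : ℤ) {w' y' : ℤ} (hw : w' ∈ iv (K - k) (ix K x.1)) (hy : y' ∈ iv (K - k) (ix K x.2.1)) :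
    ∑ x0 ∈ iv k i, ∑ w ∈ iv k w', ∑ y ∈ iv k y',
      cb p s r U K u F3 Q3 x0 (k + 1) w y ⬝ᵥ cb p s r U K u F3 Q3 x0 (k + 1) w y ≤
      4 * e * p.t ^ (-p.d) * s * 8 ^ k := by
  refine le_trans (sum_le_sum fun x0 _ => sum_le_sum fun z _ => row_cb hB hK hk x0 y' z) ?_
  have hΛ : 0 ≤ p.Lm := Real.rpow_nonneg ht.le _
  have h := mass_kF hB he hΛ hs hK U.1 C.U_u2 hk i hw hy
  refine le_trans ?_ h
  refine sum_le_sum fun x0 _ => sum_le_sum fun w hw' => sum_le_sum fun y hy' => ?_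
  unfold H401.mb H677.fb
  rw [smul_dotProduct, dotProduct_smul, smul_eq_mul, smul_eq_mul, ← mul_assoc, ← sq]
  exact mul_le_mul_of_nonneg_left (C.u_le w (H576.root_mem hk.le hw hw') y
    (H576.root_mem hk.le hy hy')) (sq_nonneg _)

/-- **The static pair for class data**, every level. -/
theorem PAB_cls {v : ℤ → ℤ → ι → ℝ} {x : Pt} {P : ℝ} (hB1 : BSl n e cP F1 Q1)
    (hB3 : BSl n e cP F3 Q3) (he : 0 ≤ e) (ht : 0 < p.t) (hs : 0 ≤ s) (hK : K ≤ n)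
    (C : Cls K x s r P U g u v) {Al : ℕ → Pt → Prop} {o : ℤ} (ho : o = 1 ∨ o = -1)
    {sg : ℕ → Pt → ℝ} {be l : ℝ} (hbe : 0 < be) (hl : 0 < l) (Cf : FamV ι) {h : ℝ} (hh : 0 < h) :
    PABf be h ι Al o K (cx K x) sg l u (cA p s r U K g F1 Q1) (cb p s r U K u F3 Q3) Cf ≤
      19800 * e * (cP + 2) * (p.t ^ (-p.d) * s * 8 ^ K) * h ^ 2 := by
  have h1 : 0 < p.t ^ (-p.d) := Real.rpow_pos_of_pos ht _
  refine (PAB_le (QA := qA p U K Q1) (QB := qB p U K Q3) ho hbe hl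
    (mu := 4 * e * p.t ^ (-p.d) * s) (cP := cP + 2) (by positivity) (fun _ => rfl) (fun _ => rfl)
    (fun k hk x0 i m hQ z hz y hy => ?_) (fun k hk x0 i m hQ z hz y hy => ?_)
    (fun k hk i z' hz' y' hy' => mass_cA hB1 he ht hs hK C hk i hz' hy')
    (fun k hk i z' hz' y' hy' => mass_cb hB3 he ht hs hK C hk i hz' hy')
    (fun x0 => QD_root' (Dd_sst _ _ _) hB1 hK _ _ x0)
    (fun x0 => QD_root (Dd_sst _ _ _) hB3 hK _ _ x0) hh).trans (le_of_eq (by ring))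
  · exact congrFun (H205.lowF_off (Q := fun k n m => qA p U K Q1 k (ix k x0) n m) hQ hz hy) ()
  · exact H80.lowG_off (Q := fun k n m => qB p U K Q3 k (ix k x0) n m) hQ hz hy

/-- `t ^ (-d) ≤ (t / r) ^ (-δ)` -/
theorem td_le {t r d δ : ℝ} (ht : 0 < t) (ht1 : t ≤ 1) (hr : 1 ≤ r) (hd : 0 ≤ d) (hdδ : d ≤ δ) :
    t ^ (-d) ≤ (t / r) ^ (-δ) := by
  have hr0 : 0 < r := by linarith
  have h1 : 0 < t / r := div_pos ht hr0
  have h2 : t / r ≤ t := div_le_self ht.le hr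
  calc t ^ (-d) ≤ t ^ (-δ) := Real.rpow_le_rpow_of_exponent_ge ht ht1 (by linarith)
    _ ≤ (t / r) ^ (-δ) := Real.rpow_le_rpow_of_nonpos h1 h2 (by linarith)

/-- **Leaf `LAB`.** -/
theorem lAB : H408.LAB := by
  unfold H408.LAB PairQ
  intro a _ _
  refine ⟨1, one_pos, fun e0 _ _ => ⟨1, one_pos, fun k8 _ _ => ⟨1, one_pos, fun k3 _ _ δ hδ => ?_⟩⟩⟩
  refine ⟨1, δ, one_pos, hδ, fun c _ _ d hd hdδ Kt e cP L _ he hcP _ =>
    ⟨19800 * e * (cP + 2), by positivity, ?_⟩⟩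
  intro t ht ht1 n ez F1 F2 F3 _ _ _ o ho K hK x ι _ _ s r U g u v hs hr hcls Q1 Q2 Q3 q1 _ q3 _ h
    hh _
  have hbe : 0 < H408.beI ⟨a, e0, k8, k3, c, d, Kt, e, cP, L, 1, t⟩ r :=
    Real.rpow_pos_of_pos (div_pos ht (by linarith)) _
  have hl : 0 < H401.Num.lam ⟨a, e0, k8, k3, c, d, Kt, e, cP, L, 1, t⟩ s r :=
    H401.Num.lam_pos ht hs hr
  refine (PAB_cls (p := ⟨a, e0, k8, k3, c, d, Kt, e, cP, L, 1, t⟩) q1 q3 (by linarith) ht
    hs.le hK hcls.toCls ho hbe hl _ hh).trans ?_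
  have h1 := td_le ht ht1 hr hd.le hdδ
  have h2 : (0 : ℝ) ≤ 19800 * e * (cP + 2) := by positivity
  calc 19800 * e * (cP + 2) * (t ^ (-d) * s * 8 ^ K) * h ^ 2
      ≤ 19800 * e * (cP + 2) * ((t / r) ^ (-δ) * s * 8 ^ K) * h ^ 2 := by gcongr
    _ = _ := by ring

end

end Vale.Agent.P141.H652
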