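import Vale.Agent.P141.H652.LabL
import Vale.Agent.P141.H228.GaugeI

/-!
# P141, line (A), (TI): the static pair in the gauge of `H228.GaugeI`

* `PABg_le` : any families; `PABg_cls` : the definite cut families over class data;
* `LABg` : the leaf, the text of `H408.LAB` with `PABg`; `lABg : LABg`.
-/

namespace Vale.Agent.P141.H652

open Finset Matrix
open Vale.Agent.P141.PL (Pt iv hs ix cx mem_iv)
open Vale.Agent.P141.PL.H315 (Tri A2)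
open Vale.Agent.P141.H48 (US ES BSl sst)
open Vale.Agent.P141.H103 (un QW)
open Vale.Agent.P141.H736 (sqb)
open Vale.Agent.P141.H305 (Cls ClsM)
open Vale.Agent.P141.H677 (KT rt sN fA fb kF)
open Vale.Agent.P141.H677.Sk (FamA FamV)
open Vale.Agent.P141.H576 (GapFam QD QD_root QD_root' Dd_sst agree_kD kD_sst)
open Vale.Agent.P141.H401 (mA mb mC qA qB qC cA cb b1)
open Vale.Agent.P141.H408 (PairQ)
open Vale.Agent.P141.H228.Gauge (PABg Bg QW_Bg)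

noncomputable section

open scoped Classical

variable {ι : Type} [Fintype ι] [DecidableEq ι]

/-- **The static pair in the gauge**, all levels. -/
theorem PABg_le {Al : ℕ → Pt → Prop} {o : ℤ} (ho : o = 1 ∨ o = -1) {K : ℕ} {x : Pt}
    {sg : ℕ → Pt → ℝ} {l : ℝ} {u : ℤ → ℤ → ι → ℝ} {A : FamA}
    {b C : FamV ι} {QA QB : ℕ → ℤ → ℤ → ℤ → Prop} {mu cP : ℝ} (hmu : 0 ≤ mu)
    (zA : ∀ x0, A x0 0 = 0) (zB : ∀ x0, b x0 0 = 0)
    (agA : ∀ k < K, ∀ x0 i m, ¬ QA k (ix k x0) i m → ∀ z ∈ iv k i, ∀ y ∈ iv k m,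
      A x0 (k + 1) z y = A x0 k z y)
    (agB : ∀ k < K, ∀ x0 i m, ¬ QB k (ix k x0) i m → ∀ w ∈ iv k i, ∀ y ∈ iv k m,
      b x0 (k + 1) w y = b x0 k w y)
    (massA : ∀ k < K, ∀ i, ∀ z' ∈ iv (K - k) (ix K x.2.2), ∀ y' ∈ iv (K - k) (ix K x.2.1),
      ∑ x0 ∈ iv k i, ∑ z ∈ iv k z', ∑ y ∈ iv k y', A x0 (k + 1) z y ^ 2 ≤ mu * 8 ^ k)
    (massB : ∀ k < K, ∀ i, ∀ w' ∈ iv (K - k) (ix K x.1), ∀ y' ∈ iv (K - k) (ix K x.2.1),
      ∑ x0 ∈ iv k i, ∑ w ∈ iv k w', ∑ y ∈ iv k y', b x0 (k + 1) w y ⬝ᵥ b x0 (k + 1) w y ≤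
        mu * 8 ^ k)
    (packA : ∀ x0 : ℤ, ∑ k ∈ range K,
      H588G.cnt K (ix K x.2.2) (ix K x.2.1) k (QA k (ix k x0)) ≤ cP * 4 ^ K)
    (packB : ∀ x0 : ℤ, ∑ k ∈ range K,
      H588G.cnt K (ix K x.1) (ix K x.2.1) k (QB k (ix k x0)) ≤ cP * 4 ^ K)
    {h : ℝ} (hh : 0 < h) :
    PABg h ι Al o K (cx K x) sg l u A b C ≤ 4950 * (mu * (cP * 8 ^ K)) * h ^ 2 := by
  set DA : ℤ → ℝ := fun x0 => ∑ k ∈ range K, ∑ m ∈ iv (K - k) (ix K x.2.1),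
    ∑ n ∈ iv (K - k) (ix K x.2.2), (if QA k (ix k x0) n m then sqb k n m (A x0 (k + 1)) else 0)
  set DB : ℤ → ℝ := fun x0 => ∑ k ∈ range K, ∑ m ∈ iv (K - k) (ix K x.2.1),
    ∑ n ∈ iv (K - k) (ix K x.1), (if QB k (ix k x0) n m then sqv k n m (b x0 (k + 1)) else 0)
  have hDA : ∀ t, ∑ x0 ∈ iv K t, DA x0 ≤ mu * (cP * 8 ^ K) := fun t =>
    mass_x0 hmu (fun k hk i n hn m hm => by
      refine le_trans (le_of_eq ?_) (massA k hk i n hn m hm)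
      refine sum_congr rfl fun x0 _ => ?_
      unfold H736.sqb
      exact sum_comm) fun x0 _ => packA x0
  have hDB : ∀ t, ∑ x0 ∈ iv K t, DB x0 ≤ mu * (cP * 8 ^ K) := fun t =>
    mass_x0 hmu (fun k hk i n hn m hm => massB k hk i n hn m hm) fun x0 _ => packB x0
  have h1 : ∀ x0, ∑ k ∈ Icc 1 K, ∑ m ∈ sN Al o K (cx K x) x0 k,
      H408.rAB (A x0 k) (Bg (b x0 k)) k m h h ≤ 550 * (h ^ 2 * DA x0 + 2 * h ^ 2 * DB x0) := by
    intro x0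
    refine rAB_x0 (M := H677.rv (cx K x)) (H677.cP_pl ho x0)
      (Q := fun k n m => QA k (ix k x0) n m) (Q' := fun k n m => QB k (ix k x0) n m)
      (A := A x0) (b := b x0) (B := fun k _ => Bg (b x0 k))
      (fun k hk n _ m _ hq => agA k hk x0 n m hq) (fun k hk n _ m _ hq => agB k hk x0 n m hq)
      (zA x0) (zB x0) le_rfl le_rfl hh hh (fun k _ => H677.sN_sub Al o K (cx K x) x0 k)
      fun k _ m _ => ?_
    rw [QW_Bg, sub_self]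
    exact PosSemidef.zero
  have h2 : PABg h ι Al o K (cx K x) sg l u A b C ≤
      ∑ t ∈ rt (cx K x), 1650 * h ^ 2 * (mu * (cP * 8 ^ K)) := by
    unfold H228.Gauge.PABg H408.SN
    refine sum_le_sum fun t _ => ?_
    refine (sum_le_sum fun x0 _ => h1 x0).trans ?_
    rw [← mul_sum, sum_add_distrib, ← mul_sum, ← mul_sum]
    have a1 := mul_le_mul_of_nonneg_left (hDA t) (sq_nonneg h)
    have a2 := mul_le_mul_of_nonneg_left (hDB t) (sq_nonneg h)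
    linarith
  refine h2.trans ?_
  rw [sum_const, nsmul_eq_mul]
  have h3 : (rt (cx K x)).card = 3 := by
    unfold H677.rt
    rw [Int.card_Icc]
    omega
  rw [h3]
  refine le_of_eq ?_
  push_cast
  ring

/-- **The static pair for class data**, every level. -/
theorem PABg_cls {p : H401.Num} {n : ℕ} {e cP : ℝ} {F1 F3 : ℕ → Pt → ℝ} {Q1 Q3 : ℕ → Pt → Prop}
    {K : ℕ} {s r : ℝ} {U : Tri} {g : ℤ → ℤ → ℝ} {u v : ℤ → ℤ → ι → ℝ} {x : Pt} {P : ℝ}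
    (hB1 : BSl n e cP F1 Q1)
    (hB3 : BSl n e cP F3 Q3) (he : 0 ≤ e) (ht : 0 < p.t) (hs : 0 ≤ s) (hK : K ≤ n)
    (C : Cls K x s r P U g u v) {Al : ℕ → Pt → Prop} {o : ℤ} (ho : o = 1 ∨ o = -1)
    {sg : ℕ → Pt → ℝ} {l : ℝ} (Cf : FamV ι) {h : ℝ} (hh : 0 < h) :
    PABg h ι Al o K (cx K x) sg l u (cA p s r U K g F1 Q1) (cb p s r U K u F3 Q3) Cf ≤
      19800 * e * (cP + 2) * (p.t ^ (-p.d) * s * 8 ^ K) * h ^ 2 := by
  have h1 : 0 < p.t ^ (-p.d) := Real.rpow_pos_of_pos ht _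
  refine (PABg_le (QA := qA p U K Q1) (QB := qB p U K Q3) ho
    (mu := 4 * e * p.t ^ (-p.d) * s) (cP := cP + 2) (by positivity) (fun _ => rfl) (fun _ => rfl)
    (fun k hk x0 i m hQ z hz y hy => ?_) (fun k hk x0 i m hQ z hz y hy => ?_)
    (fun k hk i z' hz' y' hy' => mass_cA hB1 he ht hs hK C hk i hz' hy')
    (fun k hk i z' hz' y' hy' => mass_cb hB3 he ht hs hK C hk i hz' hy')
    (fun x0 => QD_root' (Dd_sst _ _ _) hB1 hK _ _ x0)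
    (fun x0 => QD_root (Dd_sst _ _ _) hB3 hK _ _ x0) hh).trans (le_of_eq (by ring))
  · exact congrFun (H205.lowF_off (Q := fun k n m => qA p U K Q1 k (ix k x0) n m) hQ hz hy) ()
  · exact H80.lowG_off (Q := fun k n m => qB p U K Q3 k (ix k x0) n m) hQ hz hy

/-- **LEAF: static pair** in the gauge. -/
def LABg : Prop := PairQ fun ι _ _ p _ ez F1 F2 F3 o K x s r U g u v Q1 _ Q3 X =>
  ∀ h, 0 < h → h ≤ H408.tauI p s r →
    PABg h ι (p.al U K) o K (cx K x) (fun _ _ => 0) (p.lam s r) u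
      (cA p s r U K g F1 Q1) (cb p s r U K u F3 Q3) (H408.C1 p ez U K v F2) ≤
      X * (s * 8 ^ K) * h ^ 2

/-- **Leaf `LABg`.** -/
theorem lABg : LABg := by
  unfold LABg PairQ
  intro a _ _
  refine ⟨1, one_pos, fun e0 _ _ => ⟨1, one_pos, fun k8 _ _ => ⟨1, one_pos, fun k3 _ _ δ hδ => ?_⟩⟩⟩
  refine ⟨1, δ, one_pos, hδ, fun c _ _ d hd hdδ Kt e cP L _ he hcP _ =>
    ⟨19800 * e * (cP + 2), by positivity, ?_⟩⟩
  intro t ht ht1 n ez F1 F2 F3 _ _ _ o ho K hK x ι _ _ s r U g u v hs hr hcls Q1 Q2 Q3 q1 _ q3 _ h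
    hh _
  refine (PABg_cls (p := ⟨a, e0, k8, k3, c, d, Kt, e, cP, L, 1, t⟩) q1 q3 (by linarith) ht
    hs.le hK hcls.toCls ho _ hh).trans ?_
  have h1 := td_le ht ht1 hr hd.le hdδ
  have h2 : (0 : ℝ) ≤ 19800 * e * (cP + 2) := by positivity
  calc 19800 * e * (cP + 2) * (t ^ (-d) * s * 8 ^ K) * h ^ 2
      ≤ 19800 * e * (cP + 2) * ((t / r) ^ (-δ) * s * 8 ^ K) * h ^ 2 := by gcongr
    _ = _ := by ring

end

end Vale.Agent.P141.H652
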