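import Vale.Agent.P141.H652.LabL
import Vale.Agent.P141.H688.LeafI2

/-!
# P141, line (A), (TI): the leaf `LAB0` of `H688.LeafI2`
-/

namespace Vale.Agent.P141.H652

open Finset Matrix
open Vale.Agent.P141.PL (Pt iv ix cx mem_iv)

noncomputable section

open scoped Classical

/-- **Leaf `LAB0`** for the bundle `H816.FD`. -/
theorem lab0 : H688.LeafX H816.FD H688.LAB0 := by
  unfold H688.LeafX H688.LAB0
  intro a _ _
  refine ⟨1, one_pos, fun e0 _ _ δ hδ => ⟨1, one_pos, fun k8 _ _ => ⟨1, one_pos, fun k3 _ _ => ?_⟩⟩⟩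
  refine ⟨1, δ, one_pos, hδ, fun c _ _ d hd hdδ Kt e cP L _ he hcP _ CD _ C0 _ =>
    ⟨19800 * e * (cP + 2), by nlinarith, ?_⟩⟩
  intro t ht ht1 n ez F1 F2 F3 _ _ _ _ o ho K hK x ι _ _ s r U g u v hs hr hcls A b Cf hD h hh _
  obtain ⟨Q1, Q2, Q3, q1, q2, q3, rfl, rfl, rfl⟩ := hD
  have hbe : 0 < H688.wB ⟨a, e0, k8, k3, c, d, Kt, e, cP, L, CD, t⟩ r :=
    Real.rpow_pos_of_pos (div_pos ht (by linarith)) _
  have hl : 0 < H401.Num.lam ⟨a, e0, k8, k3, c, d, Kt, e, cP, L, CD, t⟩ s r :=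
    H401.Num.lam_pos ht hs hr
  refine (PAB_cls (p := ⟨a, e0, k8, k3, c, d, Kt, e, cP, L, CD, t⟩) q1 q3 (by linarith) ht
    hs.le hK hcls.toCls ho hbe hl _ hh).trans ?_
  have h1 := td_le ht ht1 hr hd.le hdδ
  have h2 : (0 : ℝ) ≤ 19800 * e * (cP + 2) := by positivity
  calc 19800 * e * (cP + 2) * (t ^ (-d) * s * 8 ^ K) * h ^ 2
      ≤ 19800 * e * (cP + 2) * ((t / r) ^ (-δ) * s * 8 ^ K) * h ^ 2 := by gcongr
    _ = _ := by
      unfold H688.yy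
      ring

end

end Vale.Agent.P141.H652
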