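import Vale.Agent.P141.H922.HaarSh
import Vale.Agent.P141.PL.Defs
import Vale.Agent.P141.PL.H588.Split

/-!
# P141, line (A), (P1): the increasing slot as an `x₃`-martingale plus a monotone part

`w k q` the weight (`1 - S`, or `(1 - S) v`) at the `x₂`-cell `q` of scale `k`,
`w k (2q) + w k (2q+1) = 2 (w (k+1) q - E (k+1) q)` (`E ≥ 0` the drift).
`gw k y = w 0 y + SUM_(1 ≤ j ≤ k) E j (y / 2 ^ j)`, `Fw k a` = average of `gw k` over the window
`[a, a + 2 ^ k)`.

* `Fw_half` : the mean of the two half windows is `Fw (k + 1) a - eb (k + 1) a`, exactly;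
* `Fw_cell` : over a cell the average is `w k q`;
* `Fw_psd`, `Fw_le` : `0 ≤ Fw k a ≤ w k q + w k (q + 1)`, `q = a / 2 ^ k` (matrices);
* `near_sum` : `|Fw k a - w k m|²`, `a / 2 ^ k ∈ [m - 2, m]`, and the half differences are dominated
  by a function of the cell which is square summable over all scales.
-/

namespace Vale.Agent.P141.H652

open Finset Vale.Agent.P141.PL Vale.Agent.P141.H922.Sh
open scoped ENNReal

noncomputable section

/-! ### Exact identities -/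

section mod

variable {β : Type*} [AddCommGroup β] [Module ℝ β]

/-- tree with drift -/
def Drift (N : ℕ) (w E : ℕ → ℤ → β) : Prop :=
  ∀ k, k < N → ∀ q, w k (2 * q) + w k (2 * q + 1) = (2 : ℝ) • (w (k + 1) q - E (k + 1) q)

/-- the density at time `k` -/
def gw (w E : ℕ → ℤ → β) (k : ℕ) (y : ℤ) : β := w 0 y + ∑ j ∈ Icc 1 k, E j (y / 2 ^ j)

/-- window average -/
def Fw (w E : ℕ → ℤ → β) (k : ℕ) (a : ℤ) : β :=
  ((2 : ℝ) ^ k)⁻¹ • ∑ y ∈ range (2 ^ k), gw w E k (a + y)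

/-- the drift over a window -/
def ebw (E : ℕ → ℤ → β) (k : ℕ) (a : ℤ) : β :=
  ((2 : ℝ) ^ k)⁻¹ • ∑ y ∈ range (2 ^ k), E k ((a + y) / 2 ^ k)

omit [Module ℝ β] in
theorem gw_succ (w E : ℕ → ℤ → β) (k : ℕ) (y : ℤ) :
    gw w E (k + 1) y = gw w E k y + E (k + 1) (y / 2 ^ (k + 1)) := by
  unfold gw
  rw [Finset.sum_Icc_succ_top (by omega), add_assoc]

/-- **The mean of the two halves**: no first order term. -/
theorem Fw_half (w E : ℕ → ℤ → β) (k : ℕ) (a : ℤ) :
    Fw w E k a + Fw w E k (a + 2 ^ k) = (2 : ℝ) • (Fw w E (k + 1) a - ebw E (k + 1) a) := by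
  have h1 : Fw w E (k + 1) a - ebw E (k + 1) a
      = ((2 : ℝ) ^ (k + 1))⁻¹ • ∑ y ∈ range (2 ^ (k + 1)), gw w E k (a + y) := by
    unfold Fw ebw
    rw [← smul_sub, ← Finset.sum_sub_distrib]
    refine congrArg _ (Finset.sum_congr rfl fun y _ => ?_)
    rw [gw_succ, add_sub_cancel_right]
  have e : (2 ^ (k + 1) : ℕ) = 2 ^ k + 2 ^ k := by ring
  rw [h1, e, Finset.sum_range_add, smul_smul]
  unfold Fw
  have h2 : (2 : ℝ) * (2 ^ (k + 1))⁻¹ = (2 ^ k)⁻¹ := by
    rw [pow_succ, mul_inv]; ring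
  rw [← smul_add, h2]
  refine congrArg _ (congrArg _ (Finset.sum_congr rfl fun y _ => ?_))
  push_cast
  rw [add_assoc]

/-- over a cell the density averages to `w` -/
theorem sum_cell {N : ℕ} {w E : ℕ → ℤ → β} (h : Drift N w E) (k : ℕ) (hk : k ≤ N) (q : ℤ) :
    ∑ y ∈ range (2 ^ k), gw w E k (2 ^ k * q + y) = ((2 : ℝ) ^ k) • w k q := by
  induction k generalizing q with
  | zero => simp [gw]
  | succ k ih =>
    have h1 := ih (by omega) (2 * q)
    have h2 := ih (by omega) (2 * q + 1)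
    have h3 := h k (by omega) q
    have e0 : ∀ y ∈ range (2 ^ (k + 1)), gw w E (k + 1) (2 ^ (k + 1) * q + y)
        = gw w E k (2 ^ (k + 1) * q + y) + E (k + 1) q := by
      intro y hy
      have hy' : (y : ℤ) < 2 ^ (k + 1) := by exact_mod_cast mem_range.1 hy
      rw [gw_succ, Int.mul_add_ediv_left _ _ (by positivity),
        Int.ediv_eq_zero_of_lt (by positivity) hy', add_zero]
    rw [Finset.sum_congr rfl e0, Finset.sum_add_distrib, Finset.sum_const, card_range,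
      pow_succ 2 k, show (2 ^ k * 2 : ℕ) = 2 ^ k + 2 ^ k by ring, Finset.sum_range_add]
    have e1 : ∀ y ∈ range (2 ^ k), gw w E k ((2 : ℤ) ^ (k + 1) * q + (y : ℤ))
        = gw w E k (2 ^ k * (2 * q) + y) := by
      intro y _
      congr 1
      ring
    have e2 : ∀ y ∈ range (2 ^ k), gw w E k ((2 : ℤ) ^ (k + 1) * q + ((2 ^ k + y : ℕ) : ℤ))
        = gw w E k (2 ^ k * (2 * q + 1) + y) := by
      intro y _
      congr 1
      push_cast
      ring
    rw [Finset.sum_congr rfl e1, Finset.sum_congr rfl e2, h1, h2, ← smul_add, h3,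
      ← Nat.cast_smul_eq_nsmul ℝ, smul_smul, smul_sub]
    have e3 : (2 : ℝ) ^ k * 2 = 2 ^ (k + 1) := by ring
    push_cast
    rw [e3, show (2 : ℝ) ^ k + 2 ^ k = 2 ^ (k + 1) by ring]
    abel

theorem Fw_cell {N : ℕ} {w E : ℕ → ℤ → β} (h : Drift N w E) {k : ℕ} (hk : k ≤ N) (q : ℤ) :
    Fw w E k (2 ^ k * q) = w k q := by
  unfold Fw
  rw [sum_cell h k hk, smul_smul, inv_mul_cancel₀ (by positivity), one_smul]

end mod

/-! ### Scalar version: the window against the cell -/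

variable {N : ℕ} {w E : ℕ → ℤ → ℝ}

/-- half difference -/
def dw (w : ℕ → ℤ → ℝ) (k : ℕ) (q : ℤ) : ℝ := (w (k - 1) (2 * q) - w (k - 1) (2 * q + 1)) / 2

/-- error of the linear interpolation inside the cell -/
def Ei (w E : ℕ → ℤ → ℝ) (k : ℕ) (q : ℤ) (r : ℕ) : ℝ :=
  (2 ^ k)⁻¹ * ∑ y ∈ range r, gw w E k (2 ^ k * q + y) - r / 2 ^ k * w k q

/-- its majorant -/
def Mx (w : ℕ → ℤ → ℝ) : ℕ → ℤ → ℝ
  | 0, _ => 0
  | k + 1, q => (1 / 3) * (Mx w k (2 * q) + Mx w k (2 * q + 1)) + dw w (k + 1) q ^ 2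

theorem Mx_nonneg (w : ℕ → ℤ → ℝ) : ∀ k q, 0 ≤ Mx w k q := by
  intro k
  induction k with
  | zero => intro q; exact le_rfl
  | succ k ih =>
    intro q
    have h1 := ih (2 * q)
    have h2 := ih (2 * q + 1)
    unfold Mx
    positivity

theorem Ei_low (h : Drift N w E) {k : ℕ} (hk : k < N) (q : ℤ) {r : ℕ} (hr : r ≤ 2 ^ k) :
    Ei w E (k + 1) q r = (1 / 2) * Ei w E k (2 * q) r + r / 2 ^ (k + 1) * dw w (k + 1) q := by
  have h3 := h k hk q
  simp only [smul_eq_mul] at h3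
  unfold Ei dw
  have e0 : ∀ y ∈ range r, gw w E (k + 1) (2 ^ (k + 1) * q + y)
      = gw w E k (2 ^ k * (2 * q) + y) + E (k + 1) q := by
    intro y hy
    have hy1 : y < 2 ^ (k + 1) := by
      have := mem_range.1 hy
      have : 2 ^ (k + 1) = 2 ^ k + 2 ^ k := by ring
      omega
    have hy' : (y : ℤ) < 2 ^ (k + 1) := by exact_mod_cast hy1
    rw [gw_succ, Int.mul_add_ediv_left _ _ (by positivity),
      Int.ediv_eq_zero_of_lt (by positivity) hy', add_zero]
    congr 2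
    ring
  rw [Finset.sum_congr rfl e0, Finset.sum_add_distrib, Finset.sum_const, card_range, nsmul_eq_mul]
  simp only [Nat.add_sub_cancel]
  have h4 : E (k + 1) q = w (k + 1) q - (w k (2 * q) + w k (2 * q + 1)) / 2 := by linarith
  rw [h4, pow_succ]
  field_simp
  ring

theorem Ei_high (h : Drift N w E) {k : ℕ} (hk : k < N) (q : ℤ) {r : ℕ} (hr : r ≤ 2 ^ k) :
    Ei w E (k + 1) q (2 ^ k + r)
      = (1 / 2) * Ei w E k (2 * q + 1) r + (1 - (2 ^ k + r) / 2 ^ (k + 1)) * dw w (k + 1) q := by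
  have h3 := h k hk q
  simp only [smul_eq_mul] at h3
  have h5 := sum_cell h k hk.le (2 * q)
  simp only [smul_eq_mul] at h5
  unfold Ei dw
  have e0 : ∀ y ∈ range (2 ^ k + r), gw w E (k + 1) (2 ^ (k + 1) * q + y)
      = gw w E k (2 ^ (k + 1) * q + y) + E (k + 1) q := by
    intro y hy
    have hy1 : y < 2 ^ (k + 1) := by
      have := mem_range.1 hy
      have : 2 ^ (k + 1) = 2 ^ k + 2 ^ k := by ring
      omega
    have hy' : (y : ℤ) < 2 ^ (k + 1) := by exact_mod_cast hy1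
    rw [gw_succ, Int.mul_add_ediv_left _ _ (by positivity),
      Int.ediv_eq_zero_of_lt (by positivity) hy', add_zero]
  rw [Finset.sum_congr rfl e0, Finset.sum_add_distrib, Finset.sum_const, card_range, nsmul_eq_mul,
    Finset.sum_range_add]
  have e1 : ∀ y ∈ range (2 ^ k), gw w E k ((2 : ℤ) ^ (k + 1) * q + (y : ℤ))
      = gw w E k (2 ^ k * (2 * q) + y) := by
    intro y _
    congr 1
    ring
  have e2 : ∀ y ∈ range r, gw w E k ((2 : ℤ) ^ (k + 1) * q + ((2 ^ k + y : ℕ) : ℤ))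
      = gw w E k (2 ^ k * (2 * q + 1) + y) := by
    intro y _
    congr 1
    push_cast
    ring
  rw [Finset.sum_congr rfl e1, Finset.sum_congr rfl e2, h5]
  simp only [Nat.add_sub_cancel]
  have h4 : E (k + 1) q = w (k + 1) q - (w k (2 * q) + w k (2 * q + 1)) / 2 := by linarith
  rw [h4, pow_succ]
  push_cast
  field_simp
  ring

theorem Ei_sq_le (h : Drift N w E) : ∀ k, k ≤ N → ∀ q (r : ℕ), r ≤ 2 ^ k →
    Ei w E k q r ^ 2 ≤ Mx w k q := by
  intro k
  induction k with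
  | zero =>
    intro _ q r hr
    have : r = 0 ∨ r = 1 := by omega
    rcases this with rfl | rfl <;> simp [Ei, Mx, gw]
  | succ k ih =>
    intro hk q r hr
    have key : ∀ x θ d : ℝ, |θ| ≤ 1 / 2 → ((1 / 2) * x + θ * d) ^ 2 ≤ (1 / 3) * x ^ 2 + d ^ 2 := by
      intro x θ d hθ
      have h1 := abs_le.1 hθ
      have h2 : θ ^ 2 ≤ 1 / 4 := by nlinarith
      nlinarith [sq_nonneg (x - 6 * (θ * d)), mul_nonneg (sq_nonneg d) (sub_nonneg.2 h2)]
    rcases le_total r (2 ^ k) with h1 | h1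
    · rw [Ei_low h (by omega) q h1]
      have h2 := ih (by omega) (2 * q) r h1
      have h3 := Mx_nonneg w k (2 * q + 1)
      have h4 : |(r : ℝ) / 2 ^ (k + 1)| ≤ 1 / 2 := by
        rw [abs_of_nonneg (by positivity), div_le_iff₀ (by positivity)]
        have : (r : ℝ) ≤ 2 ^ k := by exact_mod_cast h1
        rw [pow_succ]
        linarith
      have h5 := key (Ei w E k (2 * q) r) _ (dw w (k + 1) q) h4
      rw [Mx]
      linarith
    · obtain ⟨r', rfl⟩ := Nat.exists_eq_add_of_le h1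
      have h1' : r' ≤ 2 ^ k := by
        have : 2 ^ (k + 1) = 2 ^ k + 2 ^ k := by ring
        omega
      rw [Ei_high h (by omega) q h1']
      have h2 := ih (by omega) (2 * q + 1) r' h1'
      have h3 := Mx_nonneg w k (2 * q)
      have h4 : |1 - ((2 : ℝ) ^ k + r') / 2 ^ (k + 1)| ≤ 1 / 2 := by
        have h6 : (0 : ℝ) ≤ r' := Nat.cast_nonneg _
        have h7 : (r' : ℝ) ≤ 2 ^ k := by exact_mod_cast h1'
        have h8 : (0 : ℝ) < 2 ^ (k + 1) := by positivity
        rw [abs_le]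
        constructor
        · have : ((2 : ℝ) ^ k + r') / 2 ^ (k + 1) ≤ 3 / 2 := by
            rw [div_le_iff₀ h8, pow_succ]; nlinarith [pow_pos (show (0:ℝ) < 2 by norm_num) k]
          linarith
        · have : (1 : ℝ) / 2 ≤ ((2 : ℝ) ^ k + r') / 2 ^ (k + 1) := by
            rw [le_div_iff₀ h8, pow_succ]; linarith
          linarith
      have h5 := key (Ei w E k (2 * q + 1) r') _ (dw w (k + 1) q) h4
      rw [Mx]
      linarith

/-- the window average, exact -/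
theorem Fw_window (h : Drift N w E) {k : ℕ} (hk : k ≤ N) (q : ℤ) {r : ℕ} (hr : r ≤ 2 ^ k) :
    Fw w E k (2 ^ k * q + r) - w k q
      = r / 2 ^ k * (w k (q + 1) - w k q) + Ei w E k (q + 1) r - Ei w E k q r := by
  obtain ⟨s, hs⟩ := Nat.exists_eq_add_of_le hr
  have h1 := sum_cell h k hk q
  simp only [smul_eq_mul] at h1
  unfold Fw Ei
  rw [smul_eq_mul]
  -- split the window
  have e1 : ∑ y ∈ range (2 ^ k), gw w E k (2 ^ k * q + r + y)
      = ∑ y ∈ range s, gw w E k (2 ^ k * q + ((r + y : ℕ) : ℤ))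
        + ∑ y ∈ range r, gw w E k (2 ^ k * (q + 1) + y) := by
    rw [hs, add_comm r s, Finset.sum_range_add]
    congr 1
    · refine Finset.sum_congr rfl fun y _ => ?_
      push_cast
      rw [add_assoc]
    · refine Finset.sum_congr rfl fun y _ => ?_
      have : ((2 : ℤ) ^ k) = r + s := by exact_mod_cast hs
      congr 1
      push_cast
      linear_combination (-1 : ℤ) * this
  have e2 : ∑ y ∈ range (2 ^ k), gw w E k (2 ^ k * q + y)
      = ∑ y ∈ range r, gw w E k (2 ^ k * q + y)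
        + ∑ y ∈ range s, gw w E k (2 ^ k * q + ((r + y : ℕ) : ℤ)) := by
    rw [hs, Finset.sum_range_add]
  rw [e2] at h1
  rw [e1]
  have h2 : ∑ y ∈ range s, gw w E k (2 ^ k * q + ((r + y : ℕ) : ℤ))
      = 2 ^ k * w k q - ∑ y ∈ range r, gw w E k (2 ^ k * q + y) := by linarith
  rw [h2]
  field_simp
  ring

/-! ### Majorants on the cell -/

/-- neighbour difference -/
def nb (w : ℕ → ℤ → ℝ) (k : ℕ) (q : ℤ) : ℝ := w k (q + 1) - w k q

/-- majorant of `(Fw k a - w k q) ^ 2`, `q = a / 2 ^ k` -/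
def Bv (w : ℕ → ℤ → ℝ) (k : ℕ) (q : ℤ) : ℝ := 3 * (nb w k q ^ 2 + Mx w k q + Mx w k (q + 1))

/-- majorant of `(Fw k a - w k m) ^ 2`, `m - 2 ≤ a / 2 ^ k ≤ m` -/
def Nr (w : ℕ → ℤ → ℝ) (k : ℕ) (m : ℤ) : ℝ :=
  2 * (Bv w k m + Bv w k (m - 1) + Bv w k (m - 2)) + 4 * (nb w k (m - 1) ^ 2 + nb w k (m - 2) ^ 2)

/-- majorant of the half difference on the node `m` of scale `k + 1` -/
def Hd (w : ℕ → ℤ → ℝ) (k : ℕ) (m : ℤ) : ℝ :=
  ∑ i ∈ range 7, (Bv w (k - 1) (2 * m - 4 + i) + nb w (k - 1) (2 * m - 4 + i) ^ 2)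

theorem Bv_nonneg (w : ℕ → ℤ → ℝ) (k : ℕ) (q : ℤ) : 0 ≤ Bv w k q := by
  have h1 := Mx_nonneg w k q
  have h2 := Mx_nonneg w k (q + 1)
  unfold Bv
  positivity

theorem Nr_nonneg (w : ℕ → ℤ → ℝ) (k : ℕ) (m : ℤ) : 0 ≤ Nr w k m := by
  have h1 := Bv_nonneg w k m
  have h2 := Bv_nonneg w k (m - 1)
  have h3 := Bv_nonneg w k (m - 2)
  unfold Nr
  positivity

theorem Hd_nonneg (w : ℕ → ℤ → ℝ) (k : ℕ) (m : ℤ) : 0 ≤ Hd w k m :=
  Finset.sum_nonneg fun _ _ => add_nonneg (Bv_nonneg _ _ _) (sq_nonneg _)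

theorem near_cell (h : Drift N w E) {k : ℕ} (hk : k ≤ N) (a : ℤ) :
    (Fw w E k a - w k (a / 2 ^ k)) ^ 2 ≤ Bv w k (a / 2 ^ k) := by
  set q := a / 2 ^ k with hq
  have h0 : (0 : ℤ) < 2 ^ k := by positivity
  have h1 : 0 ≤ a % 2 ^ k := Int.emod_nonneg _ h0.ne'
  have h2 : a % 2 ^ k < 2 ^ k := Int.emod_lt_of_pos _ h0
  obtain ⟨r, hr⟩ := Int.eq_ofNat_of_zero_le h1
  have hr' : r ≤ 2 ^ k := by
    have : (r : ℤ) < 2 ^ k := by rw [← hr]; exact h2
    exact_mod_cast this.le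
  have ha : a = 2 ^ k * q + r := by rw [← hr, hq]; exact (Int.mul_ediv_add_emod a (2 ^ k)).symm
  have e1 := Fw_window h hk q hr'
  rw [← ha] at e1
  rw [e1]
  have e2 := Ei_sq_le h k hk (q + 1) r hr'
  have e3 := Ei_sq_le h k hk q r hr'
  set θ : ℝ := (r : ℝ) / 2 ^ k with hθ
  have t0 : 0 ≤ θ := by positivity
  have t1 : θ ≤ 1 := by
    rw [hθ, div_le_one (by positivity)]
    exact_mod_cast hr'
  have t2 : (θ * (w k (q + 1) - w k q)) ^ 2 ≤ nb w k q ^ 2 := by
    unfold nb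
    rw [mul_pow]
    have : θ ^ 2 ≤ 1 := pow_le_one₀ t0 t1
    nlinarith [sq_nonneg (w k (q + 1) - w k q)]
  unfold Bv
  generalize θ * (w k (q + 1) - w k q) = x at *
  generalize Ei w E k (q + 1) r = y at *
  generalize Ei w E k q r = z at *
  nlinarith [sq_nonneg (x - y), sq_nonneg (x + z), sq_nonneg (y + z)]

theorem near_node (h : Drift N w E) {k : ℕ} (hk : k ≤ N) {a m : ℤ} (h1 : m - 2 ≤ a / 2 ^ k)
    (h2 : a / 2 ^ k ≤ m) : (Fw w E k a - w k m) ^ 2 ≤ Nr w k m := by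
  have e1 := near_cell h hk a
  have b0 := Bv_nonneg w k m
  have b1 := Bv_nonneg w k (m - 1)
  have b2 := Bv_nonneg w k (m - 2)
  have n1 := sq_nonneg (nb w k (m - 1))
  have n2 := sq_nonneg (nb w k (m - 2))
  have key : ∀ x y z : ℝ, (x - z) ^ 2 ≤ 2 * (x - y) ^ 2 + 2 * (y - z) ^ 2 := fun x y z => by
    nlinarith [sq_nonneg (x - 2 * y + z)]
  have hc : a / 2 ^ k = m ∨ a / 2 ^ k = m - 1 ∨ a / 2 ^ k = m - 2 := by omega
  unfold Nr
  rcases hc with hc | hc | hc <;> rw [hc] at e1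
  · nlinarith [sq_nonneg (Fw w E k a - w k m)]
  · have e2 := key (Fw w E k a) (w k (m - 1)) (w k m)
    have e3 : (w k (m - 1) - w k m) ^ 2 = nb w k (m - 1) ^ 2 := by
      unfold nb
      rw [show m - 1 + 1 = m by ring]
      ring
    rw [e3] at e2
    linarith
  · have e2 := key (Fw w E k a) (w k (m - 2)) (w k m)
    have e3 : (w k (m - 2) - w k m) ^ 2 ≤ 2 * nb w k (m - 1) ^ 2 + 2 * nb w k (m - 2) ^ 2 := by
      unfold nb
      rw [show m - 1 + 1 = m by ring, show m - 2 + 1 = m - 1 by ring]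
      nlinarith [sq_nonneg (w k m - 2 * w k (m - 1) + w k (m - 2))]
    linarith

theorem half_node (h : Drift N w E) {k : ℕ} (hk : k ≤ N) {a m : ℤ}
    (h1 : m - 2 ≤ a / 2 ^ (k + 1)) (h2 : a / 2 ^ (k + 1) ≤ m) :
    (1 / 2 * (Fw w E k a - Fw w E k (a + 2 ^ k))) ^ 2 ≤ Hd w (k + 1) m := by
  set q := a / 2 ^ k with hq
  have hq2 : a / 2 ^ (k + 1) = q / 2 := by
    rw [hq, Int.ediv_ediv_of_nonneg (by positivity), ← pow_succ]
  rw [hq2] at h1 h2
  have e1 := near_cell h hk a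
  have e2 := near_cell h hk (a + 2 ^ k)
  have e3 : (a + 2 ^ k) / 2 ^ k = q + 1 := by
    rw [Int.add_ediv_of_dvd_right (dvd_refl _), Int.ediv_self (by positivity)]
  rw [e3] at e2
  rw [← hq] at e1
  have key : (1 / 2 * (Fw w E k a - Fw w E k (a + 2 ^ k))) ^ 2
      ≤ Bv w k q + Bv w k (q + 1) + nb w k q ^ 2 := by
    unfold nb
    generalize Fw w E k a = x at *
    generalize Fw w E k (a + 2 ^ k) = y at *
    generalize w k q = u at *
    generalize w k (q + 1) = v at *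
    nlinarith [sq_nonneg ((x - u) - (u - v)), sq_nonneg ((x - u) - (v - y)),
      sq_nonneg ((u - v) - (v - y))]
  refine key.trans ?_
  obtain ⟨i, hi⟩ : ∃ i : ℕ, q = 2 * m - 4 + i := ⟨(q - (2 * m - 4)).toNat, by omega⟩
  have hi6 : i < 6 := by omega
  unfold Hd
  rw [Nat.add_sub_cancel]
  have f0 : ∀ j ∈ range 7, 0 ≤ Bv w k (2 * m - 4 + (j : ℕ)) + nb w k (2 * m - 4 + (j : ℕ)) ^ 2 :=
    fun j _ => add_nonneg (Bv_nonneg _ _ _) (sq_nonneg _)
  have hsub : ({i, i + 1} : Finset ℕ) ⊆ range 7 := by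
    intro j hj
    simp only [mem_insert, mem_singleton] at hj
    rw [mem_range]
    omega
  refine le_trans ?_ (Finset.sum_le_sum_of_subset_of_nonneg hsub fun j hj _ => f0 j hj)
  rw [Finset.sum_pair (by omega), ← hi]
  have e4 : 2 * m - 4 + ((i + 1 : ℕ) : ℤ) = q + 1 := by push_cast; rw [hi]; ring
  rw [e4]
  have := sq_nonneg (nb w k (q + 1))
  linarith

/-! ### Sums over the line -/

/-- the sum over the line -/
def tm (f : ℤ → ℝ) : ℝ≥0∞ := ∑' q : ℤ, ENNReal.ofReal (f q)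

theorem sm_eq_tm (h : ℤ → ℝ) : sm h = tm fun q => h q ^ 2 := rfl

theorem tm_add {f g : ℤ → ℝ} (hf : ∀ q, 0 ≤ f q) (hg : ∀ q, 0 ≤ g q) :
    tm (fun q => f q + g q) = tm f + tm g := by
  unfold tm
  rw [← ENNReal.tsum_add]
  exact tsum_congr fun q => ENNReal.ofReal_add (hf q) (hg q)

theorem tm_mul (c : ℝ) (hc : 0 ≤ c) (f : ℤ → ℝ) :
    tm (fun q => c * f q) = ENNReal.ofReal c * tm f := by
  unfold tm
  rw [← ENNReal.tsum_mul_left]
  exact tsum_congr fun q => ENNReal.ofReal_mul hc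

theorem tm_shift (f : ℤ → ℝ) (i : ℤ) : tm (fun q => f (q + i)) = tm f :=
  (Equiv.addRight i).tsum_eq (fun q => ENNReal.ofReal (f q))

theorem tm_dbl (f : ℤ → ℝ) (i : ℤ) : tm (fun q => f (2 * q + i)) ≤ tm f :=
  ENNReal.tsum_comp_le_tsum_of_injective (f := fun q : ℤ => 2 * q + i)
    (fun a b hab => by simpa using hab) fun q => ENNReal.ofReal (f q)

theorem tm_even_odd (f : ℤ → ℝ) :
    tm f = tm (fun q => f (2 * q)) + tm fun q => f (2 * q + 1) :=
  tsum_even_odd fun q => ENNReal.ofReal (f q)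

/-- the total energy -/
def En (N : ℕ) (w E : ℕ → ℤ → ℝ) : ℝ≥0∞ :=
  2 ^ N * sm (w N) + ∑ k ∈ range N, 2 ^ (k + 1) * (sm (dw w (k + 1)) + sm (E (k + 1)))

theorem nb_rec (h : Drift N w E) {k : ℕ} (hk : k < N) :
    2 * sm (nb w k) ≤ 3 * sm (nb w (k + 1)) + 56 * sm (dw w (k + 1)) + 48 * sm (E (k + 1)) := by
  have e1 : ∀ q, nb w k (2 * q) = -2 * dw w (k + 1) q := fun q => by
    unfold nb dw
    simp only [Nat.add_sub_cancel]
    ring
  have e2 : ∀ q, nb w k (2 * q + 1) = nb w (k + 1) q + (E (k + 1) q - E (k + 1) (q + 1))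
      + (dw w (k + 1) q + dw w (k + 1) (q + 1)) := fun q => by
    have h1 := h k hk q
    have h2 := h k hk (q + 1)
    simp only [smul_eq_mul] at h1 h2
    unfold nb dw
    simp only [Nat.add_sub_cancel]
    rw [show 2 * q + 1 + 1 = 2 * (q + 1) by ring]
    linarith
  rw [sm_even_odd (nb w k), mul_add]
  have f1 : 2 * sm (fun q => nb w k (2 * q)) ≤ 8 * sm (dw w (k + 1)) := by
    have := sm_le2 (h := fun q => nb w k (2 * q)) (g := dw w (k + 1)) (r := fun _ => 0) 2 8 0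
      fun q => by
        simp only [e1]
        push_cast
        nlinarith
    simpa using this
  have f2 : 2 * sm (fun q => nb w k (2 * q + 1))
      ≤ 3 * sm (nb w (k + 1)) + 48 * sm (dw w (k + 1)) + 48 * sm (E (k + 1)) := by
    have g1 : 2 * sm (fun q => nb w k (2 * q + 1)) ≤ 3 * sm (nb w (k + 1))
        + 12 * sm (fun q => E (k + 1) q - E (k + 1) (q + 1))
        + 12 * sm (fun q => dw w (k + 1) q + dw w (k + 1) (q + 1)) := by
      have := sm_le3 (h := fun q => nb w k (2 * q + 1)) (g := nb w (k + 1))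
        (r := fun q => E (k + 1) q - E (k + 1) (q + 1))
        (u := fun q => dw w (k + 1) q + dw w (k + 1) (q + 1)) 2 3 12 12 fun q => by
          simp only [e2]
          push_cast
          generalize nb w (k + 1) q = x
          generalize E (k + 1) q - E (k + 1) (q + 1) = y
          generalize dw w (k + 1) q + dw w (k + 1) (q + 1) = z
          nlinarith [sq_nonneg (x - 2 * (y + z)), sq_nonneg (y - z)]
      simpa using this
    have g2 : sm (fun q => E (k + 1) q - E (k + 1) (q + 1)) ≤ 4 * sm (E (k + 1)) := by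
      have := sm_le2 (h := fun q => E (k + 1) q - E (k + 1) (q + 1)) (g := E (k + 1))
        (r := fun q => E (k + 1) (q + 1)) 1 2 2 fun q => by
          push_cast
          nlinarith [sq_nonneg (E (k + 1) q + E (k + 1) (q + 1))]
      rw [sm_shift] at this
      simp only [Nat.cast_one, one_mul, Nat.cast_ofNat] at this
      refine this.trans (le_of_eq (by ring))
    have g3 : sm (fun q => dw w (k + 1) q + dw w (k + 1) (q + 1)) ≤ 4 * sm (dw w (k + 1)) := by
      have := sm_le2 (h := fun q => dw w (k + 1) q + dw w (k + 1) (q + 1)) (g := dw w (k + 1))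
        (r := fun q => dw w (k + 1) (q + 1)) 1 2 2 fun q => by
          push_cast
          nlinarith [sq_nonneg (dw w (k + 1) q - dw w (k + 1) (q + 1))]
      rw [sm_shift] at this
      simp only [Nat.cast_one, one_mul, Nat.cast_ofNat] at this
      refine this.trans (le_of_eq (by ring))
    calc _ ≤ _ := g1
      _ ≤ 3 * sm (nb w (k + 1)) + 12 * (4 * sm (E (k + 1))) + 12 * (4 * sm (dw w (k + 1))) := by
        gcongr
      _ = _ := by ring
  calc _ ≤ 8 * sm (dw w (k + 1)) + (3 * sm (nb w (k + 1)) + 48 * sm (dw w (k + 1))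
        + 48 * sm (E (k + 1))) := add_le_add f1 f2
    _ = _ := by ring

theorem nb_sum (h : Drift N w E) :
    ∑ k ∈ range (N + 1), 2 ^ k * sm (nb w k) ≤ 64 * En N w E := by
  have h1 := sum_down N (fun k => 2 ^ k * sm (nb w k))
    (fun k => 2 * (2 ^ (k + 1) * (sm (dw w (k + 1)) + sm (E (k + 1))))) fun k hk => by
      have h2 := nb_rec h hk
      calc 4 * (2 ^ k * sm (nb w k)) = 2 ^ (k + 1) * (2 * sm (nb w k)) := by ring
        _ ≤ 2 ^ (k + 1) * (3 * sm (nb w (k + 1)) + 56 * sm (dw w (k + 1)) + 48 * sm (E (k + 1))) := by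
          gcongr
        _ ≤ 2 ^ (k + 1) * (3 * sm (nb w (k + 1)) + 64 * sm (dw w (k + 1)) + 64 * sm (E (k + 1))) := by
          gcongr <;> norm_num
        _ = _ := by ring
  have h3 : sm (nb w N) ≤ 4 * sm (w N) := by
    have := sm_le2 (h := nb w N) (g := fun q => w N (q + 1)) (r := w N) 1 2 2 fun q => by
      unfold nb
      push_cast
      nlinarith [sq_nonneg (w N (q + 1) + w N q)]
    rw [sm_shift] at this
    simp only [Nat.cast_one, one_mul, Nat.cast_ofNat] at this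
    refine this.trans (le_of_eq (by ring))
  rw [sum_range_succ]
  unfold En
  calc ∑ k ∈ range N, 2 ^ k * sm (nb w k) + 2 ^ N * sm (nb w N)
      ≤ (∑ k ∈ range N, 2 ^ k * sm (nb w k) + 3 * (2 ^ 0 * sm (nb w 0))) + 2 ^ N * sm (nb w N) := by
        gcongr
        exact le_self_add
    _ ≤ (3 * (2 ^ N * sm (nb w N)) + 32 * ∑ k ∈ range N,
        2 * (2 ^ (k + 1) * (sm (dw w (k + 1)) + sm (E (k + 1))))) + 2 ^ N * sm (nb w N) := by
        gcongr
    _ = 4 * (2 ^ N * sm (nb w N)) + 64 * ∑ k ∈ range N,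
        2 ^ (k + 1) * (sm (dw w (k + 1)) + sm (E (k + 1))) := by
        rw [← Finset.mul_sum]; ring
    _ ≤ 4 * (2 ^ N * (4 * sm (w N))) + 64 * ∑ k ∈ range N,
        2 ^ (k + 1) * (sm (dw w (k + 1)) + sm (E (k + 1))) := by gcongr
    _ ≤ 64 * (2 ^ N * sm (w N)) + 64 * ∑ k ∈ range N,
        2 ^ (k + 1) * (sm (dw w (k + 1)) + sm (E (k + 1))) := by
        refine add_le_add ?_ le_rfl
        calc 4 * (2 ^ N * (4 * sm (w N))) = 16 * (2 ^ N * sm (w N)) := by ring
          _ ≤ _ := by gcongr; norm_num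
    _ = _ := by ring

theorem Mx_rec (w : ℕ → ℤ → ℝ) (k : ℕ) :
    3 * tm (Mx w (k + 1)) = tm (Mx w k) + 3 * sm (dw w (k + 1)) := by
  have e1 : Mx w (k + 1) = fun q => (1 / 3) * (Mx w k (2 * q) + Mx w k (2 * q + 1))
      + dw w (k + 1) q ^ 2 := by
    funext q; rfl
  have n1 : ∀ q, 0 ≤ Mx w k (2 * q) := fun q => Mx_nonneg _ _ _
  have n2 : ∀ q, 0 ≤ Mx w k (2 * q + 1) := fun q => Mx_nonneg _ _ _
  rw [e1, tm_add (fun q => by have := n1 q; have := n2 q; positivity) (fun q => sq_nonneg _),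
    tm_mul (1 / 3) (by norm_num), tm_add n1 n2, ← tm_even_odd, ← sm_eq_tm, mul_add, ← mul_assoc]
  congr 1
  have : (3 : ℝ≥0∞) = ENNReal.ofReal 3 := by norm_num
  rw [this, ← ENNReal.ofReal_mul (by norm_num)]
  norm_num

theorem Mx_sum (w E : ℕ → ℤ → ℝ) (N : ℕ) :
    ∑ k ∈ range (N + 1), 2 ^ k * tm (Mx w k) ≤ 6 * En N w E := by
  have h0 : tm (Mx w 0) = 0 := by
    unfold tm
    simp [Mx]
  have h1 := sum_up N (fun k => 2 ^ k * tm (Mx w k))
    (fun k => 2 * (2 ^ (k + 1) * (sm (dw w (k + 1)) + sm (E (k + 1))))) (by simp [h0])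
    fun k hk => by
      have h2 := Mx_rec w k
      have h3 : 3 * (4 * (2 ^ (k + 1) * tm (Mx w (k + 1))))
          ≤ 3 * (3 * (2 ^ k * tm (Mx w k))
            + 3 * (2 * (2 ^ (k + 1) * (sm (dw w (k + 1)) + sm (E (k + 1)))))) := by
        calc 3 * (4 * (2 ^ (k + 1) * tm (Mx w (k + 1))))
            = 4 * 2 ^ (k + 1) * (3 * tm (Mx w (k + 1))) := by ring
          _ = 8 * (2 ^ k * tm (Mx w k)) + 12 * (2 ^ (k + 1) * sm (dw w (k + 1))) := by
            rw [h2]; ring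
          _ ≤ 9 * (2 ^ k * tm (Mx w k))
              + 18 * (2 ^ (k + 1) * (sm (dw w (k + 1)) + sm (E (k + 1)))) := by
            gcongr
            · norm_num
            · norm_num
            · exact le_self_add
          _ = _ := by ring
      exact (ENNReal.mul_le_mul_iff_right (by norm_num) (by norm_num)).1 h3
  unfold En
  calc ∑ k ∈ range (N + 1), 2 ^ k * tm (Mx w k)
      ≤ ∑ k ∈ range (N + 1), 2 ^ k * tm (Mx w k) + 3 * (2 ^ N * tm (Mx w N)) := le_self_add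
    _ ≤ 3 * ∑ k ∈ range N, 2 * (2 ^ (k + 1) * (sm (dw w (k + 1)) + sm (E (k + 1)))) := h1
    _ = 6 * ∑ k ∈ range N, 2 ^ (k + 1) * (sm (dw w (k + 1)) + sm (E (k + 1))) := by
        rw [← Finset.mul_sum]; ring
    _ ≤ _ := by gcongr; exact le_add_self

theorem tm_Bv (w : ℕ → ℤ → ℝ) (k : ℕ) : tm (Bv w k) = 3 * sm (nb w k) + 6 * tm (Mx w k) := by
  have e : Bv w k = fun q => 3 * ((nb w k q ^ 2 + Mx w k q) + Mx w k (q + 1)) := by
    funext q; rfl
  rw [e, tm_mul 3 (by norm_num),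
    tm_add (fun q => add_nonneg (sq_nonneg _) (Mx_nonneg _ _ _)) (fun q => Mx_nonneg _ _ _),
    tm_add (fun q => sq_nonneg _) (fun q => Mx_nonneg _ _ _), tm_shift (Mx w k) 1, ← sm_eq_tm]
  have : ENNReal.ofReal 3 = 3 := by norm_num
  rw [this]
  ring

theorem tm_Nr (w : ℕ → ℤ → ℝ) (k : ℕ) : tm (Nr w k) = 26 * sm (nb w k) + 36 * tm (Mx w k) := by
  have b : ∀ i q, 0 ≤ Bv w k (q + i) := fun i q => Bv_nonneg _ _ _
  have n : ∀ i q, 0 ≤ nb w k (q + i) ^ 2 := fun i q => sq_nonneg _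
  have e : Nr w k = fun q => 2 * ((Bv w k (q + 0) + Bv w k (q + (-1))) + Bv w k (q + (-2)))
      + 4 * (nb w k (q + (-1)) ^ 2 + nb w k (q + (-2)) ^ 2) := by
    funext q
    unfold Nr
    simp only [add_zero, ← sub_eq_add_neg]
  have s : ∀ i : ℤ, tm (fun q => nb w k (q + i) ^ 2) = sm (nb w k) := fun i =>
    tm_shift (fun q => nb w k q ^ 2) i
  rw [e, tm_add (fun q => by have := b 0 q; have := b (-1) q; have := b (-2) q; positivity)
    (fun q => by positivity), tm_mul 2 (by norm_num), tm_mul 4 (by norm_num),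
    tm_add (fun q => add_nonneg (b 0 q) (b (-1) q)) (b (-2)), tm_add (b 0) (b (-1)),
    tm_add (n (-1)) (n (-2)), tm_shift, tm_shift, tm_shift, s, s, tm_Bv]
  have h2 : ENNReal.ofReal 2 = 2 := by norm_num
  have h4 : ENNReal.ofReal 4 = 4 := by norm_num
  rw [h2, h4]
  ring

theorem tm_Hd (w : ℕ → ℤ → ℝ) (k : ℕ) :
    tm (Hd w (k + 1)) ≤ 28 * sm (nb w k) + 42 * tm (Mx w k) := by
  have e : Hd w (k + 1) = fun m => ∑ i ∈ range 7,
      (Bv w k (2 * m + (-4 + i)) + nb w k (2 * m + (-4 + i)) ^ 2) := by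
    funext m
    unfold Hd
    rw [Nat.add_sub_cancel]
    refine Finset.sum_congr rfl fun i _ => ?_
    rw [show 2 * m - 4 + (i : ℤ) = 2 * m + (-4 + i) by ring]
  have h1 : tm (Hd w (k + 1)) = ∑ i ∈ range 7,
      tm (fun m => Bv w k (2 * m + (-4 + i)) + nb w k (2 * m + (-4 + i)) ^ 2) := by
    rw [e]
    unfold tm
    rw [← Summable.tsum_finsetSum fun i _ => ENNReal.summable]
    refine tsum_congr fun m => ?_
    rw [ENNReal.ofReal_sum_of_nonneg fun i _ => add_nonneg (Bv_nonneg _ _ _) (sq_nonneg _)]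
  rw [h1]
  have h2 : ∀ i ∈ range 7, tm (fun m => Bv w k (2 * m + (-4 + i)) + nb w k (2 * m + (-4 + i)) ^ 2)
      ≤ 4 * sm (nb w k) + 6 * tm (Mx w k) := by
    intro i _
    have h3 := tm_dbl (fun q => Bv w k q + nb w k q ^ 2) (-4 + i)
    refine h3.trans (le_of_eq ?_)
    rw [tm_add (Bv_nonneg w k) (fun q => sq_nonneg _), tm_Bv, ← sm_eq_tm]
    ring
  refine (Finset.sum_le_sum h2).trans (le_of_eq ?_)
  rw [Finset.sum_const, card_range, nsmul_eq_mul]
  push_cast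
  ring

/-- **The distance to the cell value** is square summable over all scales. -/
theorem near_line (h : Drift N w E) :
    ∑ k ∈ range (N + 1), 2 ^ k * tm (Nr w k) ≤ 4096 * En N w E := by
  have h1 := nb_sum h
  have h2 := Mx_sum w E N
  calc ∑ k ∈ range (N + 1), 2 ^ k * tm (Nr w k)
      = 26 * ∑ k ∈ range (N + 1), 2 ^ k * sm (nb w k)
        + 36 * ∑ k ∈ range (N + 1), 2 ^ k * tm (Mx w k) := by
        rw [Finset.mul_sum, Finset.mul_sum, ← Finset.sum_add_distrib]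
        refine Finset.sum_congr rfl fun k _ => ?_
        rw [tm_Nr]
        ring
    _ ≤ 26 * (64 * En N w E) + 36 * (6 * En N w E) := by gcongr
    _ = 1880 * En N w E := by ring
    _ ≤ _ := by gcongr; norm_num

/-- **The half differences** are square summable over all scales. -/
theorem half_line (h : Drift N w E) :
    ∑ k ∈ range N, 2 ^ (k + 1) * tm (Hd w (k + 1)) ≤ 4096 * En N w E := by
  have h1 := nb_sum h
  have h2 := Mx_sum w E N
  calc ∑ k ∈ range N, 2 ^ (k + 1) * tm (Hd w (k + 1))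
      ≤ ∑ k ∈ range N, 2 ^ (k + 1) * (28 * sm (nb w k) + 42 * tm (Mx w k)) := by
        gcongr with k _
        exact tm_Hd w k
    _ = 56 * ∑ k ∈ range N, 2 ^ k * sm (nb w k) + 84 * ∑ k ∈ range N, 2 ^ k * tm (Mx w k) := by
        rw [Finset.mul_sum, Finset.mul_sum, ← Finset.sum_add_distrib]
        refine Finset.sum_congr rfl fun k _ => ?_
        ring
    _ ≤ 56 * ∑ k ∈ range (N + 1), 2 ^ k * sm (nb w k)
        + 84 * ∑ k ∈ range (N + 1), 2 ^ k * tm (Mx w k) := by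
        gcongr <;> omega
    _ ≤ 56 * (64 * En N w E) + 84 * (6 * En N w E) := by gcongr
    _ = 4088 * En N w E := by ring
    _ ≤ _ := by gcongr; norm_num

/-! ### Linear maps and matrices -/

section lin

variable {β γ : Type*} [AddCommGroup β] [Module ℝ β] [AddCommGroup γ] [Module ℝ γ]

theorem Fw_map (L : β →ₗ[ℝ] γ) (w E : ℕ → ℤ → β) (k : ℕ) (a : ℤ) :
    L (Fw w E k a) = Fw (fun k q => L (w k q)) (fun k q => L (E k q)) k a := by
  unfold Fw gw
  simp only [map_smul, map_sum, map_add]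

theorem ebw_map (L : β →ₗ[ℝ] γ) (E : ℕ → ℤ → β) (k : ℕ) (a : ℤ) :
    L (ebw E k a) = ebw (fun k q => L (E k q)) k a := by
  unfold ebw
  simp only [map_smul, map_sum]

theorem Drift.map {N : ℕ} {w E : ℕ → ℤ → β} (h : Drift N w E) (L : β →ₗ[ℝ] γ) :
    Drift N (fun k q => L (w k q)) (fun k q => L (E k q)) := fun k hk q => by
  simp only
  rw [← map_add, h k hk q, map_smul, map_sub]

/-- the window inside the two cells, exact -/
theorem Fw_compl {N : ℕ} {w E : ℕ → ℤ → β} (h : Drift N w E) {k : ℕ} (hk : k ≤ N) (q : ℤ)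
    {r s : ℕ} (hs : 2 ^ k = r + s) :
    w k q + w k (q + 1) - Fw w E k (2 ^ k * q + r)
      = ((2 : ℝ) ^ k)⁻¹ • (∑ y ∈ range r, gw w E k (2 ^ k * q + y)
        + ∑ y ∈ range s, gw w E k (2 ^ k * (q + 1) + ((r + y : ℕ) : ℤ))) := by
  have h1 := sum_cell h k hk q
  have h2 := sum_cell h k hk (q + 1)
  have e1 : ∑ y ∈ range (2 ^ k), gw w E k (2 ^ k * q + r + y)
      = ∑ y ∈ range s, gw w E k (2 ^ k * q + ((r + y : ℕ) : ℤ))
        + ∑ y ∈ range r, gw w E k (2 ^ k * (q + 1) + y) := by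
    rw [hs, add_comm r s, Finset.sum_range_add]
    congr 1
    · refine Finset.sum_congr rfl fun y _ => ?_
      push_cast
      rw [add_assoc]
    · refine Finset.sum_congr rfl fun y _ => ?_
      have : ((2 : ℤ) ^ k) = r + s := by exact_mod_cast hs
      congr 1
      push_cast
      linear_combination (-1 : ℤ) * this
  rw [hs, Finset.sum_range_add] at h1 h2
  have h3 : w k q = ((2 : ℝ) ^ k)⁻¹ • (((2 : ℝ) ^ k) • w k q) := by
    rw [smul_smul, inv_mul_cancel₀ (by positivity), one_smul]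
  have h4 : w k (q + 1) = ((2 : ℝ) ^ k)⁻¹ • (((2 : ℝ) ^ k) • w k (q + 1)) := by
    rw [smul_smul, inv_mul_cancel₀ (by positivity), one_smul]
  rw [h3, h4, ← h1, ← h2]
  unfold Fw
  rw [e1, ← smul_add, ← smul_sub]
  congr 1
  abel

/-- the drift over the window, exact -/
theorem ebw_eq (E : ℕ → ℤ → β) (k : ℕ) (q : ℤ) {r s : ℕ} (hs : 2 ^ k = r + s) :
    ebw E k (2 ^ k * q + r)
      = ((s : ℝ) / 2 ^ k) • E k q + ((r : ℝ) / 2 ^ k) • E k (q + 1) := by
  unfold ebw
  have hz : ((2 : ℤ) ^ k) = r + s := by exact_mod_cast hs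
  have h0 : (0 : ℤ) < 2 ^ k := by positivity
  rw [hs, add_comm r s, Finset.sum_range_add]
  have e1 : ∀ y ∈ range s, E k ((2 ^ k * q + r + (y : ℤ)) / 2 ^ k) = E k q := by
    intro y hy
    have hy' : (y : ℤ) < s := by exact_mod_cast mem_range.1 hy
    congr 1
    rw [add_assoc, Int.mul_add_ediv_left _ _ h0.ne', Int.ediv_eq_zero_of_lt (by positivity)
      (by omega), add_zero]
  have e2 : ∀ y ∈ range r, E k ((2 ^ k * q + r + ((s + y : ℕ) : ℤ)) / 2 ^ k) = E k (q + 1) := by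
    intro y hy
    have hy' : (y : ℤ) < r := by exact_mod_cast mem_range.1 hy
    congr 1
    have : 2 ^ k * q + (r : ℤ) + ((s + y : ℕ) : ℤ) = 2 ^ k * (q + 1) + y := by
      push_cast
      linear_combination (-1 : ℤ) * hz
    rw [this, Int.mul_add_ediv_left _ _ h0.ne', Int.ediv_eq_zero_of_lt (by positivity)
      (by omega), add_zero]
  rw [Finset.sum_congr rfl e1, Finset.sum_congr rfl e2, Finset.sum_const, Finset.sum_const,
    card_range, card_range, smul_add, ← Nat.cast_smul_eq_nsmul ℝ, ← Nat.cast_smul_eq_nsmul ℝ,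
    smul_smul, smul_smul]
  congr 2 <;> ring

end lin

section psd

open Matrix

variable {ι : Type*} [Fintype ι]

omit [Fintype ι] in
theorem gw_psd {W F : ℕ → ℤ → Matrix ι ι ℝ} (h0 : ∀ y, (W 0 y).PosSemidef)
    (hF : ∀ j y, (F j y).PosSemidef) (k : ℕ) (y : ℤ) : (gw W F k y).PosSemidef := by
  unfold gw
  exact (h0 y).add (posSemidef_sum _ fun j _ => hF j _)

omit [Fintype ι] in
theorem Fw_psd {W F : ℕ → ℤ → Matrix ι ι ℝ} (h0 : ∀ y, (W 0 y).PosSemidef)
    (hF : ∀ j y, (F j y).PosSemidef) (k : ℕ) (a : ℤ) : (Fw W F k a).PosSemidef :=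
  (posSemidef_sum _ fun y _ => gw_psd h0 hF k _).smul (by positivity)

omit [Fintype ι] in
theorem ebw_psd {F : ℕ → ℤ → Matrix ι ι ℝ} (hF : ∀ j y, (F j y).PosSemidef) (k : ℕ) (a : ℤ) :
    (ebw F k a).PosSemidef :=
  (posSemidef_sum _ fun y _ => hF k _).smul (by positivity)

theorem exists_rs (k : ℕ) (a : ℤ) : ∃ r s : ℕ, 2 ^ k = r + s ∧ a = 2 ^ k * (a / 2 ^ k) + r := by
  have h0 : (0 : ℤ) < 2 ^ k := by positivity
  have h1 : 0 ≤ a % 2 ^ k := Int.emod_nonneg _ h0.ne'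
  have h2 : a % 2 ^ k < 2 ^ k := Int.emod_lt_of_pos _ h0
  obtain ⟨r, hr⟩ := Int.eq_ofNat_of_zero_le h1
  have hr' : r ≤ 2 ^ k := by
    have : (r : ℤ) < 2 ^ k := by rw [← hr]; exact h2
    exact_mod_cast this.le
  refine ⟨r, 2 ^ k - r, by omega, ?_⟩
  rw [← hr]
  exact (Int.mul_ediv_add_emod a (2 ^ k)).symm

omit [Fintype ι] in
/-- `Fw k a ≤ W k q + W k (q + 1)` -/
theorem Fw_le {N : ℕ} {W F : ℕ → ℤ → Matrix ι ι ℝ} (h : Drift N W F)
    (h0 : ∀ y, (W 0 y).PosSemidef) (hF : ∀ j y, (F j y).PosSemidef) {k : ℕ} (hk : k ≤ N) (a : ℤ) :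
    (W k (a / 2 ^ k) + W k (a / 2 ^ k + 1) - Fw W F k a).PosSemidef := by
  obtain ⟨r, s, hrs, ha⟩ := exists_rs k a
  have e := Fw_compl h hk (a / 2 ^ k) hrs
  rw [← ha] at e
  rw [e]
  exact ((posSemidef_sum _ fun y _ => gw_psd h0 hF k _).add
    (posSemidef_sum _ fun y _ => gw_psd h0 hF k _)).smul (by positivity)

omit [Fintype ι] in
/-- `ebw k a ≤ F k q + F k (q + 1)` -/
theorem ebw_le {F : ℕ → ℤ → Matrix ι ι ℝ} (hF : ∀ j y, (F j y).PosSemidef) (k : ℕ) (a : ℤ) :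
    (F k (a / 2 ^ k) + F k (a / 2 ^ k + 1) - ebw F k a).PosSemidef := by
  obtain ⟨r, s, hrs, ha⟩ := exists_rs k a
  have e := ebw_eq F k (a / 2 ^ k) hrs
  rw [← ha] at e
  have hr : ((2 : ℝ) ^ k) = r + s := by exact_mod_cast hrs
  have e2 : F k (a / 2 ^ k) + F k (a / 2 ^ k + 1) - ebw F k a
      = ((r : ℝ) / 2 ^ k) • F k (a / 2 ^ k) + ((s : ℝ) / 2 ^ k) • F k (a / 2 ^ k + 1) := by
    rw [e]
    have h1 : ((r : ℝ) / 2 ^ k) = 1 - (s : ℝ) / 2 ^ k := by
      rw [eq_sub_iff_add_eq, ← add_div, ← hr, div_self (by positivity)]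
    have h2 : ((s : ℝ) / 2 ^ k) = 1 - (r : ℝ) / 2 ^ k := by rw [h1]; ring
    have h3 : ((r : ℝ) / 2 ^ k) • F k (a / 2 ^ k)
        = F k (a / 2 ^ k) - ((s : ℝ) / 2 ^ k) • F k (a / 2 ^ k) := by
      rw [h1, sub_smul, one_smul]
    have h4 : ((s : ℝ) / 2 ^ k) • F k (a / 2 ^ k + 1)
        = F k (a / 2 ^ k + 1) - ((r : ℝ) / 2 ^ k) • F k (a / 2 ^ k + 1) := by
      rw [h2, sub_smul, one_smul]
    rw [h3, h4]
    abel
  rw [e2]
  exact ((hF _ _).smul (by positivity)).add ((hF _ _).smul (by positivity))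

end psd

/-! ### Vectors, finite sums -/

section vec

open Matrix

variable {ι : Type*} [Fintype ι]

/-- majorant of `|Fw k a - w k m|²` -/
def NrV (w : ℕ → ℤ → ι → ℝ) (k : ℕ) (m : ℤ) : ℝ := ∑ i, Nr (fun k q => w k q i) k m

/-- majorant of the square of the half difference -/
def HdV (w : ℕ → ℤ → ι → ℝ) (k : ℕ) (m : ℤ) : ℝ := ∑ i, Hd (fun k q => w k q i) k m

/-- half difference, vectors -/
def dwV (w : ℕ → ℤ → ι → ℝ) (k : ℕ) (q : ℤ) : ι → ℝ :=
  (1 / 2 : ℝ) • (w (k - 1) (2 * q) - w (k - 1) (2 * q + 1))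

theorem NrV_nonneg (w : ℕ → ℤ → ι → ℝ) (k : ℕ) (m : ℤ) : 0 ≤ NrV w k m :=
  Finset.sum_nonneg fun _ _ => Nr_nonneg _ _ _

theorem HdV_nonneg (w : ℕ → ℤ → ι → ℝ) (k : ℕ) (m : ℤ) : 0 ≤ HdV w k m :=
  Finset.sum_nonneg fun _ _ => Hd_nonneg _ _ _

omit [Fintype ι] in
theorem Fw_apply (w E : ℕ → ℤ → ι → ℝ) (k : ℕ) (a : ℤ) (i : ι) :
    Fw w E k a i = Fw (fun k q => w k q i) (fun k q => E k q i) k a :=
  Fw_map (LinearMap.proj i) w E k a

omit [Fintype ι] in
theorem Drift.apply {N : ℕ} {w E : ℕ → ℤ → ι → ℝ} (h : Drift N w E) (i : ι) :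
    Drift N (fun k q => w k q i) (fun k q => E k q i) :=
  h.map (LinearMap.proj i : (ι → ℝ) →ₗ[ℝ] ℝ)

/-- **Distance to the cell value** for every window met by the node. -/
theorem near_vec {N : ℕ} {w E : ℕ → ℤ → ι → ℝ} (h : Drift N w E) {k : ℕ} (hk : k ≤ N) {a m : ℤ}
    (h1 : m - 2 ≤ a / 2 ^ k) (h2 : a / 2 ^ k ≤ m) :
    (Fw w E k a - w k m) ⬝ᵥ (Fw w E k a - w k m) ≤ NrV w k m := by
  unfold NrV dotProduct
  refine Finset.sum_le_sum fun i _ => ?_
  have := near_node (h.apply i) hk h1 h2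
  rw [Pi.sub_apply, Fw_apply, ← pow_two]
  exact this

/-- **Half difference** for every window met by the node. -/
theorem half_vec' {N : ℕ} {w E : ℕ → ℤ → ι → ℝ} (h : Drift N w E) {k : ℕ} (hk : k ≤ N) {a m : ℤ}
    (h1 : m - 2 ≤ a / 2 ^ (k + 1)) (h2 : a / 2 ^ (k + 1) ≤ m) :
    ((1 / 2 : ℝ) • (Fw w E k a - Fw w E k (a + 2 ^ k)))
      ⬝ᵥ ((1 / 2 : ℝ) • (Fw w E k a - Fw w E k (a + 2 ^ k))) ≤ HdV w (k + 1) m := by
  unfold HdV dotProduct
  refine Finset.sum_le_sum fun i _ => ?_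
  have := half_node (h.apply i) hk h1 h2
  rw [Pi.smul_apply, Pi.sub_apply, Fw_apply, Fw_apply, smul_eq_mul, ← pow_two]
  exact this

/-- the energy of the tree below the root cell `M` -/
def EnV (N : ℕ) (M : ℤ) (w E : ℕ → ℤ → ι → ℝ) : ℝ :=
  2 ^ N * (w N M ⬝ᵥ w N M) + ∑ k ∈ range N, 2 ^ (k + 1) * ∑ q ∈ iv (N - (k + 1)) M,
    (dwV w (k + 1) q ⬝ᵥ dwV w (k + 1) q + E (k + 1) q ⬝ᵥ E (k + 1) q)

theorem sm_supp {h : ℤ → ℝ} {X : Finset ℤ} (hX : ∀ x, x ∉ X → h x = 0) :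
    sm h = ENNReal.ofReal (∑ x ∈ X, h x ^ 2) := sm_eq hX

theorem En_eq {N : ℕ} {M : ℤ} {w E : ℕ → ℤ → ι → ℝ}
    (hw : ∀ k ≤ N, ∀ q, q ∉ iv (N - k) M → w k q = 0)
    (hE : ∀ k ≤ N, ∀ q, q ∉ iv (N - k) M → E k q = 0) :
    ∑ i, En N (fun k q => w k q i) (fun k q => E k q i) = ENNReal.ofReal (EnV N M w E) := by
  have e1 : ∀ i : ι, En N (fun k q => w k q i) (fun k q => E k q i)
      = ENNReal.ofReal (2 ^ N * w N M i ^ 2 + ∑ k ∈ range N, 2 ^ (k + 1)
        * ∑ q ∈ iv (N - (k + 1)) M, (dwV w (k + 1) q i ^ 2 + E (k + 1) q i ^ 2)) := by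
    intro i
    have f1 : sm (fun q => w N q i) = ENNReal.ofReal (w N M i ^ 2) := by
      have := sm_supp (h := fun q => w N q i) (X := {M}) fun x hx => by
        have h1 : x ∉ iv (N - N) M := by
          rw [Nat.sub_self]
          intro h2
          rw [mem_iv] at h2
          unfold ix at h2
          simp only [pow_zero, Int.ediv_one] at h2
          exact hx (by rw [mem_singleton]; exact h2)
        simp only [hw N le_rfl x h1, Pi.zero_apply]
      rw [Finset.sum_singleton] at this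
      exact this
    have f2 : ∀ k ∈ range N, sm (dw (fun k q => w k q i) (k + 1))
        = ENNReal.ofReal (∑ q ∈ iv (N - (k + 1)) M, dwV w (k + 1) q i ^ 2) := by
      intro k hk
      have hk' := mem_range.1 hk
      have e0 : N - k = (N - (k + 1)) + 1 := by omega
      have := sm_supp (h := dw (fun k q => w k q i) (k + 1)) (X := iv (N - (k + 1)) M)
        fun x hx => by
          have g1 : 2 * x ∉ iv (N - k) M := by
            rw [e0, H588.mem_iv_double]; exact hx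
          have g2 : 2 * x + 1 ∉ iv (N - k) M := by
            rw [e0, H588.mem_iv_double']; exact hx
          unfold dw
          simp only [Nat.add_sub_cancel, hw k hk'.le _ g1, hw k hk'.le _ g2, Pi.zero_apply]
          norm_num
      rw [this]
      refine congrArg _ (Finset.sum_congr rfl fun q _ => ?_)
      unfold dw dwV
      simp only [Nat.add_sub_cancel, Pi.smul_apply, Pi.sub_apply, smul_eq_mul]
      ring
    have f3 : ∀ k ∈ range N, sm (fun q => E (k + 1) q i)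
        = ENNReal.ofReal (∑ q ∈ iv (N - (k + 1)) M, E (k + 1) q i ^ 2) := by
      intro k hk
      have hk' := mem_range.1 hk
      exact sm_supp (h := fun q => E (k + 1) q i) fun x hx => by
        simp only [hE (k + 1) (by omega) x hx, Pi.zero_apply]
    unfold En
    rw [f1, ENNReal.ofReal_add (by positivity)
      (Finset.sum_nonneg fun k _ => mul_nonneg (by positivity)
        (Finset.sum_nonneg fun q _ => by positivity)),
      ENNReal.ofReal_sum_of_nonneg (fun k _ => mul_nonneg (by positivity)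
        (Finset.sum_nonneg fun q _ => by positivity))]
    have g2 : ∀ n : ℕ, ENNReal.ofReal ((2 : ℝ) ^ n) = 2 ^ n := fun n => by
      rw [ENNReal.ofReal_pow (by norm_num)]
      norm_num
    congr 1
    · rw [ENNReal.ofReal_mul (by positivity), g2]
    · refine Finset.sum_congr rfl fun k hk => ?_
      rw [f2 k hk, f3 k hk, ← ENNReal.ofReal_add (Finset.sum_nonneg fun q _ => sq_nonneg _)
        (Finset.sum_nonneg fun q _ => sq_nonneg _), ← Finset.sum_add_distrib,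
        ENNReal.ofReal_mul (by positivity), g2]
  rw [Finset.sum_congr rfl fun i _ => e1 i, ← ENNReal.ofReal_sum_of_nonneg
    (fun i _ => add_nonneg (by positivity) (Finset.sum_nonneg fun k _ =>
      mul_nonneg (by positivity) (Finset.sum_nonneg fun q _ => by positivity)))]
  congr 1
  unfold EnV dotProduct
  rw [Finset.sum_add_distrib, ← Finset.mul_sum, Finset.sum_comm]
  congr 1
  · congr 1
    exact Finset.sum_congr rfl fun i _ => by ring
  · refine Finset.sum_congr rfl fun k _ => ?_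
    rw [← Finset.mul_sum, Finset.sum_comm]
    congr 1
    refine Finset.sum_congr rfl fun q _ => ?_
    rw [← Finset.sum_add_distrib]
    exact Finset.sum_congr rfl fun i _ => by ring

theorem EnV_nonneg (N : ℕ) (M : ℤ) (w E : ℕ → ℤ → ι → ℝ) : 0 ≤ EnV N M w E := by
  unfold EnV dotProduct
  refine add_nonneg (mul_nonneg (by positivity) (Finset.sum_nonneg fun i _ => mul_self_nonneg _))
    (Finset.sum_nonneg fun k _ => mul_nonneg (by positivity) (Finset.sum_nonneg fun q _ =>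
      add_nonneg (Finset.sum_nonneg fun i _ => mul_self_nonneg _)
        (Finset.sum_nonneg fun i _ => mul_self_nonneg _)))

theorem sum_le_tm (f : ℤ → ℝ) (hf : ∀ q, 0 ≤ f q) (X : Finset ℤ) :
    ENNReal.ofReal (∑ x ∈ X, f x) ≤ tm f := by
  unfold tm
  rw [ENNReal.ofReal_sum_of_nonneg fun _ _ => hf _]
  exact ENNReal.sum_le_tsum X

/-- **The distance to the cell value**, square summable, vectors. -/
theorem near_sum {N : ℕ} {M : ℤ} {w E : ℕ → ℤ → ι → ℝ} (h : Drift N w E)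
    (hw : ∀ k ≤ N, ∀ q, q ∉ iv (N - k) M → w k q = 0)
    (hE : ∀ k ≤ N, ∀ q, q ∉ iv (N - k) M → E k q = 0) (T : ℕ → Finset ℤ) :
    ∑ k ∈ range (N + 1), 2 ^ k * ∑ m ∈ T k, NrV w k m ≤ 4096 * EnV N M w E := by
  have h2 : ENNReal.ofReal (∑ k ∈ range (N + 1), 2 ^ k * ∑ m ∈ T k, NrV w k m)
      ≤ ENNReal.ofReal (4096 * EnV N M w E) := by
    rw [ENNReal.ofReal_mul (by norm_num : (0 : ℝ) ≤ 4096), ← En_eq hw hE,
      ENNReal.ofReal_sum_of_nonneg fun _ _ =>
        mul_nonneg (by positivity) (sum_nonneg fun _ _ => NrV_nonneg _ _ _)]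
    have e4 : ENNReal.ofReal 4096 = 4096 := by norm_num
    rw [e4, Finset.mul_sum]
    have h3 : ∀ k ∈ range (N + 1), ENNReal.ofReal (2 ^ k * ∑ m ∈ T k, NrV w k m)
        ≤ ∑ i, 2 ^ k * tm (Nr (fun k q => w k q i) k) := by
      intro k _
      unfold NrV
      rw [Finset.sum_comm, ENNReal.ofReal_mul (by positivity), ENNReal.ofReal_pow (by norm_num),
        ENNReal.ofReal_sum_of_nonneg (fun i _ => Finset.sum_nonneg fun _ _ => Nr_nonneg _ _ _),
        Finset.mul_sum]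
      have e5 : ENNReal.ofReal 2 = 2 := by norm_num
      rw [e5]
      refine Finset.sum_le_sum fun i _ => ?_
      gcongr
      exact sum_le_tm _ (fun q => Nr_nonneg _ _ _) (T k)
    refine (Finset.sum_le_sum h3).trans ?_
    rw [Finset.sum_comm]
    exact Finset.sum_le_sum fun i _ => near_line (h.apply i)
  exact (ENNReal.ofReal_le_ofReal_iff (mul_nonneg (by norm_num) (EnV_nonneg _ _ _ _))).1 h2

/-- **The half differences**, square summable, vectors. -/
theorem half_sum {N : ℕ} {M : ℤ} {w E : ℕ → ℤ → ι → ℝ} (h : Drift N w E)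
    (hw : ∀ k ≤ N, ∀ q, q ∉ iv (N - k) M → w k q = 0)
    (hE : ∀ k ≤ N, ∀ q, q ∉ iv (N - k) M → E k q = 0) (T : ℕ → Finset ℤ) :
    ∑ k ∈ range N, 2 ^ (k + 1) * ∑ m ∈ T k, HdV w (k + 1) m ≤ 4096 * EnV N M w E := by
  have h2 : ENNReal.ofReal (∑ k ∈ range N, 2 ^ (k + 1) * ∑ m ∈ T k, HdV w (k + 1) m)
      ≤ ENNReal.ofReal (4096 * EnV N M w E) := by
    rw [ENNReal.ofReal_mul (by norm_num : (0 : ℝ) ≤ 4096), ← En_eq hw hE,
      ENNReal.ofReal_sum_of_nonneg fun _ _ =>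
        mul_nonneg (by positivity) (sum_nonneg fun _ _ => HdV_nonneg _ _ _)]
    have e4 : ENNReal.ofReal 4096 = 4096 := by norm_num
    rw [e4, Finset.mul_sum]
    have h3 : ∀ k ∈ range N, ENNReal.ofReal (2 ^ (k + 1) * ∑ m ∈ T k, HdV w (k + 1) m)
        ≤ ∑ i, 2 ^ (k + 1) * tm (Hd (fun k q => w k q i) (k + 1)) := by
      intro k _
      unfold HdV
      rw [Finset.sum_comm, ENNReal.ofReal_mul (by positivity), ENNReal.ofReal_pow (by norm_num),
        ENNReal.ofReal_sum_of_nonneg (fun i _ => Finset.sum_nonneg fun _ _ => Hd_nonneg _ _ _),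
        Finset.mul_sum]
      have e5 : ENNReal.ofReal 2 = 2 := by norm_num
      rw [e5]
      refine Finset.sum_le_sum fun i _ => ?_
      gcongr
      exact sum_le_tm _ (fun q => Hd_nonneg _ _ _) (T k)
    refine (Finset.sum_le_sum h3).trans ?_
    rw [Finset.sum_comm]
    exact Finset.sum_le_sum fun i _ => half_line (h.apply i)
  exact (ENNReal.ofReal_le_ofReal_iff (mul_nonneg (by norm_num) (EnV_nonneg _ _ _ _))).1 h2

end vec

end

end Vale.Agent.P141.H652
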