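import Vale.Agent.P141.H652.NumB
import Vale.Agent.P141.H784.BMpl
import Vale.Agent.P141.H516.StopFib
import Vale.Agent.P141.H228.RowC

/-!
# P141, line (A), (TI): the payers of the slot `b` at the hub `x₁`, class numbers

* `payB_ah_Y`, `payB_eb_Y` : the payers, rows of `x₁` in a set `Y` only;
* `act_num` : the active rows against the height of the fibres;
* `pay_num` : **the payers of the cut family**, number `s 8^K`.
-/

namespace Vale.Agent.P141.H652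

open Finset Matrix
open Vale.Agent.P141.PL (Pt iv hs ix cx mem_iv ix_ix card_iv)
open Vale.Agent.P141.PL.H315 (Tri A2 avg)
open Vale.Agent.P141.H48 (US ES BSl sst)
open Vale.Agent.P141.H103 (GW)
open Vale.Agent.P141.H305 (Cls ClsM kapM)
open Vale.Agent.P141.H420 (Tr)
open Vale.Agent.P141.H677 (KT GT kF)
open Vale.Agent.P141.H677.Sk (lam1)
open Vale.Agent.P141.H401 (mA mb mC qA qB qC cA cb b1 FibU)
open Vale.Agent.P141.H816 (rowb_one row_tt)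
open Vale.Agent.P141.H784 (av payB_gen BM_plane_st EB_plane_st numB lv rows_live wt_live Tie)

noncomputable section

open scoped Classical

set_option linter.unusedSectionVars false

section payers

variable {ι : Type*} [Fintype ι] [DecidableEq ι]
variable {l e : ℝ} {K : ℕ} {R S T : ℤ} {G Kq : ℤ → ℕ → ℤ → Matrix ι ι ℝ} {u : ℤ → ℤ → ι → ℝ}
  {φ : ℕ → Pt → ℝ}
variable {al : ℤ → ℕ → ℤ → Prop} {a : ℝ}

/-- the half differences, rows in `Y` only -/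
theorem payB_ah_Y {o : ℤ} (ho : o = 1 ∨ o = -1) (X : Finset ℤ) {Y : Finset ℤ}
    (hY : Y ⊆ iv K S) (hY0 : ∀ x ∈ iv K S, x ∉ Y → ∀ y, u x y = 0)
    (hT : ∀ x ∈ iv K S, Tr l K (G x) (Kq x))
    (hG : ∀ x ∈ iv K S, ∀ k ≤ K, ∀ p, G x k p =
      ((2 : ℝ) ^ k)⁻¹ • ∑ y ∈ iv k p, vecMulVec (u x y) (u x y))
    (ha : 0 ≤ a) (hal : ∀ x ∈ iv K S, ∀ k ≤ K, ∀ p ∈ iv (K - k) R, al x k p → ∀ i ≤ K - k,
      (G x (k + i) (p / 2 ^ i)).trace ≤ a)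
    (he : 0 ≤ e) (hφ : ∀ k ∈ Icc 1 K, ∀ j x y, ∑ x0 ∈ iv k j, φ k (x0, x, y) ^ 2 ≤ e * 2 ^ k)
    {B : ℤ → ℕ → ℤ → ℤ → ι → ℝ}
    (hB : ∀ x0 ∈ X, ∀ k ∈ Icc 1 K, ∀ x ∈ iv K S, ∀ n ∈ iv (K - k) R, al x k n → ∀ w : ι → ℝ,
      ∑ y ∈ iv k n, (B x0 k x y ⬝ᵥ w) ^ 2 ≤
        ∑ y ∈ iv k n, φ k (x0, x, y) ^ 2 * (u x y ⬝ᵥ w) ^ 2)
    (hB0 : ∀ x0 ∈ X, ∀ k ∈ Icc 1 K, ∀ x ∈ iv K S, ∀ n ∈ iv (K - k) R, ¬ al x k n →
      ∀ y ∈ iv k n, B x0 k x y = 0)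
    {F : ℤ → ℤ → ℕ → ℤ → Matrix ι ι ℝ} {g : ℝ} (hg : 0 ≤ g)
    (hF : ∀ x0 ∈ X, ∀ x ∈ iv K S, ∀ k ∈ Icc 1 K, ∀ m, (F x0 x k m).PosSemidef)
    (hFa : ∀ x0 ∈ X, ∀ x ∈ iv K S, ∀ k ∈ Icc 1 K, ∀ m, ∀ w : ι → ℝ, w ⬝ᵥ F x0 x k m *ᵥ w ≤
      g * ((ah l K R (Kq x) (o - 2) x0 x (k - 1) m *ᵥ w) ⬝ᵥ
        (ah l K R (Kq x) (o - 2) x0 x (k - 1) m *ᵥ w))) (A : ℕ) :
    ∑ x0 ∈ X, ∑ k ∈ Icc 1 K, GW K R S T k (o - 2 - ix k x0) (fun n n' m =>
      av k n m fun x y => B x0 k x y ⬝ᵥ F x0 x k n' *ᵥ B x0 k x y) ≤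
    g * (e * (2 ^ K * ∑ x ∈ Y, 515625000 * numB l K R (G x) a A)) := by
  refine (payB_gen (φ := lv al φ) X (rows_live hB hB0) hF (f := fun k x0 x y m =>
    g * ((ah l K R (Kq x) (o - 2) x0 x (k - 1) m *ᵥ u x y) ⬝ᵥ
      (ah l K R (Kq x) (o - 2) x0 x (k - 1) m *ᵥ u x y)))
    (fun x0 h0 x hx k hk y m => hFa x0 h0 x hx k hk m (u x y)) o).trans ?_
  have h1 := BM_plane_st (J := 0) (S := R) (S3 := T) ho X Y (fun x hx => hT x (hY hx))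
    (fun x hx => hG x (hY hx)) ha (fun x hx => hal x (hY hx))
    (W := fun k x0 x y => lv al φ k (x0, x, y) ^ 2)
    he (fun _ _ _ _ => sq_nonneg _) (wt_live hφ) (fun k _ x0 x1 x2 h => by
      show (if al x1 k (ix k x2) then φ k (x0, x1, x2) else 0) ^ 2 = 0
      rw [if_neg h]
      norm_num) A
  have h2 := mul_le_mul_of_nonneg_left h1 hg
  refine le_trans (le_of_eq ?_) (h2.trans (le_of_eq ?_))
  · rw [mul_sum]
    refine sum_congr rfl fun x0 _ => ?_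
    rw [mul_sum, ← sum_subset hY]
    · refine sum_congr rfl fun x _ => ?_
      rw [mul_sum]
      refine sum_congr rfl fun k _ => ?_
      rw [mul_sum]
      refine sum_congr rfl fun m _ => ?_
      rw [mul_sum]
      refine sum_congr rfl fun y _ => ?_
      ring
    · intro x hx hn
      refine sum_eq_zero fun k _ => sum_eq_zero fun m _ => sum_eq_zero fun y _ => ?_
      rw [hY0 x hx hn y, mulVec_zero, zero_dotProduct, mul_zero, mul_zero]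
  · norm_num

/-- the losses, rows in `Y` only -/
theorem payB_eb_Y {o : ℤ} (ho : o = 1 ∨ o = -1) (X : Finset ℤ) {Y : Finset ℤ}
    (hY : Y ⊆ iv K S) (hY0 : ∀ x ∈ iv K S, x ∉ Y → ∀ y, u x y = 0)
    (hT : ∀ x ∈ iv K S, Tr l K (G x) (Kq x))
    (hG : ∀ x ∈ iv K S, ∀ k ≤ K, ∀ p, G x k p =
      ((2 : ℝ) ^ k)⁻¹ • ∑ y ∈ iv k p, vecMulVec (u x y) (u x y))
    (ha : 0 ≤ a) (hal : ∀ x ∈ iv K S, ∀ k ≤ K, ∀ p ∈ iv (K - k) R, al x k p → ∀ i ≤ K - k,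
      (G x (k + i) (p / 2 ^ i)).trace ≤ a)
    (he : 0 ≤ e) (hφ : ∀ k ∈ Icc 1 K, ∀ j x y, ∑ x0 ∈ iv k j, φ k (x0, x, y) ^ 2 ≤ e * 2 ^ k)
    {B : ℤ → ℕ → ℤ → ℤ → ι → ℝ}
    (hB : ∀ x0 ∈ X, ∀ k ∈ Icc 1 K, ∀ x ∈ iv K S, ∀ n ∈ iv (K - k) R, al x k n → ∀ w : ι → ℝ,
      ∑ y ∈ iv k n, (B x0 k x y ⬝ᵥ w) ^ 2 ≤
        ∑ y ∈ iv k n, φ k (x0, x, y) ^ 2 * (u x y ⬝ᵥ w) ^ 2)
    (hB0 : ∀ x0 ∈ X, ∀ k ∈ Icc 1 K, ∀ x ∈ iv K S, ∀ n ∈ iv (K - k) R, ¬ al x k n →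
      ∀ y ∈ iv k n, B x0 k x y = 0)
    {F : ℤ → ℤ → ℕ → ℤ → Matrix ι ι ℝ} {g : ℝ} (hg : 0 ≤ g)
    (hF : ∀ x0 ∈ X, ∀ x ∈ iv K S, ∀ k ∈ Icc 1 K, ∀ m, (F x0 x k m).PosSemidef)
    (hFa : ∀ x0 ∈ X, ∀ x ∈ iv K S, ∀ k ∈ Icc 1 K, ∀ m, ∀ w : ι → ℝ, w ⬝ᵥ F x0 x k m *ᵥ w ≤
      g * (w ⬝ᵥ eb l K R (Kq x) (o - 2) x0 x k m *ᵥ w)) (A : ℕ) :
    ∑ x0 ∈ X, ∑ k ∈ Icc 1 K, GW K R S T k (o - 2 - ix k x0) (fun n n' m =>
      av k n m fun x y => B x0 k x y ⬝ᵥ F x0 x k n' *ᵥ B x0 k x y) ≤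
    g * (e * (2 ^ K * ∑ x ∈ Y, 89180 * numB l K R (G x) a A)) := by
  refine (payB_gen (φ := lv al φ) X (rows_live hB hB0) hF (f := fun k x0 x y m =>
    g * (u x y ⬝ᵥ eb l K R (Kq x) (o - 2) x0 x k m *ᵥ u x y))
    (fun x0 h0 x hx k hk y m => hFa x0 h0 x hx k hk m (u x y)) o).trans ?_
  have h1 := EB_plane_st (J := 0) (S := R) (S3 := T) ho X Y (fun x hx => hT x (hY hx))
    (fun x hx => hG x (hY hx)) ha (fun x hx => hal x (hY hx))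
    (W := fun k x0 x y => lv al φ k (x0, x, y) ^ 2)
    he (fun _ _ _ _ => sq_nonneg _) (wt_live hφ) (fun k _ x0 x1 x2 h => by
      show (if al x1 k (ix k x2) then φ k (x0, x1, x2) else 0) ^ 2 = 0
      rw [if_neg h]
      norm_num) A
  have h2 := mul_le_mul_of_nonneg_left h1 hg
  refine le_trans (le_of_eq ?_) (h2.trans (le_of_eq ?_))
  · rw [mul_sum]
    refine sum_congr rfl fun x0 _ => ?_
    rw [mul_sum, ← sum_subset hY]
    · refine sum_congr rfl fun x _ => ?_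
      rw [mul_sum]
      refine sum_congr rfl fun k _ => ?_
      rw [mul_sum]
      refine sum_congr rfl fun m _ => ?_
      rw [mul_sum]
      refine sum_congr rfl fun y _ => ?_
      ring
    · intro x hx hn
      refine sum_eq_zero fun k _ => sum_eq_zero fun m _ => sum_eq_zero fun y _ => ?_
      rw [hY0 x hx hn y, zero_dotProduct, mul_zero, mul_zero]
  · norm_num

end payers

/-! ### The active rows -/

section act

variable {ι : Type} [Fintype ι] [DecidableEq ι] {K : ℕ} {s r P κ : ℝ} {x : Pt} {U : Tri}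
  {g : ℤ → ℤ → ℝ} {u v : ℤ → ℤ → ι → ℝ}

theorem A2_sum (a : ℤ × ℤ → ℝ) (K : ℕ) (x y : ℤ) :
    A2 K a x y = ((4 : ℝ) ^ K)⁻¹ * ∑ z ∈ iv K (ix K x), ∑ w ∈ iv K (ix K y), a (z, w) ^ 2 := by
  have h4 : ((4 : ℝ) ^ K)⁻¹ = (2 ^ K)⁻¹ * (2 ^ K)⁻¹ := by
    rw [← mul_inv, ← mul_pow]
    norm_num
  unfold A2
  rw [H769.iv_pt, H769.iv_pt, H550.avg_prod]
  unfold PL.H315.avg
  rw [card_iv, card_iv, ← mul_sum, ← mul_assoc, h4]
  push_cast
  rfl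

/-- the rows on which `u` does not vanish -/
def actR (K : ℕ) (x : Pt) (u : ℤ → ℤ → ι → ℝ) : Finset ℤ :=
  (iv K (ix K x.1)).filter fun z => ¬ ∀ y, u z y = 0

theorem actR_sub : actR K x u ⊆ iv K (ix K x.1) := filter_subset _ _

theorem actR_off : ∀ z ∈ iv K (ix K x.1), z ∉ actR K x u → ∀ y, u z y = 0 := by
  intro z hz h
  rw [actR, mem_filter, not_and, not_not] at h
  exact h hz

theorem U_sum (C : Cls K x s r P U g u v) :
    ∑ z ∈ iv K (ix K x.1), ∑ w ∈ iv K (ix K x.2.1), U.1 (z, w) ^ 2 ≤ s * 2 ^ K * 2 ^ K := by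
  have h4 : (4 : ℝ) ^ K = 2 ^ K * 2 ^ K := by rw [← mul_pow]; norm_num
  have h1 := C.U_u2
  rw [A2_sum, inv_mul_le_iff₀ (by positivity), h4] at h1
  linarith

/-- **The number of the active rows.** -/
theorem act_card (C : ClsM K x s r P κ U g u v) :
    κ * ((actR K x u).card : ℝ) ≤ s * 2 ^ K := by
  have h1 := U_sum C.toCls
  have h2 : ∑ _z ∈ actR K x u, ∑ _w ∈ iv K (ix K x.2.1), κ ≤
      ∑ z ∈ iv K (ix K x.1), ∑ w ∈ iv K (ix K x.2.1), U.1 (z, w) ^ 2 := by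
    refine (sum_le_sum fun z hz => sum_le_sum fun w hw => ?_).trans
      (sum_le_sum_of_subset_of_nonneg actR_sub fun _ _ _ => sum_nonneg fun _ _ => sq_nonneg _)
    rw [actR, mem_filter] at hz
    rcases C.act z hz.1 with h | h
    · exact h w hw
    · exact absurd h.1 hz.2
  rw [sum_const, sum_const, card_iv, nsmul_eq_mul, nsmul_eq_mul] at h2
  push_cast at h2
  have h3 : (0 : ℝ) < 2 ^ K := by positivity
  have h4 : κ * ((actR K x u).card : ℝ) * 2 ^ K ≤ s * 2 ^ K * 2 ^ K := by linarith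
  exact le_of_mul_le_mul_right h4 h3

theorem act_card' : ((actR K x u).card : ℝ) ≤ 2 ^ K := by
  have h := card_le_card (actR_sub (K := K) (x := x) (u := u))
  rw [card_iv] at h
  exact_mod_cast h

/-- the traces at the root -/
theorem tr_act (C : Cls K x s r P U g u v) :
    ∑ z ∈ actR K x u, (GT u z K (ix K x.2.1)).trace ≤ s * 2 ^ K := by
  have h1 := U_sum C
  have h3 : (0 : ℝ) < 2 ^ K := by positivity
  calc ∑ z ∈ actR K x u, (GT u z K (ix K x.2.1)).trace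
      ≤ ∑ z ∈ iv K (ix K x.1), (GT u z K (ix K x.2.1)).trace :=
        sum_le_sum_of_subset_of_nonneg actR_sub fun _ _ _ => (H677.GT_psd _ _ _ _).trace_nonneg
    _ ≤ ∑ z ∈ iv K (ix K x.1), ((2 : ℝ) ^ K)⁻¹ * ∑ w ∈ iv K (ix K x.2.1), U.1 (z, w) ^ 2 := by
        refine sum_le_sum fun z hz => ?_
        rw [H677.GT_trace]
        exact mul_le_mul_of_nonneg_left (sum_le_sum fun w hw => C.u_le z hz w hw) (by positivity)
    _ ≤ s * 2 ^ K := by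
        rw [← mul_sum, inv_mul_le_iff₀ h3]
        linarith

/-- **The active rows against the height of the fibres.** -/
theorem act_num {p : H401.Num} (ht : 0 < p.t) (ht1 : p.t ≤ 1) (ha0 : 0 ≤ p.a)
    (hL : 1 ≤ p.L) (hs : 0 < s) (hr : 1 ≤ r)
    (C : ClsM K x s r P (kapM p.L p.t p.a s r) U g u v) :
    lam1 p s r * ((actR K x u).card : ℝ) ≤
      p.L * (p.t ^ (-10 : ℝ) * r ^ (8 : ℝ)) * (s * 2 ^ K) := by
  set c : ℝ := ((actR K x u).card : ℝ)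
  have hc0 : 0 ≤ c := Nat.cast_nonneg _
  have h2 : c ≤ 2 ^ K := act_card'
  have h1 : kapM p.L p.t p.a s r * c ≤ s * 2 ^ K := act_card C
  have hS : 0 < √s := Real.sqrt_pos.2 hs
  have hSS : √s * √s = s := Real.mul_self_sqrt hs.le
  have hr8 : 0 < r ^ (8 : ℝ) := Real.rpow_pos_of_pos (by linarith) _
  have t8 : 0 < p.t ^ (-8 : ℝ) := Real.rpow_pos_of_pos ht _
  have t10 : 0 < p.t ^ (-10 : ℝ) := Real.rpow_pos_of_pos ht _
  have h810 : p.t ^ (-8 : ℝ) ≤ p.t ^ (-10 : ℝ) :=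
    Real.rpow_le_rpow_of_exponent_ge ht ht1 (by norm_num)
  have hp : (0 : ℝ) < 2 ^ K := by positivity
  unfold lam1
  rcases le_total 1 (√s) with h | h
  · have h3 : √s ≤ s := by nlinarith
    calc p.t ^ (-8 : ℝ) * √s * r ^ (8 : ℝ) * c ≤ p.t ^ (-10 : ℝ) * s * r ^ (8 : ℝ) * 2 ^ K := by
          gcongr
      _ = 1 * (p.t ^ (-10 : ℝ) * r ^ (8 : ℝ)) * (s * 2 ^ K) := by ring
      _ ≤ _ := by gcongr
  · have hk : p.L⁻¹ * (p.t ^ (2 : ℝ) * √s) ≤ kapM p.L p.t p.a s r := by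
      unfold kapM
      have hL0 : 0 < p.L := by linarith
      refine mul_le_mul_of_nonneg_left (le_min ?_ ?_) (inv_nonneg.2 hL0.le)
      · have : p.t ^ (2 : ℝ) ≤ 1 := Real.rpow_le_one ht.le ht1 (by norm_num)
        exact mul_le_one₀ this hS.le h
      · have h3 : p.t ^ (2 : ℝ) ≤ p.t ^ (2 - p.a) :=
          Real.rpow_le_rpow_of_exponent_ge ht ht1 (by linarith)
        have h0 : 0 < p.t ^ (2 - p.a) := Real.rpow_pos_of_pos ht _
        calc p.t ^ (2 : ℝ) * √s ≤ p.t ^ (2 - p.a) * √s * 1 := by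
              rw [mul_one]
              exact mul_le_mul_of_nonneg_right h3 hS.le
          _ ≤ _ := mul_le_mul_of_nonneg_left hr (by positivity)
    have hL0 : 0 < p.L := by linarith
    have h3 : p.L⁻¹ * (p.t ^ (2 : ℝ) * √s) * c ≤ s * 2 ^ K :=
      (mul_le_mul_of_nonneg_right hk hc0).trans h1
    have h4 : p.t ^ (2 : ℝ) * √s * c ≤ p.L * (s * 2 ^ K) := by
      have h5 := mul_le_mul_of_nonneg_left h3 hL0.le
      rw [mul_assoc p.L⁻¹, mul_inv_cancel_left₀ hL0.ne'] at h5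
      exact h5
    have e1 : p.t ^ (-8 : ℝ) = p.t ^ (-10 : ℝ) * p.t ^ (2 : ℝ) := by
      rw [← Real.rpow_add ht]
      norm_num
    calc p.t ^ (-8 : ℝ) * √s * r ^ (8 : ℝ) * c
        = p.t ^ (-10 : ℝ) * r ^ (8 : ℝ) * (p.t ^ (2 : ℝ) * √s * c) := by rw [e1]; ring
      _ ≤ p.t ^ (-10 : ℝ) * r ^ (8 : ℝ) * (p.L * (s * 2 ^ K)) :=
        mul_le_mul_of_nonneg_left h4 (by positivity)
      _ = _ := by ring

/-- number of levels -/
theorem exists_lvl {Y : ℝ} (hY : 1 ≤ Y) : ∃ A : ℕ, Y ≤ 2 ^ A ∧ (A : ℝ) ≤ 1 + 2 * Real.log Y := by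
  have h2 : (0 : ℝ) < Real.log 2 := Real.log_pos (by norm_num)
  have hl : 0 ≤ Real.log Y := Real.log_nonneg hY
  have h0 : 0 ≤ Real.logb 2 Y := div_nonneg hl h2.le
  refine ⟨⌈Real.logb 2 Y⌉₊, ?_, ?_⟩
  · calc Y = (2 : ℝ) ^ Real.logb 2 Y :=
          (Real.rpow_logb (by norm_num) (by norm_num) (by linarith)).symm
      _ ≤ (2 : ℝ) ^ ((⌈Real.logb 2 Y⌉₊ : ℕ) : ℝ) :=
        Real.rpow_le_rpow_of_exponent_le (by norm_num) (Nat.le_ceil _)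
      _ = _ := Real.rpow_natCast _ _
  · have h3 := (Nat.ceil_lt_add_one h0).le
    have h4 : Real.logb 2 Y ≤ 2 * Real.log Y := by
      unfold Real.logb
      rw [div_le_iff₀ h2]
      have h5 : (1 / 2 : ℝ) ≤ Real.log 2 := by
        have := Real.log_two_gt_d9
        linarith
      nlinarith
    linarith

end act

/-! ### The cut family -/

section cut

variable {ι : Type} [Fintype ι] [DecidableEq ι] {p : H401.Num} {n : ℕ} {e cP : ℝ}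
  {F3 : ℕ → Pt → ℝ} {Q3 : ℕ → Pt → Prop} {K : ℕ} {s r P κ : ℝ} {x : Pt} {U : Tri}
  {g : ℤ → ℤ → ℝ} {u v : ℤ → ℤ → ι → ℝ}

/-- rows of the cut `b`, time `k`, scale `k` -/
theorem rowS (hB : BSl n e cP F3 Q3) (hK : K ≤ n) (x0 z : ℤ) (w : ι → ℝ) {k : ℕ} (hk : k ≤ K)
    (m : ℤ) : ∑ y ∈ iv k m, (bS p s r U K u F3 Q3 x0 k z y ⬝ᵥ w) ^ 2 ≤
      ∑ y ∈ iv k m, kF p.Lm U.1 K F3 k (x0, z, y) ^ 2 * (u z y ⬝ᵥ w) ^ 2 := by
  have h := row_tt (K := K) (f := fun j y => (cb p s r U K u F3 Q3 x0 j z y ⬝ᵥ w) ^ 2)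
    (g := fun j y => (mb p U K u F3 x0 j z y ⬝ᵥ w) ^ 2)
    (fun y => by
      beta_reduce
      rw [H816.cb_zero, zero_dotProduct, zero_pow two_ne_zero])
    (fun y => sq_nonneg _) (fun k hk m => rowb_one p s r U hK u hB x0 z w k hk m) k hk k
    (Or.inl rfl) m
  rw [bS_le hk]
  refine h.trans (le_of_eq (sum_congr rfl fun y _ => ?_))
  beta_reduce
  unfold H401.mb H677.fb
  rw [smul_dotProduct, smul_eq_mul, mul_pow]

/-- time `k`, scale `k + 1` -/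
theorem rowS' (hB : BSl n e cP F3 Q3) (hK : K ≤ n) (x0 z : ℤ) (w : ι → ℝ) {k : ℕ} (hk : k ≤ K)
    (m : ℤ) : ∑ y ∈ iv (k + 1) m, (bS p s r U K u F3 Q3 x0 k z y ⬝ᵥ w) ^ 2 ≤
      ∑ y ∈ iv (k + 1) m, kF p.Lm U.1 K F3 k (x0, z, y) ^ 2 * (u z y ⬝ᵥ w) ^ 2 := by
  rw [H205.sum_iv_two' k m fun y => (bS p s r U K u F3 Q3 x0 k z y ⬝ᵥ w) ^ 2,
    H205.sum_iv_two' k m fun y => kF p.Lm U.1 K F3 k (x0, z, y) ^ 2 * (u z y ⬝ᵥ w) ^ 2]
  exact add_le_add (rowS hB hK x0 z w hk _) (rowS hB hK x0 z w hk _)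

/-- live cells of `x₂` above `x₁` -/
def alS (p : H401.Num) (U : Tri) (K : ℕ) (x1 : ℤ) (k : ℕ) (m : ℤ) : Prop :=
  ∃ x2 ∈ iv k m, ¬ sst p.Lm U.1 K k x1 x2

/-- a time: `k` or `k - 1` -/
def Tm (j : ℕ → ℕ) : Prop := (∀ k, j k = k) ∨ ∀ k, j k = k - 1

theorem dot_all_zero {b : ι → ℝ} (h : ∀ w : ι → ℝ, (b ⬝ᵥ w) ^ 2 ≤ 0) : b = 0 := by
  have h1 := h b
  have h2 : b ⬝ᵥ b = 0 := by nlinarith [dot_nn b]
  exact dotProduct_self_eq_zero.1 h2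

theorem tm_row {j : ℕ → ℕ} (hj : Tm j) (hB : BSl n e cP F3 Q3) (hK : K ≤ n) (x0 z : ℤ)
    (w : ι → ℝ) {k : ℕ} (hk : k ∈ Icc 1 K) (m : ℤ) :
    ∑ y ∈ iv k m, (bS p s r U K u F3 Q3 x0 (j k) z y ⬝ᵥ w) ^ 2 ≤
      ∑ y ∈ iv k m, kF p.Lm U.1 K F3 (j k) (x0, z, y) ^ 2 * (u z y ⬝ᵥ w) ^ 2 := by
  rw [mem_Icc] at hk
  rcases hj with h | h
  · rw [h]
    exact rowS hB hK x0 z w hk.2 m
  · obtain ⟨i, rfl⟩ : ∃ i, k = i + 1 := ⟨k - 1, by omega⟩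
    rw [h, Nat.add_sub_cancel]
    exact rowS' hB hK x0 z w (by omega) m

theorem tm_wt {j : ℕ → ℕ} (hj : Tm j) (hB : BSl n e cP F3 Q3) (he : 0 ≤ e) (hK : K ≤ n) :
    ∀ k ∈ Icc 1 K, ∀ i z y, ∑ x0 ∈ iv k i, kF p.Lm U.1 K F3 (j k) (x0, z, y) ^ 2 ≤ e * 2 ^ k := by
  intro k hk i z y
  rw [mem_Icc] at hk
  rcases hj with h | h
  · rw [h]
    exact H816.line_kF0 hB he U.1 K (hk.2.trans hK) i z y
  · obtain ⟨m, rfl⟩ : ∃ i, k = i + 1 := ⟨k - 1, by omega⟩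
    rw [h, Nat.add_sub_cancel, H205.sum_iv_two' m i fun x0 => kF p.Lm U.1 K F3 m (x0, z, y) ^ 2]
    have h1 := H816.line_kF0 (Λ := p.Lm) hB he U.1 K (k := m) (by omega) (2 * i) z y
    have h2 := H816.line_kF0 (Λ := p.Lm) hB he U.1 K (k := m) (by omega) (2 * i + 1) z y
    rw [pow_succ]
    linarith

/-- a stopped square of scale `k` stops the smaller scales -/
theorem sst_down {Λ : ℝ} {a : ℤ × ℤ → ℝ} {k j : ℕ} (hj : j ≤ k) {z y : ℤ}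
    (h : sst Λ a K k z y) : sst Λ a K j z y := by
  obtain ⟨m, h1, h2, h3⟩ := h
  exact ⟨m, hj.trans h1, h2, h3⟩

theorem tm_dead {j : ℕ → ℕ} (hj : Tm j) (hB : BSl n e cP F3 Q3) (hK : K ≤ n) (x0 z : ℤ)
    {k : ℕ} (hk : k ∈ Icc 1 K) {m : ℤ} (ha : ¬ alS p U K z k m) :
    ∀ y ∈ iv k m, bS p s r U K u F3 Q3 x0 (j k) z y = 0 := by
  intro y hy
  refine dot_all_zero fun w => ?_
  have hjk : j k ≤ k := by
    rcases hj with h | h
    · rw [h]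
    · rw [h]; omega
  have h1 := tm_row hj hB hK x0 z w hk m (p := p) (s := s) (r := r) (U := U) (u := u)
  have h2 : ∑ y ∈ iv k m, kF p.Lm U.1 K F3 (j k) (x0, z, y) ^ 2 * (u z y ⬝ᵥ w) ^ 2 = 0 := by
    refine sum_eq_zero fun y hy => ?_
    have h3 : sst p.Lm U.1 K k z y := by
      by_contra h
      exact ha ⟨y, hy, h⟩
    rw [H816.kF_dead (sst_down hjk h3), zero_pow two_ne_zero, zero_mul]
  rw [h2] at h1
  exact (single_le_sum (f := fun y => (bS p s r U K u F3 Q3 x0 (j k) z y ⬝ᵥ w) ^ 2)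
    (fun _ _ => sq_nonneg _) hy).trans h1

/-- **The payers of the slot `b` at one `x0`.** `b k` : the family at the scale `k`. -/
def payS (be l : ℝ) (o : ℤ) (K : ℕ) (M : Pt) (u : ℤ → ℤ → ι → ℝ) (b : ℕ → ℤ → ℤ → ι → ℝ)
    (x0 : ℤ) : ℝ :=
  ∑ k ∈ Icc 1 K, GW K M.2.1 M.1 M.2.2 k (o - 2 - ix k x0) (fun n n' m => av k n m fun x1 x2 =>
    be⁻¹ * ((ah l K M.2.1 (KT l u x1) (o - 2) x0 x1 (k - 1) n' *ᵥ b k x1 x2) ⬝ᵥ
      (ah l K M.2.1 (KT l u x1) (o - 2) x0 x1 (k - 1) n' *ᵥ b k x1 x2)) +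
    b k x1 x2 ⬝ᵥ eb l K M.2.1 (KT l u x1) (o - 2) x0 x1 k n' *ᵥ b k x1 x2)

theorem form_sq (A : Matrix ι ι ℝ) (w : ι → ℝ) :
    w ⬝ᵥ (Aᵀ * A) *ᵥ w = (A *ᵥ w) ⬝ᵥ (A *ᵥ w) := by
  rw [← mulVec_mulVec, dotProduct_mulVec, vecMul_transpose]

theorem GW_add (N : ℕ) (R S T : ℤ) (k : ℕ) (c : ℤ) (f g : ℤ → ℤ → ℤ → ℝ) :
    GW N R S T k c (fun n n' m => f n n' m + g n n' m) =
      GW N R S T k c f + GW N R S T k c g := by
  unfold GW
  rw [← mul_add, ← sum_add_distrib]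
  congr 1
  refine sum_congr rfl fun m _ => ?_
  rw [← sum_add_distrib]
  refine sum_congr rfl fun n _ => ?_
  split_ifs
  · rfl
  · rw [add_zero]

theorem av_add (k : ℕ) (n m : ℤ) (f g : ℤ → ℤ → ℝ) :
    av k n m (fun x y => f x y + g x y) = av k n m f + av k n m g := by
  unfold H784.av
  rw [← mul_add, ← sum_add_distrib]
  congr 1
  refine sum_congr rfl fun m _ => ?_
  rw [← sum_add_distrib]

/-- **The payers of the cut family**, all `x0` of a root. -/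
theorem pay_num {be l : ℝ} (hbe : 0 < be) (hl : 0 < l) {o : ℤ} (ho : o = 1 ∨ o = -1)
    (hB : BSl n e cP F3 Q3) (he : 0 ≤ e) (hK : K ≤ n) (ht : 0 < p.t) (hs : 0 < s) (hr : 1 ≤ r)
    (hU : FibU p K x s r U u) {j : ℕ → ℕ} (hj : Tm j) (t : ℤ) (A : ℕ) :
    ∑ x0 ∈ iv K t, payS be l o K (cx K x) u (fun k => bS p s r U K u F3 Q3 x0 (j k)) x0 ≤
      (515625000 * be⁻¹ + 89180) *
        (e * (2 ^ K * ∑ z ∈ actR K x u, numB l K (ix K x.2.1) (GT u z) (lam1 p s r) A)) := by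
  have hl1 := (H401.lam1_pos (p := p) ht hs hr).le
  have hT : ∀ z ∈ iv K (ix K x.1), Tr l K (GT u z) (KT l u z) := fun z _ => H677.tr_T hl K u z
  have hG : ∀ z ∈ iv K (ix K x.1), ∀ k ≤ K, ∀ q, GT u z k q =
      ((2 : ℝ) ^ k)⁻¹ • ∑ y ∈ iv k q, vecMulVec (u z y) (u z y) := fun _ _ _ _ _ => rfl
  have hal : ∀ z ∈ iv K (ix K x.1), ∀ k ≤ K, ∀ q ∈ iv (K - k) (ix K x.2.1), alS p U K z k q →
      ∀ i ≤ K - k, (GT u z (k + i) (q / 2 ^ i)).trace ≤ lam1 p s r := by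
    intro z hz k hk q hq ha i hi
    obtain ⟨x2, h1, h2⟩ := ha
    have h3 := H516.al_fib hU hz (mem_iv.2 (H576.root_pt hk hq h1)) h2 i (by omega)
    rwa [mem_iv.1 h1] at h3
  have hrow : ∀ x0 ∈ iv K t, ∀ k ∈ Icc 1 K, ∀ z ∈ iv K (ix K x.1),
      ∀ m ∈ iv (K - k) (ix K x.2.1), alS p U K z k m → ∀ w : ι → ℝ,
      ∑ y ∈ iv k m, (bS p s r U K u F3 Q3 x0 (j k) z y ⬝ᵥ w) ^ 2 ≤
        ∑ y ∈ iv k m, kF p.Lm U.1 K F3 (j k) (x0, z, y) ^ 2 * (u z y ⬝ᵥ w) ^ 2 :=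
    fun x0 _ k hk z _ m _ _ w => tm_row hj hB hK x0 z w hk m
  have hrow0 : ∀ x0 ∈ iv K t, ∀ k ∈ Icc 1 K, ∀ z ∈ iv K (ix K x.1),
      ∀ m ∈ iv (K - k) (ix K x.2.1), ¬ alS p U K z k m →
      ∀ y ∈ iv k m, bS p s r U K u F3 Q3 x0 (j k) z y = 0 :=
    fun x0 _ k hk z _ m _ ha => tm_dead hj hB hK x0 z hk ha
  have h1 := payB_ah_Y (T := ix K x.2.2) (al := alS p U K) (φ := fun k => kF p.Lm U.1 K F3 (j k))
    (B := fun x0 k => bS p s r U K u F3 Q3 x0 (j k)) ho (iv K t) actR_sub actR_off hT hG hl1 hal he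
    (tm_wt hj hB he hK) hrow hrow0
    (F := fun x0 z k m => be⁻¹ • ((ah l K (ix K x.2.1) (KT l u z) (o - 2) x0 z (k - 1) m)ᵀ *
      ah l K (ix K x.2.1) (KT l u z) (o - 2) x0 z (k - 1) m)) (inv_nonneg.2 hbe.le)
    (fun x0 _ z _ k _ m => by
      refine PosSemidef.smul ?_ (inv_nonneg.2 hbe.le)
      have := posSemidef_conjTranspose_mul_self
        (ah l K (ix K x.2.1) (KT l u z) (o - 2) x0 z (k - 1) m)
      rwa [conjTranspose_eq_transpose_of_trivial] at this)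
    (fun x0 _ z _ k _ m w => by
      rw [smul_mulVec, dotProduct_smul, smul_eq_mul, form_sq]) A
  have h2 := payB_eb_Y (T := ix K x.2.2) (al := alS p U K) (φ := fun k => kF p.Lm U.1 K F3 (j k))
    (B := fun x0 k => bS p s r U K u F3 Q3 x0 (j k)) ho (iv K t) actR_sub actR_off hT hG hl1 hal he
    (tm_wt hj hB he hK) hrow hrow0
    (F := fun x0 z k m => eb l K (ix K x.2.1) (KT l u z) (o - 2) x0 z k m) zero_le_one
    (fun x0 _ z hz k _ m => eb_psd (hT z hz) _ _ _ _ _)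
    (fun x0 _ z _ k _ m w => by rw [one_mul]) A
  have e0 : ∀ x0, payS be l o K (cx K x) u (fun k => bS p s r U K u F3 Q3 x0 (j k)) x0 =
      ∑ k ∈ Icc 1 K, GW K (ix K x.2.1) (ix K x.1) (ix K x.2.2) k (o - 2 - ix k x0)
        (fun n n' m => av k n m fun z y => bS p s r U K u F3 Q3 x0 (j k) z y ⬝ᵥ
          (be⁻¹ • ((ah l K (ix K x.2.1) (KT l u z) (o - 2) x0 z (k - 1) n')ᵀ *
            ah l K (ix K x.2.1) (KT l u z) (o - 2) x0 z (k - 1) n')) *ᵥ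
              bS p s r U K u F3 Q3 x0 (j k) z y) +
      ∑ k ∈ Icc 1 K, GW K (ix K x.2.1) (ix K x.1) (ix K x.2.2) k (o - 2 - ix k x0)
        (fun n n' m => av k n m fun z y => bS p s r U K u F3 Q3 x0 (j k) z y ⬝ᵥ
          eb l K (ix K x.2.1) (KT l u z) (o - 2) x0 z k n' *ᵥ
            bS p s r U K u F3 Q3 x0 (j k) z y) := by
    intro x0
    rw [← sum_add_distrib]
    refine sum_congr rfl fun k _ => ?_
    rw [← GW_add]
    show GW K (ix K x.2.1) (ix K x.1) (ix K x.2.2) k (o - 2 - ix k x0) _ = _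
    congr 1
    funext n n' m
    rw [← av_add]
    congr 1
    funext z y
    rw [smul_mulVec, dotProduct_smul, smul_eq_mul, form_sq]
    rfl
  rw [sum_congr rfl fun x0 _ => e0 x0, sum_add_distrib]
  refine (add_le_add h1 h2).trans (le_of_eq ?_)
  rw [← mul_sum, ← mul_sum]
  ring

/-- **The class number of the payers.** -/
theorem pay_cls {be : ℝ} (hbe : 0 < be) {o : ℤ} (ho : o = 1 ∨ o = -1)
    (hB : BSl n e cP F3 Q3) (he : 0 ≤ e) (hK : K ≤ n) (ht : 0 < p.t) (ht1 : p.t ≤ 1)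
    (ha0 : 0 ≤ p.a) (he0 : 0 ≤ p.e0) (hL : 1 ≤ p.L) (hs : 0 < s) (hr : 1 ≤ r)
    (C : ClsM K x s r P (kapM p.L p.t p.a s r) U g u v)
    (hU : FibU p K x s r U u) {j : ℕ → ℕ} (hj : Tm j) (t : ℤ) :
    ∑ x0 ∈ iv K t, payS be (p.lam s r) o K (cx K x) u (fun k => bS p s r U K u F3 Q3 x0 (j k)) x0 ≤
      (515625000 * be⁻¹ + 89180) * (e * (22 * p.L + 50 * Real.log (r / p.t))) * (s * 8 ^ K) := by
  have hr0 : 0 < r := by linarith
  have hS : 0 < √s := Real.sqrt_pos.2 hs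
  have hlam : 0 < p.lam s r :=
    mul_pos (mul_pos (Real.rpow_pos_of_pos ht _) hS) (Real.rpow_pos_of_pos hr0 _)
  have hl1 := H401.lam1_pos (p := p) ht hs hr
  have hrt : 1 ≤ r / p.t := by
    rw [le_div_iff₀ ht]
    linarith
  set Y : ℝ := (r / p.t) ^ (10 : ℝ) with hYd
  have hY : 1 ≤ Y := Real.one_le_rpow hrt (by norm_num)
  have hY0 : 0 < Y := by linarith
  have hlY : Real.log Y = 10 * Real.log (r / p.t) := Real.log_rpow (by linarith) _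
  have hlY0 : 0 ≤ Real.log Y := Real.log_nonneg hY
  have hYe : Y = p.t ^ (-10 : ℝ) * r ^ (10 : ℝ) := by
    rw [hYd, Real.div_rpow hr0.le ht.le, Real.rpow_neg ht.le]
    ring
  have h810 : p.t ^ (-10 : ℝ) * r ^ (8 : ℝ) ≤ Y := by
    rw [hYe]
    exact mul_le_mul_of_nonneg_left (Real.rpow_le_rpow_of_exponent_le hr (by norm_num))
      (Real.rpow_nonneg ht.le _)
  -- the ratio of the heights
  have hrat : lam1 p s r / p.lam s r ≤ Y := by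
    rw [div_le_iff₀ hlam]
    unfold lam1 H401.Num.lam
    have e1 : p.t ^ (-8 : ℝ) ≤ p.t ^ (-10 : ℝ) * p.t ^ (2 - p.e0) := by
      rw [← Real.rpow_add ht]
      exact Real.rpow_le_rpow_of_exponent_ge ht ht1 (by linarith)
    have e2 : (1 : ℝ) ≤ r ^ p.e0 := Real.one_le_rpow hr he0
    have e3 : r ^ (8 : ℝ) ≤ r ^ (10 : ℝ) := Real.rpow_le_rpow_of_exponent_le hr (by norm_num)
    have e4 : 0 < r ^ (10 : ℝ) := Real.rpow_pos_of_pos hr0 _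
    have e5 : 0 < p.t ^ (-10 : ℝ) * p.t ^ (2 - p.e0) :=
      mul_pos (Real.rpow_pos_of_pos ht _) (Real.rpow_pos_of_pos ht _)
    have e6 : 0 < r ^ (8 : ℝ) := Real.rpow_pos_of_pos hr0 _
    calc p.t ^ (-8 : ℝ) * √s * r ^ (8 : ℝ)
        ≤ (p.t ^ (-10 : ℝ) * p.t ^ (2 - p.e0)) * √s * r ^ (10 : ℝ) := by gcongr
      _ ≤ (p.t ^ (-10 : ℝ) * p.t ^ (2 - p.e0)) * √s * r ^ (10 : ℝ) * r ^ p.e0 :=
        le_mul_of_one_le_right (by positivity) e2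
      _ = _ := by rw [hYe]; ring
  have hlog : Real.log (1 + 4 * lam1 p s r / p.lam s r) ≤ 2 + Real.log Y := by
    have h1 : 1 + 4 * lam1 p s r / p.lam s r ≤ 5 * Y := by
      have : 4 * lam1 p s r / p.lam s r = 4 * (lam1 p s r / p.lam s r) := by ring
      rw [this]
      linarith
    have h0 : 0 < 1 + 4 * lam1 p s r / p.lam s r := by positivity
    have h5 : Real.log 5 ≤ 2 := by
      rw [Real.log_le_iff_le_exp (by norm_num)]
      have h6 := Real.add_one_le_exp (1 : ℝ)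
      have h7 : Real.exp 2 = Real.exp 1 * Real.exp 1 := by rw [← Real.exp_add]; norm_num
      have h8 := Real.exp_one_gt_d9
      rw [h7]
      nlinarith
    calc Real.log (1 + 4 * lam1 p s r / p.lam s r) ≤ Real.log (5 * Y) := Real.log_le_log h0 h1
      _ = Real.log 5 + Real.log Y := Real.log_mul (by norm_num) hY0.ne'
      _ ≤ _ := by linarith
  obtain ⟨A, hA1, hA2⟩ := exists_lvl hY
  refine (pay_num hbe hlam ho hB he hK ht hs hr hU hj t A).trans ?_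
  have hsum : ∑ z ∈ actR K x u, numB (p.lam s r) K (ix K x.2.1) (GT u z) (lam1 p s r) A ≤
      2 ^ K * ((22 * p.L + 5 * Real.log Y) * (s * 2 ^ K)) := by
    unfold numB
    rw [← mul_sum]
    refine mul_le_mul_of_nonneg_left ?_ (by positivity)
    rw [sum_add_distrib, ← mul_sum, sum_const, nsmul_eq_mul]
    have h1 : (2 + Real.log (1 + 4 * lam1 p s r / p.lam s r) + 2 * (A : ℝ)) ≤
        6 + 5 * Real.log Y := by linarith
    have h2 := tr_act C.toCls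
    have h3 : 0 ≤ ∑ z ∈ actR K x u, (GT u z K (ix K x.2.1)).trace :=
      sum_nonneg fun z _ => (H677.GT_psd _ _ _ _).trace_nonneg
    have h4 : ((actR K x u).card : ℝ) * (16 * lam1 p s r / 2 ^ A) ≤ 16 * p.L * (s * 2 ^ K) := by
      have h5 := act_num ht ht1 ha0 hL hs hr C
      have h6 : (0 : ℝ) < 2 ^ A := by positivity
      have h7 : lam1 p s r * ((actR K x u).card : ℝ) ≤ p.L * 2 ^ A * (s * 2 ^ K) := by
        refine h5.trans (mul_le_mul_of_nonneg_right (mul_le_mul_of_nonneg_left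
          (h810.trans hA1) (by linarith)) (by positivity))
      have h8 : ((actR K x u).card : ℝ) * (16 * lam1 p s r / 2 ^ A) =
          16 * (lam1 p s r * ((actR K x u).card : ℝ)) / 2 ^ A := by ring
      rw [h8, div_le_iff₀ h6]
      nlinarith
    have h9 : (2 + Real.log (1 + 4 * lam1 p s r / p.lam s r) + 2 * (A : ℝ)) *
        ∑ z ∈ actR K x u, (GT u z K (ix K x.2.1)).trace ≤
        (6 + 5 * Real.log Y) * (s * 2 ^ K) :=
      mul_le_mul h1 h2 h3 (by positivity)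
    have h10 : 6 * (s * 2 ^ K) ≤ 6 * p.L * (s * 2 ^ K) := by
      have : 0 ≤ s * 2 ^ K := by positivity
      nlinarith
    linarith
  have h8 : (8 : ℝ) ^ K = 2 ^ K * (2 ^ K * 2 ^ K) := by rw [← mul_pow, ← mul_pow]; norm_num
  calc (515625000 * be⁻¹ + 89180) * (e * (2 ^ K * ∑ z ∈ actR K x u,
        numB (p.lam s r) K (ix K x.2.1) (GT u z) (lam1 p s r) A))
      ≤ (515625000 * be⁻¹ + 89180) *
        (e * (2 ^ K * (2 ^ K * ((22 * p.L + 5 * Real.log Y) * (s * 2 ^ K))))) := by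
        refine mul_le_mul_of_nonneg_left (mul_le_mul_of_nonneg_left
          (mul_le_mul_of_nonneg_left hsum (by positivity)) he) ?_
        have := inv_nonneg.2 hbe.le
        linarith
    _ = _ := by
        rw [hlY, h8]
        ring

end cut

end

end Vale.Agent.P141.H652
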