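import Vale.Agent.P141.H43.RpZ
import Vale.Agent.P141.H958.PairsE
import Vale.Agent.P141.H408.SkelTI

/-!
# P141, line (A), (TI): the static saturated pair `(A, b)` with labels, and `(A, Bt)`

* `shL2` : a path in the letters of `H958.L2E` on the fine grid;
* `node_lab` : a node of two saturated Gram matrices on the fine grid;
* `pairL` : one `x₀`: the plane sums of the saturated pair, `550 h ^ 2 (D_A + D_b)`.
-/

namespace Vale.Agent.P141.H652

open Finset Matrix Vale.Agent.P075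
open Vale.Agent.P141.PL (Pt iv hs ix cx mem_iv card_iv ix_ix)
open Vale.Agent.P141.PL.H588 (hd Pl Xg mnk)
open Vale.Agent.P141.PL.H804 (bl)
open Vale.Agent.P141.H958 (lbs lb encL encR dup shF shQ shc shF_add shc_add shF_lt shc_pl prs wp
  L2E pwr sum_shift pairE22 sqb_dup sqb_encL Xg_smul)
open Vale.Agent.P141.H736 (sqb sqQ Path Agree)
open Vale.Agent.P141.H103 (QW PA GW)
open Vale.Agent.P141.H338 (cu lf sum_cu_cu)
open Vale.Agent.P141.H43.RpX (VD VD_iso hd_VD gramC_enc gramC_dup phi_isom QW1_psd PA_psd')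
open Vale.Agent.P141.H585.PairCh (phs)

noncomputable section

open scoped Classical

/-- a path on the fine grid -/
theorem shL2 {L N : ℕ} {R S : ℤ} {Q : ℕ → ℤ → ℤ → Prop} {G : ℕ → ℤ → ℤ → ℝ} {D : ℝ}
    (path : ∀ k < N, ∀ n ∈ iv (N - k) R, ∀ m ∈ iv (N - k) S, ¬ Q k n m →
      ∀ y ∈ iv (k + L) n, ∀ z ∈ iv (k + L) m, G (k + 1) y z = G k y z)
    (zero : G 0 = 0)
    (pw : ∑ k ∈ range N, (∑ m ∈ iv (N - k) S, ∑ n ∈ iv (N - k) R,
      if Q k n m then sqb (k + L) n m (G (k + 1)) else 0) ≤ D) :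
    L2E (N + L) R S (shQ L Q) (shF L G) D where
  path := by
    intro k hk n hn m hm hq y hy z hz
    rcases lt_or_ge k L with hkL | hkL
    · rw [shF_lt G hkL]
      rcases Nat.lt_or_ge (k + 1) L with h' | h'
      · rw [shF_lt G h']
      · have e : k + 1 = 0 + L := by omega
        rw [e, shF_add, zero]
    · obtain ⟨j, rfl⟩ := Nat.exists_eq_add_of_le' hkL
      rw [show j + L + 1 = (j + 1) + L by ring, shF_add, shF_add]
      rw [show N + L - (j + L) = N - j by omega] at hn hm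
      refine path j (by omega) n hn m hm (fun hq' => hq ⟨hkL, ?_⟩) y hy z hz
      rwa [Nat.add_sub_cancel]
  zero := by
    rcases Nat.eq_zero_or_pos L with hL | hL
    · subst hL
      have := shF_add 0 G 0
      rw [Nat.add_zero] at this
      rw [this, zero]
    · exact shF_lt G hL
  own := by
    refine le_trans (le_of_eq ?_) pw
    unfold H958.pwr
    rw [sum_shift N L]
    · refine sum_congr rfl fun k _ => ?_
      unfold H736.sqQ
      rw [show k + L + 1 = (k + 1) + L by ring, shF_add, show N + L - (k + L) = N - k by omega]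
      refine sum_congr rfl fun m _ => sum_congr rfl fun n _ => ?_
      unfold H958.shQ
      rw [Nat.add_sub_cancel]
      simp only [Nat.le_add_left, true_and]
    · intro k hk
      unfold H736.sqQ
      refine sum_eq_zero fun m _ => sum_eq_zero fun n _ => ?_
      rw [if_neg]
      intro hq
      exact absurd hq.1 (by omega)

variable {κ : Type*} [Fintype κ] [DecidableEq κ] {L : ℕ} {e : κ → ℤ}

/-- Gram matrix of a function without labels on the fine grid -/
theorem Xg_dup (L k : ℕ) (A : ℤ → ℤ → ℝ) (n m : ℤ) :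
    Xg (k + L) (k + L) (dup L A) n m = VD L k * PA A k k n m * (VD L k)ᵀ := by
  have h := gramC_dup L k A n m 1
  simp only [one_pow, inv_one, one_smul, one_mul] at h
  rw [← h]
  have e4 : (4 : ℝ) ^ (k + L) = 2 ^ (k + L) * 2 ^ (k + L) := by rw [← mul_pow]; norm_num
  rw [e4]
  rfl

/-- Gram matrix of a labelled function on the fine grid -/
theorem Xg_lab (he : Function.Injective e) (hm : ∀ i, e i ∈ lbs L) (k : ℕ)
    (w : ℤ → ℤ → κ → ℝ) (n m : ℤ) :
    Xg (k + L) (k + L) (encL L (lf e fun q x y => w x y q)) n m =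
      VD L k * QW k k w (fun _ => 1) n m * (VD L k)ᵀ := by
  have h := gramC_enc he hm k w m n 1
  simp only [one_pow, inv_one, one_smul, one_mul] at h
  rw [← h]
  have e4 : (4 : ℝ) ^ (k + L) = 2 ^ (k + L) * 2 ^ (k + L) := by rw [← mul_pow]; norm_num
  rw [e4]
  rfl

/-- **The mixed term of two saturated Gram matrices on the fine grid.** -/
theorem mnk_lab (he : Function.Injective e) (hm : ∀ i, e i ∈ lbs L) (N : ℕ) (R S T : ℤ) {k : ℕ}
    (hk : 1 ≤ k) (c : ℤ) (A : ℤ → ℤ → ℝ) (b : ℤ → ℤ → κ → ℝ) {μ ν : ℝ} (hμ : 0 ≤ μ)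
    (hν : 0 ≤ ν) :
    mnk (N + L) R S T (k + L) c (fun x y => √μ * dup L A x y)
      (fun x y => √ν * encL L (lf e fun q x y => b x y q) x y) =
    4 ^ L * GW N R S T k c (fun n n' m => (phi (μ • PA A k k n m) *
      (hd k * phi (ν • QW k k b (fun _ => 1) n' m) * hd k)).trace) := by
  unfold PL.H588.mnk H103.GW
  rw [show N + L - (k + L) = N - k by omega, pow_add, mul_comm ((4 : ℝ) ^ k), mul_assoc]
  congr 2
  refine sum_congr rfl fun m _ => sum_congr rfl fun n _ => ?_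
  split_ifs
  · rw [Xg_smul _ _ hμ, Xg_smul _ _ hν, Xg_dup, Xg_lab he hm]
    have e1 : ∀ (a : ℝ) (X : Matrix (Ix k) (Ix k) ℝ),
        a • (VD L k * X * (VD L k)ᵀ) = VD L k * (a • X) * (VD L k)ᵀ := fun a X => by
      rw [Matrix.mul_smul, Matrix.smul_mul]
    rw [e1, e1, phi_isom (VD_iso L k) ((PA_psd' _ _ _ _).smul hμ),
      phi_isom (VD_iso L k) ((QW1_psd _ _ _ _).smul hν)]
    set P := phi (μ • PA A k k n m)
    set Q := phi (ν • QW k k b (fun _ => 1) (c - m - n) m)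
    have hV := VD_iso L k
    have hhV := hd_VD L hk
    have h2 : (VD L k)ᵀ * hd (k + L) = hd k * (VD L k)ᵀ := by
      have h3 := congrArg Matrix.transpose hhV
      rwa [transpose_mul, transpose_mul, PL.H804.hd_symm, PL.H804.hd_symm] at h3
    have h1 : hd (k + L) * (VD L k * Q * (VD L k)ᵀ) * hd (k + L) =
        VD L k * (hd k * Q * hd k) * (VD L k)ᵀ := by
      calc hd (k + L) * (VD L k * Q * (VD L k)ᵀ) * hd (k + L)
          = (hd (k + L) * VD L k) * Q * ((VD L k)ᵀ * hd (k + L)) := by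
            simp only [Matrix.mul_assoc]
        _ = _ := by rw [hhV, h2]; simp only [Matrix.mul_assoc]
    rw [h1]
    calc (VD L k * P * (VD L k)ᵀ * (VD L k * (hd k * Q * hd k) * (VD L k)ᵀ)).trace
        = (VD L k * (P * ((VD L k)ᵀ * VD L k) * (hd k * Q * hd k)) * (VD L k)ᵀ).trace := by
          simp only [Matrix.mul_assoc]
      _ = (VD L k * (P * (hd k * Q * hd k)) * (VD L k)ᵀ).trace := by rw [hV, Matrix.mul_one]
      _ = ((VD L k)ᵀ * (VD L k * (P * (hd k * Q * hd k)))).trace := trace_mul_comm _ _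
      _ = _ := by rw [← Matrix.mul_assoc, hV, Matrix.one_mul]
  · rfl

/-- `L²` sum of a vector function on a square -/
def sqv (k : ℕ) (n m : ℤ) (w : ℤ → ℤ → κ → ℝ) : ℝ := ∑ x ∈ iv k n, ∑ y ∈ iv k m, w x y ⬝ᵥ w x y

omit [DecidableEq κ] in
theorem sqv_nonneg (k : ℕ) (n m : ℤ) (w : ℤ → ℤ → κ → ℝ) : 0 ≤ sqv k n m w :=
  sum_nonneg fun _ _ => sum_nonneg fun _ _ => H922.dot_self_nonneg _

omit [DecidableEq κ] in
theorem sqb_lab (he : Function.Injective e) (hm : ∀ i, e i ∈ lbs L) (k : ℕ) (n m : ℤ)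
    (w : ℤ → ℤ → κ → ℝ) :
    sqb (k + L) n m (encL L (lf e fun q x y => w x y q)) = 4 ^ L * sqv k n m w := by
  rw [sqb_encL]
  congr 1
  unfold H736.sqb sqv
  rw [sum_comm, sum_comm (s := iv k n)]
  refine sum_congr rfl fun y _ => ?_
  rw [sum_comm]
  refine sum_congr rfl fun x _ => ?_
  have h := sum_cu_cu he hm (w x y) (w x y)
  refine Eq.trans ?_ h
  exact sum_congr rfl fun l _ => sq _

omit [Fintype κ] [DecidableEq κ] in
theorem exists_enc (κ : Type*) [Fintype κ] :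
    ∃ (L : ℕ) (e : κ → ℤ), Function.Injective e ∧ ∀ i, e i ∈ lbs L := by
  refine ⟨Fintype.card κ, fun i => ((Fintype.equivFin κ i : ℕ) : ℤ), ?_, ?_⟩
  · intro i j h
    simp only at h
    have h1 : (Fintype.equivFin κ i : ℕ) = (Fintype.equivFin κ j : ℕ) := by exact_mod_cast h
    exact (Fintype.equivFin κ).injective (Fin.ext h1)
  · intro i
    unfold H958.lbs
    rw [mem_Ico]
    refine ⟨by positivity, ?_⟩
    have h1 : (Fintype.equivFin κ i : ℕ) < 2 ^ Fintype.card κ :=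
      (Fintype.equivFin κ i).2.trans Nat.lt_two_pow_self
    simp only
    exact_mod_cast h1

/-- a factor of a saturated pair taken out -/
theorem phs_pair {n : Type*} [Fintype n] [DecidableEq n] (x y : ℝ) (X Y h : Matrix n n ℝ) :
    (phs (x ^ 2) X * (h * phs (y ^ 2) Y * h)).trace =
      x ^ 2 * y ^ 2 * (phi ((x ^ 2)⁻¹ • X) * (h * phi ((y ^ 2)⁻¹ • Y) * h)).trace := by
  unfold H585.PairCh.phs
  simp only [Matrix.smul_mul, Matrix.mul_smul, trace_smul, smul_eq_mul]
  ring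

/-- **The static saturated pair at one `x₀`.** -/
theorem pairL {N : ℕ} {R S T : ℤ} {c : ℕ → ℤ} (hc : Pl c) {Q Q' : ℕ → ℤ → ℤ → Prop}
    {A : ℕ → ℤ → ℤ → ℝ} {b : ℕ → ℤ → ℤ → κ → ℝ}
    (hA : ∀ k < N, ∀ n ∈ iv (N - k) R, ∀ m ∈ iv (N - k) S, ¬ Q k n m →
      ∀ z ∈ iv k n, ∀ y ∈ iv k m, A (k + 1) z y = A k z y)
    (hb : ∀ k < N, ∀ n ∈ iv (N - k) T, ∀ m ∈ iv (N - k) S, ¬ Q' k n m →
      ∀ x ∈ iv k n, ∀ y ∈ iv k m, b (k + 1) x y = b k x y)
    (hA0 : A 0 = 0) (hb0 : b 0 = 0) {DA DB : ℝ}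
    (hDA : ∑ k ∈ range N, (∑ m ∈ iv (N - k) S, ∑ n ∈ iv (N - k) R,
      if Q k n m then sqb k n m (A (k + 1)) else 0) ≤ DA)
    (hDB : ∑ k ∈ range N, (∑ m ∈ iv (N - k) S, ∑ n ∈ iv (N - k) T,
      if Q' k n m then sqv k n m (b (k + 1)) else 0) ≤ DB) {x y : ℝ} (hx : 0 < x) (hy : 0 < y) :
    ∑ k ∈ Icc 1 N, GW N R S T k (c k) (fun n n' m => (phs (x ^ 2) (PA (A k) k k n m) *
      (hd k * phs (y ^ 2) (QW k k (b k) (fun _ => 1) n' m) * hd k)).trace) ≤
      550 * (y ^ 2 * DA + x ^ 2 * DB) := by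
  obtain ⟨L, e, he, hm⟩ := exists_enc κ
  set μ : ℝ := (x ^ 2)⁻¹ with hμd
  set ν : ℝ := (y ^ 2)⁻¹ with hνd
  have hμ : 0 ≤ μ := by positivity
  have hν : 0 ≤ ν := by positivity
  have hF : L2E (N + L) R S (shQ L Q) (shF L fun k => dup L (A k)) (4 ^ L * DA) := by
    refine shL2 (fun k hk n hn m hm' hq y' hy' z' hz' => ?_) ?_ ?_
    · rw [H958.dup_apply, H958.dup_apply]
      exact hA k hk n hn m hm' hq _ (H958.mem_iv_add.1 hy') _ (H958.mem_iv_add.1 hz')
    · simp only [hA0]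
      rfl
    · refine le_trans (le_of_eq ?_) (mul_le_mul_of_nonneg_left hDA (by positivity))
      rw [mul_sum]
      refine sum_congr rfl fun k _ => ?_
      rw [mul_sum]
      refine sum_congr rfl fun m _ => ?_
      rw [mul_sum]
      refine sum_congr rfl fun n _ => ?_
      split_ifs
      · exact sqb_dup L k n m _
      · rw [mul_zero]
  have hH : L2E (N + L) T S (shQ L Q') (shF L fun k => encL L (lf e fun q x y => b k x y q))
      (4 ^ L * DB) := by
    refine shL2 (fun k hk n hn m hm' hq y' hy' z' hz' => ?_) ?_ ?_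
    · rw [H958.encL_apply, H958.encL_apply]
      unfold H338.lf
      simp only
      rw [hb k hk n hn m hm' hq _ (H958.mem_iv_add.1 hy') _ (H958.mem_iv_add.1 hz')]
    · funext x' y'
      rw [H958.encL_apply]
      unfold H338.lf H338.cu
      rw [hb0]
      simp
    · refine le_trans (le_of_eq ?_) (mul_le_mul_of_nonneg_left hDB (by positivity))
      rw [mul_sum]
      refine sum_congr rfl fun k _ => ?_
      rw [mul_sum]
      refine sum_congr rfl fun m _ => ?_
      rw [mul_sum]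
      refine sum_congr rfl fun n _ => ?_
      split_ifs
      · exact sqb_lab he hm k n m _
      · rw [mul_zero]
  have h1 := pairE22 (c := shc L c) (shc_pl hc) (hF.smul hμ) (hH.smul hν)
  have h2 : 4 ^ L * ∑ k ∈ Icc 1 N, GW N R S T k (c k) (fun n n' m =>
      (phi (μ • PA (A k) k k n m) *
        (hd k * phi (ν • QW k k (b k) (fun _ => 1) n' m) * hd k)).trace) ≤
      prs (N + L) R S T (shc L c) (wp μ (shF L fun k => dup L (A k)))
        (wp ν (shF L fun k => encL L (lf e fun q x y => b k x y q))) := by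
    unfold H958.prs
    have h3 : ∀ k, 0 ≤ mnk (N + L) R S T k (shc L c k) (wp μ (shF L fun k => dup L (A k)) k)
        (wp ν (shF L fun k => encL L (lf e fun q x y => b k x y q)) k) := by
      intro k
      unfold PL.H588.mnk
      refine mul_nonneg (by positivity) (sum_nonneg fun m _ => sum_nonneg fun n _ => ?_)
      split_ifs
      · exact trace_mul_nonneg (phi_psd (PL.H588.Xg_psd ..))
          (psd_conj_symm (phi_psd (PL.H588.Xg_psd ..)) (PL.H804.hd_symm k))
      · exact le_rfl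
    have h4 : (Icc 1 N).map (addRightEmbedding L) ⊆ Icc 1 (N + L) := by
      intro k hk
      rw [mem_map] at hk
      obtain ⟨j, hj, rfl⟩ := hk
      rw [mem_Icc] at hj ⊢
      simp only [addRightEmbedding_apply]
      omega
    refine le_trans ?_ (sum_le_sum_of_subset_of_nonneg h4 fun k _ _ => h3 k)
    rw [sum_map, mul_sum]
    refine sum_le_sum fun k hk => le_of_eq ?_
    simp only [addRightEmbedding_apply]
    unfold H958.wp
    rw [shc_add, shF_add, shF_add]
    exact (mnk_lab he hm N R S T (mem_Icc.1 hk).1 (c k) (A k) (b k) hμ hν).symm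
  have h5 : ∑ k ∈ Icc 1 N, GW N R S T k (c k) (fun n n' m =>
      (phi (μ • PA (A k) k k n m) *
        (hd k * phi (ν • QW k k (b k) (fun _ => 1) n' m) * hd k)).trace) ≤
      550 * (μ * DA + ν * DB) := by
    have h6 : (0 : ℝ) < 4 ^ L := by positivity
    have h7 := h2.trans h1
    have h8 : 550 * (μ * (4 ^ L * DA) + ν * (4 ^ L * DB)) =
        4 ^ L * (550 * (μ * DA + ν * DB)) := by ring
    rw [h8] at h7
    exact le_of_mul_le_mul_left h7 h6
  have h6 : ∀ k, GW N R S T k (c k) (fun n n' m => (phs (x ^ 2) (PA (A k) k k n m) *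
      (hd k * phs (y ^ 2) (QW k k (b k) (fun _ => 1) n' m) * hd k)).trace) =
      x ^ 2 * y ^ 2 * GW N R S T k (c k) (fun n n' m => (phi (μ • PA (A k) k k n m) *
        (hd k * phi (ν • QW k k (b k) (fun _ => 1) n' m) * hd k)).trace) := by
    intro k
    simp only [phs_pair]
    unfold H103.GW
    rw [mul_left_comm]
    congr 1
    rw [mul_sum]
    refine sum_congr rfl fun m _ => ?_
    rw [mul_sum]
    refine sum_congr rfl fun n _ => ?_
    split_ifs
    · rfl
    · rw [mul_zero]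
  rw [sum_congr rfl fun k _ => h6 k, ← mul_sum]
  refine (mul_le_mul_of_nonneg_left h5 (by positivity)).trans (le_of_eq ?_)
  rw [hμd, hνd]
  field_simp

/-! ### Nodes with a dominated second function -/

/-- `phs` is monotone -/
theorem phs_mono {n : Type*} [Fintype n] [DecidableEq n] {s : ℝ} (hs : 0 ≤ s)
    {X Y : Matrix n n ℝ} (hX : X.PosSemidef) (h : (Y - X).PosSemidef) :
    (phs s Y - phs s X).PosSemidef := by
  unfold H585.PairCh.phs
  have h1 := PL.H804.phi_mono (hX.smul (inv_nonneg.2 hs)) (h.smul (inv_nonneg.2 hs))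
  rw [← smul_add, add_sub_cancel] at h1
  have h2 := h1.smul hs
  rwa [smul_sub] at h2

omit [DecidableEq κ] in
/-- the Gram matrix of `√2 b` -/
theorem QW_two [DecidableEq κ] (k : ℕ) (b : ℤ → ℤ → κ → ℝ) (n m : ℤ) :
    QW k k (fun x y => √2 • b x y) (fun _ => 1) n m = (2 : ℝ) • QW k k b (fun _ => 1) n m := by
  ext i j
  rw [Matrix.smul_apply, smul_eq_mul]
  unfold H103.QW
  rw [mul_left_comm, mul_sum (a := (2 : ℝ))]
  congr 1
  refine sum_congr rfl fun x _ => ?_
  rw [one_mulVec, one_mulVec, smul_dotProduct, dotProduct_smul, smul_eq_mul, smul_eq_mul,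
    ← mul_assoc, Real.mul_self_sqrt (by norm_num)]

/-- **The static saturated pair at one `x₀`, second function dominated at every node.** -/
theorem rAB_x0 {κ' : Type*} [Fintype κ'] [DecidableEq κ'] {N : ℕ} {M : Pt} {c : ℕ → ℤ}
    (hc : Pl c) {Q Q' : ℕ → ℤ → ℤ → Prop}
    {A : ℕ → ℤ → ℤ → ℝ} {b : ℕ → ℤ → ℤ → κ → ℝ} {B : ℕ → Pt → ℤ → ℤ → κ' → ℝ}
    (hA : ∀ k < N, ∀ n ∈ iv (N - k) M.1, ∀ m ∈ iv (N - k) M.2.1, ¬ Q k n m →
      ∀ z ∈ iv k n, ∀ y ∈ iv k m, A (k + 1) z y = A k z y)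
    (hb : ∀ k < N, ∀ n ∈ iv (N - k) M.2.2, ∀ m ∈ iv (N - k) M.2.1, ¬ Q' k n m →
      ∀ x ∈ iv k n, ∀ y ∈ iv k m, b (k + 1) x y = b k x y)
    (hA0 : A 0 = 0) (hb0 : b 0 = 0) {DA DB : ℝ}
    (hDA : ∑ k ∈ range N, (∑ m ∈ iv (N - k) M.2.1, ∑ n ∈ iv (N - k) M.1,
      if Q k n m then sqb k n m (A (k + 1)) else 0) ≤ DA)
    (hDB : ∑ k ∈ range N, (∑ m ∈ iv (N - k) M.2.1, ∑ n ∈ iv (N - k) M.2.2,
      if Q' k n m then sqv k n m (b (k + 1)) else 0) ≤ DB) {x y : ℝ} (hx : 0 < x) (hy : 0 < y)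
    {s : ℕ → Finset Pt} (hs : ∀ k ∈ Icc 1 N, s k ⊆ PL.H804.bx3 N M k (c k))
    (hB : ∀ k ∈ Icc 1 N, ∀ m ∈ s k, ((2 : ℝ) • QW k k (b k) (fun _ => 1) m.2.2 m.2.1 -
      QW k k (B k m) (fun _ => 1) m.2.2 m.2.1).PosSemidef) :
    ∑ k ∈ Icc 1 N, ∑ m ∈ s k, H408.rAB (A k) (B k m) k m x y ≤
      550 * (y ^ 2 * DA + 2 * x ^ 2 * DB) := by
  have h1 := pairL (c := c) hc (b := fun k x y => √2 • b k x y) hA
    (fun k hk n hn m hm hq x hx y hy => by rw [hb k hk n hn m hm hq x hx y hy]) hA0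
    (by funext x' y'; simp [hb0]) hDA (DB := 2 * DB) (by
      refine le_trans (le_of_eq ?_) (mul_le_mul_of_nonneg_left hDB (by norm_num : (0:ℝ) ≤ 2))
      rw [mul_sum]
      refine sum_congr rfl fun k _ => ?_
      rw [mul_sum]
      refine sum_congr rfl fun m _ => ?_
      rw [mul_sum]
      refine sum_congr rfl fun n _ => ?_
      split_ifs
      · unfold sqv
        rw [mul_sum]
        refine sum_congr rfl fun x _ => ?_
        rw [mul_sum]
        refine sum_congr rfl fun y _ => ?_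
        rw [smul_dotProduct, dotProduct_smul, smul_eq_mul, smul_eq_mul, ← mul_assoc,
          Real.mul_self_sqrt (by norm_num)]
      · rw [mul_zero]) hx hy
  refine le_trans ?_ (h1.trans (le_of_eq (by ring)))
  refine sum_le_sum fun k hk => ?_
  have hnn : ∀ m : Pt, 0 ≤ 4 ^ k * (phs (x ^ 2) (PA (A k) k k m.1 m.2.1) * (hd k * phs (y ^ 2)
      (QW k k (fun x y => √2 • b k x y) (fun _ => 1) m.2.2 m.2.1) * hd k)).trace := by
    intro m
    refine mul_nonneg (by positivity) (trace_mul_nonneg ?_ (psd_conj_symm ?_ (PL.H804.hd_symm k)))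
    · exact (phi_psd ((PA_psd' _ _ _ _).smul (by positivity))).smul (by positivity)
    · exact (phi_psd ((QW1_psd _ _ _ _).smul (by positivity))).smul (by positivity)
  have h2 : ∀ m ∈ s k, H408.rAB (A k) (B k m) k m x y ≤
      4 ^ k * (phs (x ^ 2) (PA (A k) k k m.1 m.2.1) * (hd k * phs (y ^ 2)
      (QW k k (fun x y => √2 • b k x y) (fun _ => 1) m.2.2 m.2.1) * hd k)).trace := by
    intro m hm
    unfold H408.rAB
    refine mul_le_mul_of_nonneg_left ?_ (by positivity)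
    refine trace_mul_le_right
      ((phi_psd ((PA_psd' _ _ _ _).smul (by positivity))).smul (by positivity)) ?_
    rw [QW_two]
    have h3 := phs_mono (s := y ^ 2) (by positivity) (QW1_psd k (B k m) m.2.2 m.2.1)
      (hB k hk m hm)
    have h4 := psd_conj_symm h3 (PL.H804.hd_symm k)
    rwa [Matrix.mul_sub, Matrix.sub_mul] at h4
  refine (sum_le_sum h2).trans ((sum_le_sum_of_subset_of_nonneg (hs k hk) fun m _ _ =>
    hnn m).trans (le_of_eq ?_))
  rw [PL.H804.sum_bx3_21]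
  unfold H103.GW
  rw [mul_sum]
  refine sum_congr rfl fun m2 _ => ?_
  rw [mul_sum]
  refine sum_congr rfl fun m1 _ => ?_
  split_ifs
  · rfl
  · rw [mul_zero]

/-! ### The sum over `x₀` -/

/-- **Masses on the affected squares, summed over `x₀`.** -/
theorem mass_x0 {K : ℕ} {R S t : ℤ} {q : ℕ → ℤ → ℤ → ℤ → Prop} {f : ℤ → ℕ → ℤ → ℤ → ℝ}
    {mu cP : ℝ} (hmu : 0 ≤ mu)
    (hm : ∀ k < K, ∀ i, ∀ n ∈ iv (K - k) R, ∀ m ∈ iv (K - k) S,
      ∑ x0 ∈ iv k i, f x0 k n m ≤ mu * 8 ^ k)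
    (hp : ∀ x0 ∈ iv K t, ∑ k ∈ range K, H588G.cnt K R S k (q k (ix k x0)) ≤ cP * 4 ^ K) :
    ∑ x0 ∈ iv K t, ∑ k ∈ range K, ∑ m ∈ iv (K - k) S, ∑ n ∈ iv (K - k) R,
      (if q k (ix k x0) n m then f x0 k n m else 0) ≤ mu * (cP * 8 ^ K) := by
  have h1 : ∀ k ∈ range K, ∑ x0 ∈ iv K t, ∑ m ∈ iv (K - k) S, ∑ n ∈ iv (K - k) R,
      (if q k (ix k x0) n m then f x0 k n m else 0) ≤
      mu * ∑ x0 ∈ iv K t, H588G.cnt K R S k (q k (ix k x0)) := by
    intro k hk
    have hkK : k < K := mem_range.1 hk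
    rw [← PL.H804.iv_sum hkK.le, ← PL.H804.iv_sum hkK.le, mul_sum]
    refine sum_le_sum fun i _ => ?_
    have e1 : ∀ x0 ∈ iv k i, ∑ m ∈ iv (K - k) S, ∑ n ∈ iv (K - k) R,
        (if q k (ix k x0) n m then f x0 k n m else 0) =
        ∑ m ∈ iv (K - k) S, ∑ n ∈ iv (K - k) R, (if q k i n m then f x0 k n m else 0) := by
      intro x0 hx0
      rw [mem_iv.1 hx0]
    have e2 : ∀ x0 ∈ iv k i, H588G.cnt K R S k (q k (ix k x0)) =
        H588G.cnt K R S k (q k i) := by
      intro x0 hx0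
      rw [mem_iv.1 hx0]
    rw [sum_congr rfl e1, sum_congr rfl e2, sum_const, card_iv, nsmul_eq_mul, sum_comm]
    unfold H588G.cnt
    push_cast
    have e8 : (8 : ℝ) ^ k = 2 ^ k * 4 ^ k := by rw [← mul_pow]; norm_num
    rw [show mu * (2 ^ k * (4 ^ k * ∑ m ∈ iv (K - k) S, ∑ n ∈ iv (K - k) R,
      (if q k i n m then (1 : ℝ) else 0))) = ∑ m ∈ iv (K - k) S, ∑ n ∈ iv (K - k) R,
      mu * (2 ^ k * 4 ^ k) * (if q k i n m then (1 : ℝ) else 0) by
        simp only [← mul_sum]; ring]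
    refine sum_le_sum fun m hm' => ?_
    rw [sum_comm]
    refine sum_le_sum fun n hn => ?_
    by_cases hq : q k i n m
    · simp only [if_pos hq]
      refine (hm k hkK i n hn m hm').trans (le_of_eq ?_)
      rw [e8, mul_one]
    · simp only [if_neg hq]
      simp
  rw [sum_comm]
  refine (sum_le_sum h1).trans ?_
  rw [← mul_sum]
  refine mul_le_mul_of_nonneg_left ?_ hmu
  rw [sum_comm]
  refine (sum_le_sum hp).trans (le_of_eq ?_)
  rw [sum_const, card_iv, nsmul_eq_mul]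
  push_cast
  have e8 : (8 : ℝ) ^ K = 2 ^ K * 4 ^ K := by rw [← mul_pow]; norm_num
  rw [e8]
  ring

end

end Vale.Agent.P141.H652
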