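import Vale.Agent.P141.H652.PairAB

/-!
# P141, line (A), (TI): the static saturated pair `(A, Bt)` of `H408.SkelTI`

* `W_dom`, `QW_Bt` : `Bt = W ^ (-1/2) Th b` is dominated by `√2 b`;
* `PAB_le` : `PABf be h ≤ 4950 μ cP h ^ 2 8 ^ K` from masses on the affected squares.
-/

namespace Vale.Agent.P141.H652

open Finset Matrix Vale.Agent.P075
open Vale.Agent.P141.PL (Pt iv hs ix cx mem_iv card_iv ix_ix)
open Vale.Agent.P141.PL.H588 (hd Pl)
open Vale.Agent.P141.H736 (sqb)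
open Vale.Agent.P141.H103 (QW PA QW_psd)
open Vale.Agent.P141.H677 (KT GT sN rt tr_T)
open Vale.Agent.P141.H677.Sk (FamA FamV)
open Vale.Agent.P141.H408 (Bt Wg Wg_pd PABf SN rAB)
open Vale.Agent.P141.H420 (Tr)

noncomputable section

open scoped Classical

variable {κ : Type*} [Fintype κ] [DecidableEq κ]

/-- `Th W⁻¹ Th ≤ 2`, `W = be + Th` -/
theorem W_dom {be : ℝ} (hbe : 0 < be) {Θ r : Matrix κ κ ℝ} (h0 : Θ.PosSemidef)
    (h2 : ((2 : ℝ) • (1 : Matrix κ κ ℝ) - Θ).PosSemidef) (hr : r.PosDef)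
    (hrr : r * r = be • (1 : Matrix κ κ ℝ) + Θ) :
    ((2 : ℝ) • (1 : Matrix κ κ ℝ) - Θ * (r⁻¹ * r⁻¹) * Θ).PosSemidef := by
  have hd : IsUnit r.det := (Matrix.isUnit_iff_isUnit_det _).1 hr.isUnit
  set ri := r⁻¹ with hri
  have e1 : ri * r = 1 := nonsing_inv_mul _ hd
  have e2 : r * ri = 1 := mul_nonsing_inv _ hd
  have hrit : riᵀ = ri := by
    have h := hr.inv.isHermitian
    rwa [IsHermitian, conjTranspose_eq_transpose_of_trivial] at h
  have eT : Θ = r * r - be • (1 : Matrix κ κ ℝ) := by rw [hrr]; abel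
  have e3 : ri * Θ * ri = 1 - be • (ri * ri) := by
    rw [eT, Matrix.mul_sub, Matrix.sub_mul]
    have a1 : ri * (r * r) * ri = 1 := by
      calc ri * (r * r) * ri = (ri * r) * (r * ri) := by simp only [Matrix.mul_assoc]
        _ = 1 := by rw [e1, e2, Matrix.one_mul]
    rw [a1, Matrix.mul_smul, Matrix.smul_mul, Matrix.mul_one]
  have e4 : Θ * (ri * ri) * Θ = r * r - (2 * be) • (1 : Matrix κ κ ℝ) + (be * be) • (ri * ri) := by
    have a1 : r * r * (ri * ri) = 1 := by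
      calc r * r * (ri * ri) = r * (r * ri) * ri := by simp only [Matrix.mul_assoc]
        _ = 1 := by rw [e2, Matrix.mul_one, e2]
    have a2 : ri * ri * (r * r) = 1 := by
      calc ri * ri * (r * r) = ri * (ri * r) * r := by simp only [Matrix.mul_assoc]
        _ = 1 := by rw [e1, Matrix.mul_one, e1]
    rw [eT]
    have a3 : (r * r - be • (1 : Matrix κ κ ℝ)) * (ri * ri) = 1 - be • (ri * ri) := by
      rw [Matrix.sub_mul, a1, Matrix.smul_mul, Matrix.one_mul]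
    rw [a3, Matrix.sub_mul, Matrix.one_mul, Matrix.smul_mul, Matrix.mul_sub, a2, Matrix.mul_smul,
      Matrix.mul_one, smul_sub, smul_smul, two_mul, add_smul]
    abel
  have e5 : (2 : ℝ) • (1 : Matrix κ κ ℝ) - Θ * (ri * ri) * Θ =
      ((2 : ℝ) • (1 : Matrix κ κ ℝ) - Θ) + be • (ri * Θ * ri) := by
    rw [e4, e3, smul_sub, smul_smul, two_mul, add_smul, eT]
    abel
  rw [e5]
  refine h2.add (PosSemidef.smul ?_ hbe.le)
  have h := psd_conj_symm h0 hrit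
  exact h

/-- the weighted Gram matrix of `Bt` -/
theorem QW_Bt_eq (be l : ℝ) (N : ℕ) (S : ℤ) {G Kq : ℤ → ℕ → ℤ → Matrix κ κ ℝ} (hbe : 0 < be)
    (h : ∀ x, Tr l N (G x) (Kq x)) (c x0 : ℤ) (b : ℤ → ℤ → κ → ℝ) (k : ℕ) (j n m : ℤ) :
    QW k k (Bt be l N S Kq c x0 b k j) (fun _ => 1) n m =
      QW k k b (fun x => Th l N S (Kq x) c x0 x k j *
        ((H408.sq (Wg be l N S Kq c x0 x k j))⁻¹ * (H408.sq (Wg be l N S Kq c x0 x k j))⁻¹) *
          Th l N S (Kq x) c x0 x k j) n m := by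
  ext p q
  unfold H103.QW
  congr 1
  refine sum_congr rfl fun x _ => ?_
  rw [one_mulVec]
  unfold H408.Bt
  have hT : (Th l N S (Kq x) c x0 x k j)ᵀ = Th l N S (Kq x) c x0 x k j :=
    (Th_psd (h x) c x0 x k j).isHermitian
  obtain ⟨h1, _⟩ := H408.sq_spec (Wg_pd hbe h c x0 x k j (S := S))
  have hrt : ((H408.sq (Wg be l N S Kq c x0 x k j))⁻¹)ᵀ =
      (H408.sq (Wg be l N S Kq c x0 x k j))⁻¹ := h1.inv.isHermitian
  set r := (H408.sq (Wg be l N S Kq c x0 x k j))⁻¹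
  set T := Th l N S (Kq x) c x0 x k j
  rw [dotProduct_mulVec, dotProduct_mulVec, ← mulVec_transpose, ← mulVec_transpose, hrt, hT,
    mulVec_mulVec, mulVec_mulVec, dotProduct_mulVec, ← mulVec_transpose]
  congr 1
  rw [transpose_mul, transpose_mul, transpose_mul, hrt, hT]
  simp only [mulVec_mulVec, Matrix.mul_assoc]

/-- **`Bt` is dominated by `√2 b`.** -/
theorem QW_Bt_dom {be l : ℝ} {N : ℕ} {S : ℤ} {G Kq : ℤ → ℕ → ℤ → Matrix κ κ ℝ} (hbe : 0 < be)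
    (h : ∀ x, Tr l N (G x) (Kq x)) (c x0 : ℤ) (b : ℤ → ℤ → κ → ℝ) (k : ℕ) (j n m : ℤ) :
    ((2 : ℝ) • QW k k b (fun _ => 1) n m -
      QW k k (Bt be l N S Kq c x0 b k j) (fun _ => 1) n m).PosSemidef := by
  rw [QW_Bt_eq be l N S hbe h]
  set Y : ℤ → Matrix κ κ ℝ := fun x => Th l N S (Kq x) c x0 x k j *
        ((H408.sq (Wg be l N S Kq c x0 x k j))⁻¹ * (H408.sq (Wg be l N S Kq c x0 x k j))⁻¹) *
          Th l N S (Kq x) c x0 x k j with hY
  have e : (2 : ℝ) • QW k k b (fun _ => 1) n m - QW k k b Y n m =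
      QW k k b (fun x => (2 : ℝ) • (1 : Matrix κ κ ℝ) - Y x) n m := by
    ext p q
    rw [Matrix.sub_apply, Matrix.smul_apply, smul_eq_mul]
    unfold H103.QW
    rw [mul_left_comm, ← mul_sub, mul_sum (a := (2 : ℝ)), ← sum_sub_distrib]
    congr 1
    refine sum_congr rfl fun x _ => ?_
    rw [one_mulVec, sub_mulVec, dotProduct_sub, smul_mulVec, one_mulVec, dotProduct_smul,
      smul_eq_mul]
  rw [e]
  refine QW_psd (fun x => ?_) n m
  obtain ⟨h1, h2⟩ := H408.sq_spec (Wg_pd hbe h c x0 x k j (S := S))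
  exact W_dom hbe (Th_psd (h x) c x0 x k j) (Th_le_two (h x) c x0 x k j) h1 h2

section fam

variable {ι : Type} [Fintype ι] [DecidableEq ι]

/-- **Leaf `hAB` of the increasing part**: the static saturated pair, all levels. -/
theorem PAB_le {Al : ℕ → Pt → Prop} {o : ℤ} (ho : o = 1 ∨ o = -1) {K : ℕ} {x : Pt}
    {sg : ℕ → Pt → ℝ} {be l : ℝ} (hbe : 0 < be) (hl : 0 < l) {u : ℤ → ℤ → ι → ℝ} {A : FamA}
    {b C : FamV ι} {QA QB : ℕ → ℤ → ℤ → ℤ → Prop} {mu cP : ℝ} (hmu : 0 ≤ mu)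
    (zA : ∀ x0, A x0 0 = 0) (zB : ∀ x0, b x0 0 = 0)
    (agA : ∀ k < K, ∀ x0 i m, ¬ QA k (ix k x0) i m → ∀ z ∈ iv k i, ∀ y ∈ iv k m,
      A x0 (k + 1) z y = A x0 k z y)
    (agB : ∀ k < K, ∀ x0 i m, ¬ QB k (ix k x0) i m → ∀ w ∈ iv k i, ∀ y ∈ iv k m,
      b x0 (k + 1) w y = b x0 k w y)
    (massA : ∀ k < K, ∀ i, ∀ z' ∈ iv (K - k) (ix K x.2.2), ∀ y' ∈ iv (K - k) (ix K x.2.1),
      ∑ x0 ∈ iv k i, ∑ z ∈ iv k z', ∑ y ∈ iv k y', A x0 (k + 1) z y ^ 2 ≤ mu * 8 ^ k)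
    (massB : ∀ k < K, ∀ i, ∀ w' ∈ iv (K - k) (ix K x.1), ∀ y' ∈ iv (K - k) (ix K x.2.1),
      ∑ x0 ∈ iv k i, ∑ w ∈ iv k w', ∑ y ∈ iv k y', b x0 (k + 1) w y ⬝ᵥ b x0 (k + 1) w y ≤
        mu * 8 ^ k)
    (packA : ∀ x0 : ℤ, ∑ k ∈ range K,
      H588G.cnt K (ix K x.2.2) (ix K x.2.1) k (QA k (ix k x0)) ≤ cP * 4 ^ K)
    (packB : ∀ x0 : ℤ, ∑ k ∈ range K,
      H588G.cnt K (ix K x.1) (ix K x.2.1) k (QB k (ix k x0)) ≤ cP * 4 ^ K)
    {h : ℝ} (hh : 0 < h) :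
    PABf be h ι Al o K (cx K x) sg l u A b C ≤ 4950 * (mu * (cP * 8 ^ K)) * h ^ 2 := by
  set DA : ℤ → ℝ := fun x0 => ∑ k ∈ range K, ∑ m ∈ iv (K - k) (ix K x.2.1),
    ∑ n ∈ iv (K - k) (ix K x.2.2), (if QA k (ix k x0) n m then sqb k n m (A x0 (k + 1)) else 0)
  set DB : ℤ → ℝ := fun x0 => ∑ k ∈ range K, ∑ m ∈ iv (K - k) (ix K x.2.1),
    ∑ n ∈ iv (K - k) (ix K x.1), (if QB k (ix k x0) n m then sqv k n m (b x0 (k + 1)) else 0)
  have hDA : ∀ t, ∑ x0 ∈ iv K t, DA x0 ≤ mu * (cP * 8 ^ K) := fun t =>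
    mass_x0 hmu (fun k hk i n hn m hm => by
      refine le_trans (le_of_eq ?_) (massA k hk i n hn m hm)
      refine sum_congr rfl fun x0 _ => ?_
      unfold H736.sqb
      exact sum_comm) fun x0 _ => packA x0
  have hDB : ∀ t, ∑ x0 ∈ iv K t, DB x0 ≤ mu * (cP * 8 ^ K) := fun t =>
    mass_x0 hmu (fun k hk i n hn m hm => massB k hk i n hn m hm) fun x0 _ => packB x0
  have h1 : ∀ x0, ∑ k ∈ Icc 1 K, ∑ m ∈ sN Al o K (cx K x) x0 k,
      rAB (A x0 k) (Bt be l K (cx K x).2.1 (KT l u) (o - 2) x0 (b x0 k) k m.1) k m h h ≤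
      550 * (h ^ 2 * DA x0 + 2 * h ^ 2 * DB x0) := by
    intro x0
    exact rAB_x0 (M := H677.rv (cx K x)) (H677.cP_pl ho x0)
      (Q := fun k n m => QA k (ix k x0) n m) (Q' := fun k n m => QB k (ix k x0) n m)
      (A := A x0) (b := b x0)
      (B := fun k m => Bt be l K (cx K x).2.1 (KT l u) (o - 2) x0 (b x0 k) k m.1)
      (fun k hk n _ m _ hq => agA k hk x0 n m hq) (fun k hk n _ m _ hq => agB k hk x0 n m hq)
      (zA x0) (zB x0) le_rfl le_rfl hh hh (fun k _ => H677.sN_sub Al o K (cx K x) x0 k)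
      fun k _ m _ => QW_Bt_dom hbe (fun y => tr_T hl K u y) _ _ _ _ _ _ _
  have h2 : PABf be h ι Al o K (cx K x) sg l u A b C ≤
      ∑ t ∈ rt (cx K x), 1650 * h ^ 2 * (mu * (cP * 8 ^ K)) := by
    unfold H408.PABf H408.SN
    refine sum_le_sum fun t _ => ?_
    refine (sum_le_sum fun x0 _ => h1 x0).trans ?_
    rw [← mul_sum, sum_add_distrib, ← mul_sum, ← mul_sum]
    have a1 := mul_le_mul_of_nonneg_left (hDA t) (sq_nonneg h)
    have a2 := mul_le_mul_of_nonneg_left (hDB t) (sq_nonneg h)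
    linarith
  refine h2.trans ?_
  rw [sum_const, nsmul_eq_mul]
  have h3 : (rt (cx K x)).card = 3 := by
    unfold H677.rt
    rw [Int.card_Icc]
    omega
  rw [h3]
  refine le_of_eq ?_
  push_cast
  ring

end fam

end

end Vale.Agent.P141.H652
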