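import Vale.Agent.P141.H652.PairBt
import Vale.Agent.P141.H816.FD

/-!
# P141, line (A), (TI): the leaf `hAB` of `H408.SkelTI` for the families of `H816.FDat`
-/

namespace Vale.Agent.P141.H652

open Finset Matrix
open Vale.Agent.P141.PL (Pt iv ix cx mem_iv)
open Vale.Agent.P141.PL.H315 (Tri)
open Vale.Agent.P141.H677.Sk (FamA FamV)
open Vale.Agent.P141.H408 (PABf)
open Vale.Agent.P141.H816 (FDat)

noncomputable section

open scoped Classical

/-- **Leaf `hAB`** for families with the properties `FDat`, every level `h`. -/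
theorem PAB_fd {ι : Type} [Fintype ι] [DecidableEq ι] {p : H401.Num} {n : ℕ} {ez CN : ℝ}
    {F2 : ℕ → Pt → ℝ} {K : ℕ} {x : Pt} {s r : ℝ} {U : Tri} {u v : ℤ → ℤ → ι → ℝ}
    {QA QB QC : ℕ → ℤ → ℤ → ℤ → Prop} {A : FamA} {b C : FamV ι}
    (H : FDat p n ez CN F2 K x s r U v QA QB QC A b C) (hCN : 0 ≤ CN) (ht : 0 < p.t) (hs : 0 ≤ s)
    {Al : ℕ → Pt → Prop} {o : ℤ} (ho : o = 1 ∨ o = -1) {sg : ℕ → Pt → ℝ} {be l : ℝ}
    (hbe : 0 < be) (hl : 0 < l) {h : ℝ} (hh : 0 < h) :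
    PABf be h ι Al o K (cx K x) sg l u A b C ≤
      4950 * CN ^ 2 * (p.t ^ (-p.d) * s) * 8 ^ K * h ^ 2 := by
  have h1 : 0 < p.t ^ (-p.d) := Real.rpow_pos_of_pos ht _
  refine (PAB_le ho hbe hl (mu := CN * (p.t ^ (-p.d) * s)) (cP := CN) (by positivity) H.zA H.zB
    H.agA H.agB H.massA H.massB (fun x0 => ?_) (fun x0 => ?_) hh).trans (le_of_eq (by ring))
  · exact (H.gap (ix K x0)).packA x0 (mem_iv.2 rfl)
  · exact (H.gap (ix K x0)).packB x0 (mem_iv.2 rfl)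

end

end Vale.Agent.P141.H652
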