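import Vale.Agent.P141.H652.PlaneR

/-!
# Tubes: outer scale finer than the middle scale

Middle cell `M` of scale `k + j`, outer cells `n`, `n'` of scale `k`, tied by
`n + n' = c k - 2 ^ j * M - s`, `0 ≤ s < 2 ^ j`.
-/

namespace Vale.Agent.P141.H652

open Finset Matrix Vale.Agent.P141.PL Vale.Agent.P141.H103

noncomputable section

variable {ι : Type*} [Fintype ι]

/-- the sum over tubes -/
def TW (N : ℕ) (R S T : ℤ) (k j : ℕ) (s c : ℤ) (f : ℤ → ℤ → ℤ → ℝ) : ℝ :=
  (4 : ℝ) ^ k * ∑ M ∈ iv (N - k - j) S, ∑ n ∈ iv (N - k) R,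
    if c - 2 ^ j * M - s - n ∈ iv (N - k) T then f n (c - 2 ^ j * M - s - n) M else 0

/-! ### One middle index -/

theorem eW_neg (N : ℕ) (R : ℤ) (P : ℕ → ℤ → Matrix ι ι ℝ) (a : ℕ) :
    eW N R (fun a n => - P a n) a = eW N R P a := by
  unfold eW
  simp only [Matrix.neg_mul, Matrix.mul_neg, neg_neg]

omit [Fintype ι] in
theorem Out.neg {N k : ℕ} {P : ℕ → ℤ → Matrix ι ι ℝ} (h : Out N k P) :
    Out N k (fun a n => - P a n) := fun a h1 h2 n => by
  simp only
  rw [h a h1 h2 n, ← neg_add, smul_neg]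

theorem alW_neg (N : ℕ) (R T : ℤ) (k : ℕ) (p q : ℤ → Matrix ι ι ℝ) (s : ℤ) :
    alW N R T k p (fun n => - q n) s = - alW N R T k p q s := by
  unfold alW
  rw [← Finset.sum_neg_distrib]
  refine Finset.sum_congr rfl fun n _ => ?_
  split_ifs
  · rw [Matrix.mul_neg, trace_neg]
  · simp

/-- the converse of `outer_split` -/
theorem outer_split' {N k : ℕ} (h : k < N) {R T : ℤ} {P Q : ℕ → ℤ → Matrix ι ι ℝ}
    (hP : Out N k P) (hQ : Out N k Q) (sP : ∀ a n, (P a n)ᵀ = P a n)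
    (sQ : ∀ a n, (Q a n)ᵀ = Q a n) (s : ℤ) :
    2 ^ k * alW N R T k (P k) (Q k) (2 * s + 1)
      ≤ 2 ^ (k + 1) * alW N R T (k + 1) (P (k + 1)) (Q (k + 1)) s
        + (1 / 2) * (eW N R P k - eW N R P (k + 1)) + (1 / 2) * (eW N T Q k - eW N T Q (k + 1)) := by
  have h1 := outer_split h (R := R) (T := T) hP (Out.neg hQ) sP
    (fun a n => by rw [transpose_neg, sQ]) s
  have h2 : ∑ n ∈ iv (N - (k + 1)) R, (if s - n ∈ iv (N - (k + 1)) T then
      (P (k + 1) n * (fun n => - Q (k + 1) n) (s - n)).trace else 0)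
      = - alW N R T (k + 1) (P (k + 1)) (Q (k + 1)) s := by
    rw [← alW_neg]
    rfl
  have h3 := alW_neg N R T k (P k) (Q k) (2 * s + 1)
  simp only [eW_neg] at h1
  simp only at h2
  rw [h2, h3] at h1
  linarith

/-- one step of the tube -/
theorem tube1 {N a D : ℕ} (h : a < N) {R T : ℤ} {P Q : ℕ → ℤ → Matrix ι ι ℝ}
    (hP : Out N a P) (hQ : Out N a Q) (sP : ∀ a n, (P a n)ᵀ = P a n)
    (sQ : ∀ a n, (Q a n)ᵀ = Q a n) {s s' : ℤ} (hD : |s - (2 * s' + 1)| ≤ D) :
    2 ^ a * alW N R T a (P a) (Q a) s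
      ≤ 2 ^ (a + 1) * alW N R T (a + 1) (P (a + 1)) (Q (a + 1)) s'
        + (4 * D + 1) * (SEW N a (eW N R P) + SEW N a (eW N T Q)) := by
  have q1 := outer_split' h (R := R) (T := T) hP hQ sP sQ s'
  have q2 := shiftW h.le (R := R) (T := T) hP hQ sP sQ (t := 2 * s' + 1) (t' := s) (D := D) hD
  have q3 := first_le_SEW h (e := eW N R P) (fun a h1 h2 => eW_anti hP sP h1 h2) (eW_nonneg sP N)
  have q4 := first_le_SEW h (e := eW N T Q) (fun a h1 h2 => eW_anti hQ sQ h1 h2) (eW_nonneg sQ N)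
  have q5 : (2 : ℝ) ^ a * (alW N R T a (P a) (Q a) s - alW N R T a (P a) (Q a) (2 * s' + 1))
      ≤ 2 ^ a * |alW N R T a (P a) (Q a) s - alW N R T a (P a) (Q a) (2 * s' + 1)| :=
    mul_le_mul_of_nonneg_left (le_abs_self _) (by positivity)
  have p3 : 0 ≤ eW N R P a - eW N R P (a + 1) := by
    have := eW_anti (R := R) hP sP le_rfl h
    linarith
  have p4 : 0 ≤ eW N T Q a - eW N T Q (a + 1) := by
    have := eW_anti (R := T) hQ sQ le_rfl h
    linarith
  linarith

omit [Fintype ι] in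
theorem Out.mono {N k k' : ℕ} (hk : k ≤ k') {P : ℕ → ℤ → Matrix ι ι ℝ} (h : Out N k P) :
    Out N k' P := fun a h1 h2 n => h a (hk.trans h1) h2 n

/-- **The tube for one middle index.** -/
theorem tubeM {N k D : ℕ} {R T : ℤ} {P Q : ℕ → ℤ → Matrix ι ι ℝ}
    (hP : Out N k P) (hQ : Out N k Q) (sP : ∀ a n, (P a n)ᵀ = P a n)
    (sQ : ∀ a n, (Q a n)ᵀ = Q a n) {σ : ℕ → ℤ} (j : ℕ) (hj : k + j ≤ N)
    (hσ : ∀ i, i < j → |σ i - (2 * σ (i + 1) + 1)| ≤ D) :
    2 ^ k * alW N R T k (P k) (Q k) (σ 0)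
      ≤ 2 ^ (k + j) * alW N R T (k + j) (P (k + j)) (Q (k + j)) (σ j)
        + (4 * D + 1) * ∑ i ∈ range j, (SEW N (k + i) (eW N R P) + SEW N (k + i) (eW N T Q)) := by
  induction j with
  | zero => simp
  | succ j ih =>
    have h1 := ih (by omega) fun i hi => hσ i (by omega)
    have h2 := tube1 (N := N) (a := k + j) (D := D) (by omega) (R := R) (T := T)
      (Out.mono (by omega) hP) (Out.mono (by omega) hQ) sP sQ (hσ j (by omega))
    rw [Finset.sum_range_succ, mul_add]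
    rw [← add_assoc k j 1]
    linarith

/-! ### All middle indices -/

/-- **The tube sum at one scale.** -/
theorem tube {N k j D : ℕ} (hj : k + j ≤ N) {R S T : ℤ} {c : ℕ → ℤ} (hc : PlD D c) {s : ℤ}
    (hs : 0 ≤ s) (hs' : s < 2 ^ j) {P Q : ℕ → ℤ → ℤ → Matrix ι ι ℝ}
    (hP : OutM N k P) (hQ : OutM N k Q) (sP : ∀ a n m, (P a n m)ᵀ = P a n m)
    (sQ : ∀ a n m, (Q a n m)ᵀ = Q a n m) :
    TW N R S T k j s (c k) (fun n n' m => (P k n m * Q k n' m).trace)
      ≤ (2 ^ j)⁻¹ * (MW N R S T (k + j) (c (k + j)) (P (k + j)) (Q (k + j))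
        + (4 * D + 1) * ∑ i ∈ range j, (SEW N (k + i) (EW N R S (k + j) P)
          + SEW N (k + i) (EW N T S (k + j) Q))) := by
  have hN : N - k - j = N - (k + j) := by omega
  -- the middle index `M`
  have h1 : ∀ M : ℤ, 2 ^ k * alW N R T k (fun n => P k n M) (fun n => Q k n M)
        (c k - 2 ^ j * M - s)
      ≤ 2 ^ (k + j) * alW N R T (k + j) (fun n => P (k + j) n M) (fun n => Q (k + j) n M)
          (c (k + j) - M)
        + (4 * D + 1) * ∑ i ∈ range j, (SEW N (k + i) (eW N R (fun a n => P a n M))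
          + SEW N (k + i) (eW N T (fun a n => Q a n M))) := by
    intro M
    have h := tubeM (N := N) (k := k) (D := D) (R := R) (T := T) (P := fun a n => P a n M)
      (Q := fun a n => Q a n M) (fun a h1 h2 n => hP a h1 h2 n M) (fun a h1 h2 n => hQ a h1 h2 n M)
      (fun a n => sP a n M) (fun a n => sQ a n M)
      (σ := fun i => c (k + i) - 2 ^ (j - i) * M - s / 2 ^ i) j hj (by
        intro i hi
        have hcc := hc (k + i)
        have e1 : (2 : ℤ) ^ (j - i) = 2 * 2 ^ (j - (i + 1)) := by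
          rw [← pow_succ']
          congr 1
          omega
        have e2 : s / 2 ^ (i + 1) = s / 2 ^ i / 2 := by
          rw [Int.ediv_ediv_of_nonneg (by positivity), ← pow_succ]
        rw [e1, e2, ← add_assoc k i 1]
        generalize s / 2 ^ i = u at *
        generalize (2 : ℤ) ^ (j - (i + 1)) = v at *
        have e3 : c (k + i) - 2 * v * M - u - (2 * (c (k + i + 1) - v * M - u / 2) + 1)
            = (c (k + i) - 2 * c (k + i + 1)) - (u - 2 * (u / 2)) - 1 := by ring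
        rw [e3, abs_le]
        constructor <;> omega)
    simp only [add_zero, Nat.sub_zero, pow_zero, Int.ediv_one, Nat.sub_self, one_mul] at h
    rw [Int.ediv_eq_zero_of_lt hs hs', sub_zero] at h
    exact h
  have h2 : TW N R S T k j s (c k) (fun n n' m => (P k n m * Q k n' m).trace)
      = (2 ^ j)⁻¹ * (2 ^ (k + j) * ∑ M ∈ iv (N - (k + j)) S,
        (2 ^ k * alW N R T k (fun n => P k n M) (fun n => Q k n M) (c k - 2 ^ j * M - s))) := by
    unfold TW alW
    rw [hN, ← Finset.mul_sum]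
    have h4 : (4 : ℝ) ^ k = (2 ^ j)⁻¹ * (2 ^ (k + j) * 2 ^ k) := by
      rw [pow_add, show (4 : ℝ) = 2 * 2 by norm_num, mul_pow]
      field_simp
    rw [h4]
    ring
  rw [h2]
  refine mul_le_mul_of_nonneg_left ?_ (by positivity)
  refine (mul_le_mul_of_nonneg_left (Finset.sum_le_sum fun M _ => h1 M) (by positivity)).trans
    (le_of_eq ?_)
  have h5 : ∀ i, SEW N (k + i) (EW N R S (k + j) P) + SEW N (k + i) (EW N T S (k + j) Q)
      = 2 ^ (k + j) * ∑ M ∈ iv (N - (k + j)) S, (SEW N (k + i) (eW N R (fun a n => P a n M))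
        + SEW N (k + i) (eW N T (fun a n => Q a n M))) := fun i => by
    rw [SEW_eqR, SEW_eqR, Finset.sum_add_distrib, mul_add]
  simp only [h5]
  rw [Finset.sum_add_distrib, ← Finset.mul_sum, ← Finset.mul_sum, ← Finset.mul_sum, MW,
    Finset.sum_comm (s := iv (N - (k + j)) S)]
  have h4 : (4 : ℝ) ^ (k + j) = 2 ^ (k + j) * 2 ^ (k + j) := by rw [← mul_pow]; norm_num
  rw [h4]
  unfold alW
  ring

/-! ### Sum over all scales -/

theorem WW_nonneg {N k : ℕ} {e : ℕ → ℝ} (h : ∀ a, 0 ≤ e a) : 0 ≤ WW N k e :=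
  (h k).trans (le_WW h)

/-- the shift energies at a fixed distance `j - i` below the middle scale telescope -/
theorem sum_SEW_le {k₀ N j i : ℕ} (hi : i < j) (hkN : k₀ + j ≤ N) {E dE : ℕ → ℕ → ℝ}
    (h0 : ∀ l a, 0 ≤ E l a)
    (hE : ∀ l, k₀ + j ≤ l → l < N → ∀ a, l + 1 - j ≤ a → a ≤ N → E (l + 1) a ≤ E l a + dE l a) :
    ∑ k ∈ Ico k₀ (N - j), SEW N (k + i) (E (k + j))
      ≤ WW N (k₀ + i) (E (k₀ + j)) + ∑ k ∈ Ico k₀ (N - j), WW N (k + i + 1) (dE (k + j)) := by
  have key : ∀ K, k₀ ≤ K → K + j ≤ N →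
      ∑ k ∈ Ico k₀ K, SEW N (k + i) (E (k + j)) + WW N (K + i) (E (K + j))
      ≤ WW N (k₀ + i) (E (k₀ + j)) + ∑ k ∈ Ico k₀ K, WW N (k + i + 1) (dE (k + j)) := by
    intro K hK
    induction K, hK using Nat.le_induction with
    | base => intro _; simp
    | succ K hK ih =>
      intro hKN
      have q := ih (by omega)
      have q1 := WW_step (N := N) (k := K + i) (by omega) (e := E (K + j)) (e' := E (K + j + 1))
        (d := dE (K + j)) fun a h1 h2 => hE (K + j) (by omega) (by omega) a (by omega) h2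
      rw [sum_Ico_succ_top hK, sum_Ico_succ_top hK, show K + 1 + i = K + i + 1 by omega,
        show K + 1 + j = K + j + 1 by omega]
      linarith
  have h := key (N - j) (by omega) (by omega)
  have h1 : 0 ≤ WW N (N - j + i) (E (N - j + j)) := WW_nonneg (h0 _)
  linarith

/-- **The sum of the tubes over all scales.** `P l`, `Q l` : families at middle scale `l`. -/
theorem tube_sum {k₀ N j D : ℕ} (hkN : k₀ + j ≤ N) {R S T : ℤ} {c : ℕ → ℤ} (hc : PlD D c) {s : ℤ}
    (hs : 0 ≤ s) (hs' : s < 2 ^ j) {ι : ℕ → Type*} [∀ k, Fintype (ι k)]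
    {P Q : ∀ l, ℕ → ℤ → ℤ → Matrix (ι l) (ι l) ℝ} {dE dF : ℕ → ℕ → ℝ}
    (oP : ∀ l, k₀ + j ≤ l → l ≤ N → OutM N (l - j) (P l))
    (oQ : ∀ l, k₀ + j ≤ l → l ≤ N → OutM N (l - j) (Q l))
    (sP : ∀ l a n m, (P l a n m)ᵀ = P l a n m) (sQ : ∀ l a n m, (Q l a n m)ᵀ = Q l a n m)
    (hE : ∀ l, k₀ + j ≤ l → l < N → ∀ a, l + 1 - j ≤ a → a ≤ N →
      EW N R S (l + 1) (P (l + 1)) a ≤ EW N R S l (P l) a + dE l a)
    (hF : ∀ l, k₀ + j ≤ l → l < N → ∀ a, l + 1 - j ≤ a → a ≤ N →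
      EW N T S (l + 1) (Q (l + 1)) a ≤ EW N T S l (Q l) a + dF l a) :
    ∑ k ∈ Ico k₀ (N - j), TW N R S T k j s (c k)
        (fun n n' m => (P (k + j) k n m * Q (k + j) k n' m).trace)
      ≤ (2 ^ j)⁻¹ * (∑ l ∈ Ico (k₀ + j) N, MW N R S T l (c l) (P l l) (Q l l)
        + (4 * D + 1) * (4 * j * (EW N R S (k₀ + j) (P (k₀ + j)) k₀
            + EW N T S (k₀ + j) (Q (k₀ + j)) k₀)
          + ∑ i ∈ range j, ∑ k ∈ Ico k₀ (N - j),
            (WW N (k + i + 1) (dE (k + j)) + WW N (k + i + 1) (dF (k + j))))) := by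
  have h1 : ∀ k ∈ Ico k₀ (N - j), TW N R S T k j s (c k)
        (fun n n' m => (P (k + j) k n m * Q (k + j) k n' m).trace)
      ≤ (2 ^ j)⁻¹ * (MW N R S T (k + j) (c (k + j)) (P (k + j) (k + j)) (Q (k + j) (k + j))
        + (4 * D + 1) * ∑ i ∈ range j, (SEW N (k + i) (EW N R S (k + j) (P (k + j)))
          + SEW N (k + i) (EW N T S (k + j) (Q (k + j))))) := by
    intro k hk
    have hk' := mem_Ico.1 hk
    have oP' := oP (k + j) (by omega) (by omega)
    have oQ' := oQ (k + j) (by omega) (by omega)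
    rw [Nat.add_sub_cancel] at oP' oQ'
    exact tube (by omega) hc hs hs' oP' oQ' (sP _) (sQ _)
  refine (Finset.sum_le_sum h1).trans ?_
  rw [← Finset.mul_sum]
  refine mul_le_mul_of_nonneg_left ?_ (by positivity)
  rw [Finset.sum_add_distrib, ← Finset.mul_sum]
  have h2 : ∑ k ∈ Ico k₀ (N - j), MW N R S T (k + j) (c (k + j)) (P (k + j) (k + j))
      (Q (k + j) (k + j)) = ∑ l ∈ Ico (k₀ + j) N, MW N R S T l (c l) (P l l) (Q l l) := by
    have h := Finset.sum_Ico_add' (fun l => MW N R S T l (c l) (P l l) (Q l l)) k₀ (N - j) j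
    rw [h, show N - j + j = N by omega]
  rw [h2]
  refine add_le_add_right (mul_le_mul_of_nonneg_left ?_ (by positivity)) _
  rw [Finset.sum_comm]
  have h3 : ∀ i ∈ range j, ∑ k ∈ Ico k₀ (N - j),
      (SEW N (k + i) (EW N R S (k + j) (P (k + j))) + SEW N (k + i) (EW N T S (k + j) (Q (k + j))))
      ≤ 4 * (EW N R S (k₀ + j) (P (k₀ + j)) k₀ + EW N T S (k₀ + j) (Q (k₀ + j)) k₀)
        + ∑ k ∈ Ico k₀ (N - j),
          (WW N (k + i + 1) (dE (k + j)) + WW N (k + i + 1) (dF (k + j))) := by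
    intro i hi
    have hi' := mem_range.1 hi
    have oP' := oP (k₀ + j) le_rfl hkN
    have oQ' := oQ (k₀ + j) le_rfl hkN
    rw [Nat.add_sub_cancel] at oP' oQ'
    have a1 := sum_SEW_le hi' hkN (E := fun l => EW N R S l (P l)) (dE := dE)
      (fun l a => EW_nonneg (sP l) a) hE
    have a2 := sum_SEW_le hi' hkN (E := fun l => EW N T S l (Q l)) (dE := dF)
      (fun l a => EW_nonneg (sQ l) a) hF
    have b1 := WW_le (N := N) (k := k₀ + i) (e := EW N R S (k₀ + j) (P (k₀ + j)))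
      (EW_nonneg (sP _) _) fun a x1 x2 => by
        have mono : OutM N (k₀ + i) (P (k₀ + j)) := fun a y1 y2 n m =>
          oP' a (by omega) y2 n m
        exact EW_antiR' mono (sP _) x1 x2
    have b2 := WW_le (N := N) (k := k₀ + i) (e := EW N T S (k₀ + j) (Q (k₀ + j)))
      (EW_nonneg (sQ _) _) fun a x1 x2 => by
        have mono : OutM N (k₀ + i) (Q (k₀ + j)) := fun a y1 y2 n m =>
          oQ' a (by omega) y2 n m
        exact EW_antiR' mono (sQ _) x1 x2
    have c1 := EW_antiR' (k := k₀ + j) (R := R) (S := S) oP' (sP _) (a := k₀ + i) (by omega) (by omega)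
    have c2 := EW_antiR' (k := k₀ + j) (R := T) (S := S) oQ' (sQ _) (a := k₀ + i) (by omega) (by omega)
    rw [Finset.sum_add_distrib, Finset.sum_add_distrib]
    linarith
  refine (Finset.sum_le_sum h3).trans (le_of_eq ?_)
  rw [Finset.sum_add_distrib, Finset.sum_const, card_range, nsmul_eq_mul]
  ring

/-! ### Signs on the middle cell -/

/-- conjugation by a sign pattern does not change the own energy -/
theorem trace_sign_conj [DecidableEq ι] (ε : ι → ℝ) (hε : ∀ i, ε i ^ 2 = 1) (X : Matrix ι ι ℝ) :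
    ((diagonal ε * X * diagonal ε) * (diagonal ε * X * diagonal ε)).trace = (X * X).trace := by
  have h : diagonal ε * diagonal ε = 1 := by
    rw [diagonal_mul_diagonal, ← diagonal_one]
    congr 1
    funext i
    have := hε i
    rw [← sq, this]
  have h1 : (diagonal ε * X * diagonal ε) * (diagonal ε * X * diagonal ε)
      = diagonal ε * (X * X) * diagonal ε := by
    simp only [Matrix.mul_assoc]
    rw [← Matrix.mul_assoc (diagonal ε) (diagonal ε), h, Matrix.one_mul]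
  rw [h1, trace_mul_comm, ← Matrix.mul_assoc, h, Matrix.one_mul]

/-- own energies of the families conjugated by signs -/
theorem EW_sign [DecidableEq ι] (N : ℕ) (R S : ℤ) (k : ℕ) (ε : ℤ → ι → ℝ)
    (hε : ∀ m i, ε m i ^ 2 = 1) (P : ℕ → ℤ → ℤ → Matrix ι ι ℝ) (a : ℕ) :
    EW N R S k (fun a n m => diagonal (ε m) * P a n m * diagonal (ε m)) a = EW N R S k P a := by
  unfold EW
  simp only [trace_sign_conj _ (hε _)]

theorem OutM.sign [DecidableEq ι] {N k : ℕ} {P : ℕ → ℤ → ℤ → Matrix ι ι ℝ} (h : OutM N k P)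
    (ε : ℤ → ι → ℝ) : OutM N k (fun a n m => diagonal (ε m) * P a n m * diagonal (ε m)) :=
  fun a h1 h2 n m => by
    simp only
    rw [h a h1 h2 n m, Matrix.mul_smul, Matrix.smul_mul, Matrix.mul_add, Matrix.add_mul]

theorem symm_sign [DecidableEq ι] {P : ℕ → ℤ → ℤ → Matrix ι ι ℝ}
    (h : ∀ a n m, (P a n m)ᵀ = P a n m) (ε : ℤ → ι → ℝ) (a : ℕ) (n m : ℤ) :
    ((fun a n m => diagonal (ε m) * P a n m * diagonal (ε m)) a n m)ᵀ
      = (fun a n m => diagonal (ε m) * P a n m * diagonal (ε m)) a n m := by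
  simp only [transpose_mul, diagonal_transpose, h, Matrix.mul_assoc]

end

end Vale.Agent.P141.H652
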