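import Vale.Agent.P141.H652.NumP
import Vale.Agent.P141.H457.NumBC

/-!
# P141, line (A), (TI), leaf `LBCg`: the losses on the side of `b`

The hypotheses `hZB`, `hEB` of `H419.PairB.WPair.total` for `H457.wpair`, against `payS`.

* `zb_gen`, `eb_gen` : any slot and any weights; `zb_pay`, `eb_pay` : the weights of the label tree.
-/

namespace Vale.Agent.P141.H652

open Finset Matrix
open Vale.Agent.P141.PL (Pt iv ix cx)
open Vale.Agent.P141.H103 (GW)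
open Vale.Agent.P141.H585.PairO (mh GW_mono)
open Vale.Agent.P141.H677 (KT GT)
open Vale.Agent.P141.H784 (av)
open Vale.Agent.P141.H457
open Vale.Agent.P141.H874

noncomputable section

set_option linter.unusedSectionVars false

theorem av_mono {k : ℕ} {n m : ℤ} {f g : ℤ → ℤ → ℝ} (h : ∀ x y, f x y ≤ g x y) :
    av k n m f ≤ av k n m g := by
  unfold H784.av
  exact mul_le_mul_of_nonneg_left (sum_le_sum fun x _ => sum_le_sum fun y _ => h x y)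
    (by positivity)

section gen

variable {κ : Type*} [Fintype κ] [DecidableEq κ] {be : ℝ} {T e d : ℕ → ℤ → ℤ → Matrix κ κ ℝ}

/-- the variation on the side of `b` -/
theorem zb_gen (hb : 0 < be) (hT : H419.Wt T e d) (N : ℕ) (R S T₁ : ℤ) (cc : ℕ → ℤ)
    (b : ℕ → ℤ → ℤ → κ → ℝ) :
    ∑ k ∈ Ico 0 N, GW N R S T₁ (k + 1) (cc (k + 1)) (fun n n' m =>
      mh (fun h => (CP (b (k + 1)) k (k + 1) n h * (TD d k k n' h *
        ((SD be T k (k + 1) n' h)⁻¹ * (SD be T k (k + 1) n' h)⁻¹) * TD d k k n' h)).trace) m) ≤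
    ∑ k ∈ Ico 0 N, GW N R S T₁ (k + 1) (cc (k + 1)) (fun n n' m => av (k + 1) n m fun x y =>
      be⁻¹ * ((d k x n' *ᵥ b (k + 1) x y) ⬝ᵥ (d k x n' *ᵥ b (k + 1) x y))) := by
  refine sum_le_sum fun k _ => GW_mono fun n _ n' _ m _ => ?_
  rw [zb_av hb hT.ps]
  refine av_mono fun x y => ?_
  unfold Fv
  refine H784.inv_quad_le hb (hT.d_symm k x n') ?_ _
  rw [add_sub_cancel_left]
  exact hT.ps _ _ _

/-- the drift on the side of `b` -/
theorem eb_gen (N : ℕ) (R S T₁ : ℤ) (cc : ℕ → ℤ) (b : ℕ → ℤ → ℤ → κ → ℝ) :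
    ∑ k ∈ Ico 0 N, GW N R S T₁ (k + 1) (cc (k + 1)) (fun n n' m =>
      mh (fun h => (CP (b (k + 1)) k (k + 1) n h * TD e k k n' h).trace) m) =
    ∑ k ∈ Ico 0 N, GW N R S T₁ (k + 1) (cc (k + 1)) (fun n n' m => av (k + 1) n m fun x y =>
      b (k + 1) x y ⬝ᵥ e k x n' *ᵥ b (k + 1) x y) := by
  refine sum_congr rfl fun k _ => ?_
  congr 1
  funext n n' m
  exact eb_av _ _ _ _ _

end gen

section lab

variable {ι : Type} [Fintype ι] [DecidableEq ι] {be l : ℝ} {K : ℕ} {M : Pt}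
  {u : ℤ → ℤ → ι → ℝ} {o x0 : ℤ}

theorem payS_eq (be l : ℝ) (o : ℤ) (K : ℕ) (M : Pt) (u : ℤ → ℤ → ι → ℝ)
    (b : ℕ → ℤ → ℤ → ι → ℝ) (x0 : ℤ) :
    payS be l o K M u b x0 =
    ∑ k ∈ Ico 0 K, GW K M.2.1 M.1 M.2.2 (k + 1) (H677.cP o x0 (k + 1))
      (fun n n' m => av (k + 1) n m fun x1 x2 =>
        be⁻¹ * ((ah l K M.2.1 (KT l u x1) (o - 2) x0 x1 k n' *ᵥ b (k + 1) x1 x2) ⬝ᵥ
          (ah l K M.2.1 (KT l u x1) (o - 2) x0 x1 k n' *ᵥ b (k + 1) x1 x2)) +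
        b (k + 1) x1 x2 ⬝ᵥ eb l K M.2.1 (KT l u x1) (o - 2) x0 x1 (k + 1) n' *ᵥ
          b (k + 1) x1 x2) := by
  unfold payS
  have e1 : ∀ g : ℕ → ℝ, ∑ k ∈ Icc 1 K, g k = ∑ k ∈ Ico 0 K, g (k + 1) := by
    intro g
    rw [sum_Ico_add' g 0 K 1]
    rfl
  rw [e1]
  rfl

theorem form_nn {A : Matrix ι ι ℝ} (h : A.PosSemidef) (w : ι → ℝ) : 0 ≤ w ⬝ᵥ A *ᵥ w :=
  H420.quad_nonneg h w

/-- **`hZB` of the pair**: at most the payers. -/
theorem zb_pay (hbe : 0 < be) (hl : 0 < l) (b : ℕ → ℤ → ℤ → ι → ℝ) :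
    ∑ k ∈ Ico 0 K, GW K M.2.1 M.1 M.2.2 (k + 1) (H677.cP o x0 (k + 1)) (fun n n' m =>
      mh (fun h => (CP (b (k + 1)) k (k + 1) n h *
        (TD (fun k x m => ah l K M.2.1 (KT l u x) (o - 2) x0 x k m) k k n' h *
        ((SD be (fun k x m => Th l K M.2.1 (KT l u x) (o - 2) x0 x k m) k (k + 1) n' h)⁻¹ *
        (SD be (fun k x m => Th l K M.2.1 (KT l u x) (o - 2) x0 x k m) k (k + 1) n' h)⁻¹) *
        TD (fun k x m => ah l K M.2.1 (KT l u x) (o - 2) x0 x k m) k k n' h)).trace) m) ≤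
    payS be l o K M u b x0 := by
  have hT := wt_Th (fun x => H677.tr_T hl K u x) M.2.1 (o - 2) x0
  refine (zb_gen hbe hT K M.2.1 M.1 M.2.2 (H677.cP o x0) b).trans ?_
  rw [payS_eq]
  refine sum_le_sum fun k _ => GW_mono fun n _ n' _ m _ => av_mono fun x y => ?_
  have := form_nn (eb_psd (M := M.2.1) (H677.tr_T hl K u x) (o - 2) x0 x (k + 1) n')
    (b (k + 1) x y)
  linarith

/-- **`hEB` of the pair**: at most the payers. -/
theorem eb_pay (hbe : 0 < be) (b : ℕ → ℤ → ℤ → ι → ℝ) :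
    ∑ k ∈ Ico 0 K, GW K M.2.1 M.1 M.2.2 (k + 1) (H677.cP o x0 (k + 1)) (fun n n' m =>
      mh (fun h => (CP (b (k + 1)) k (k + 1) n h *
        TD (fun k x m => eb l K M.2.1 (KT l u x) (o - 2) x0 x (k + 1) m) k k n' h).trace) m) ≤
    payS be l o K M u b x0 := by
  rw [eb_gen, payS_eq]
  refine sum_le_sum fun k _ => GW_mono fun n _ n' _ m _ => av_mono fun x y => ?_
  have h1 := inv_nonneg.2 hbe.le
  have h2 : 0 ≤ (ah l K M.2.1 (KT l u x) (o - 2) x0 x k n' *ᵥ b (k + 1) x y) ⬝ᵥ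
      (ah l K M.2.1 (KT l u x) (o - 2) x0 x k n' *ᵥ b (k + 1) x y) := dot_nn _
  have := mul_nonneg h1 h2
  linarith

theorem payS_nonneg (hbe : 0 < be) (hl : 0 < l) (b : ℕ → ℤ → ℤ → ι → ℝ) :
    0 ≤ payS be l o K M u b x0 := by
  rw [payS_eq]
  refine sum_nonneg fun k _ => ?_
  unfold H103.GW
  refine mul_nonneg (by positivity) (sum_nonneg fun m _ => sum_nonneg fun n _ => ?_)
  split_ifs
  · unfold H784.av
    refine mul_nonneg (by positivity) (sum_nonneg fun x _ => sum_nonneg fun y _ => ?_)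
    exact add_nonneg (mul_nonneg (inv_nonneg.2 hbe.le) (dot_nn _))
      (form_nn (eb_psd (H677.tr_T hl K u x) (o - 2) x0 x (k + 1) _) _)
  · exact le_rfl

end lab

end

end Vale.Agent.P141.H652
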